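import Vale.Agent.P159.H770.Dis

/-!
P159, helper770, module DISL (3): instances of `DisF`.

* `eW s t I η h = ∏ e, I e (h (t e) - h (s e) + η e)`, `EdW I` the hypotheses on edge weights,
* `disF_edges` : `η ↦ wM (eW s t I η) M`, `M` coercive,
* `disF_bg` : `(η, F) ↦ eW s t I η h * exp (- <h - F, M (h - F)> / 2)` (dislocation and real
  background together), `Zs` of it at source `0` is `ZM (eW s t I η) M F`,
* gauge covariance `eW_gauge`, `ZM_gauge`,
* the torus: `wTD b N η`, `η : V N × Bool → ℤ`, `wTD b N 0 = wT b N`, `disF_torus`,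
  `disF_torus_bg`.
-/

open scoped ENNReal Matrix
open Finset

set_option linter.unusedSectionVars false

namespace Vale.Agent.P159.H770

open Vale.Agent.P159.TM.H821 (Dup)
open Vale.Agent.P159.TM.H104 (EM T Ex Cv K3 Lg li nh Gr)
open Vale.Agent.P159.H37
open Vale.Agent.P159.H789 (disc kk PSDK reHom)

/-! ### edge models -/

section edges

variable {V E : Type} [Fintype V] [Fintype E]

/-- edge weight with the dislocation `η` -/
def eW (s t : E → V) (I : E → ℤ → ℝ) (η : E → ℤ) (h : V → ℤ) : ℝ :=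
  ∏ e, I e (h (t e) - h (s e) + η e)

/-- the gradient -/
def grd (s t : E → V) : (V → ℤ) →+ (E → ℤ) where
  toFun h := fun e => h (t e) - h (s e)
  map_zero' := by funext e; simp
  map_add' h k := by funext e; simp only [Pi.add_apply]; ring

/-- hypotheses on the edge weights -/
structure EdW (I : E → ℤ → ℝ) : Prop where
  pos : ∀ e n, 0 < I e n
  ev : ∀ e n, I e (-n) = I e n
  le : ∀ e n, I e n ≤ I e 0
  dup : ∀ e, Dup fun n => ENNReal.ofReal (I e n)

variable {s t : E → V} {I : E → ℤ → ℝ}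

theorem eW_zero (h : V → ℤ) : eW s t I 0 h = ∏ e, I e (h (t e) - h (s e)) := by
  unfold eW
  exact Finset.prod_congr rfl fun e _ => by simp

theorem EdW.eW_pos (hI : EdW I) (η : E → ℤ) (h : V → ℤ) : 0 < eW s t I η h :=
  Finset.prod_pos fun e _ => hI.pos e _

theorem EdW.eW_le (hI : EdW I) (η : E → ℤ) (h : V → ℤ) : eW s t I η h ≤ ∏ e, I e 0 :=
  Finset.prod_le_prod (fun e _ => (hI.pos e _).le) fun e _ => hI.le e _

theorem EdW.eW_neg (hI : EdW I) (η : E → ℤ) (h : V → ℤ) :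
    eW s t I (-η) (-h) = eW s t I η h := by
  unfold eW
  refine Finset.prod_congr rfl fun e _ => ?_
  rw [← hI.ev]
  congr 1
  simp only [Pi.neg_apply]
  ring

/-- **gauge covariance** -/
theorem eW_gauge (η : E → ℤ) (k h : V → ℤ) :
    eW s t I (η + grd s t k) h = eW s t I η (h + k) := by
  unfold eW grd
  refine Finset.prod_congr rfl fun e _ => ?_
  congr 1
  simp only [AddMonoidHom.coe_mk, ZeroHom.coe_mk, Pi.add_apply]
  ring

/-- the increment with dislocation, as a homomorphism -/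
def incHom (s t : E → V) (e : E) : ((V → ℤ) × (E → ℤ)) →+ ℤ where
  toFun q := q.1 (t e) - q.1 (s e) + q.2 e
  map_zero' := by simp
  map_add' p q := by simp only [Prod.fst_add, Prod.snd_add, Pi.add_apply]; ring

theorem EdW.dup_eW (hI : EdW I) :
    Dup fun q : (V → ℤ) × (E → ℤ) => ENNReal.ofReal (eW s t I q.2 q.1) := by
  have h1 : Dup (fun q : (V → ℤ) × (E → ℤ) => ∏ e, ENNReal.ofReal (I e (incHom s t e q))) :=
    Dup.prod Finset.univ (fun e _ => (hI.dup e).comp (incHom s t e))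
  have e : (fun q : (V → ℤ) × (E → ℤ) => ENNReal.ofReal (eW s t I q.2 q.1)) =
      fun q : (V → ℤ) × (E → ℤ) => ∏ e, ENNReal.ofReal (I e (incHom s t e q)) := by
    funext q
    exact ENNReal.ofReal_prod_of_nonneg fun e _ => (hI.pos e _).le
  rw [e]
  exact h1

theorem EdW.em (hI : EdW I) (η : E → ℤ) {M : Matrix V V ℝ} {m0 : ℝ} (hm0 : 0 < m0)
    (hM : ∀ u : V → ℝ, m0 * ∑ x, u x ^ 2 ≤ qf M u) : EM (wM (eW s t I η) M) :=
  em_wM (fun h => (hI.eW_pos η h).le) (hI.eW_le η) ⟨0, hI.eW_pos η 0⟩ hm0 hM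

/-- **dislocations, source form** -/
theorem disF_edges (hI : EdW I) {M : Matrix V V ℝ} {m0 : ℝ} (hm0 : 0 < m0)
    (hM : ∀ u : V → ℝ, m0 * ∑ x, u x ^ 2 ≤ qf M u) :
    DisF fun η : E → ℤ => wM (eW s t I η) M where
  em η := hI.em η hm0 hM
  ev η h := by
    unfold wM
    have : re (-h) = -re h := by funext x; simp [re]
    rw [hI.eW_neg, this, qf_neg]
  dup := by
    have h1 := (TM.H821.dup_form (V := V) fun x y => M x y).comp
      ((reHom V).comp (AddMonoidHom.fst (V → ℤ) (E → ℤ)))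
    have h2 := (hI.dup_eW (s := s) (t := t)).mul h1
    have e : (fun q : (V → ℤ) × (E → ℤ) => ENNReal.ofReal (wM (eW s t I q.2) M q.1)) =
        fun q : (V → ℤ) × (E → ℤ) => ENNReal.ofReal (eW s t I q.2 q.1) *
          ENNReal.ofReal (Real.exp ((-∑ x, ∑ y,
            (((reHom V).comp (AddMonoidHom.fst (V → ℤ) (E → ℤ))) q) x * M x y *
            (((reHom V).comp (AddMonoidHom.fst (V → ℤ) (E → ℤ))) q) y) / 2)) := by
      funext q
      rw [← ENNReal.ofReal_mul (hI.eW_pos _ _).le]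
      unfold wM qf
      rw [neg_div]
      rfl
    rw [e]
    exact h2

/-- weight with dislocation and real background -/
noncomputable def eWF (s t : E → V) (I : E → ℤ → ℝ) (M : Matrix V V ℝ)
    (q : (E → ℤ) × (V → ℝ)) (h : V → ℤ) : ℝ :=
  eW s t I q.1 h * Real.exp (-(qf M (re h - q.2) / 2))

theorem Zs_eWF (M : Matrix V V ℝ) (q : (E → ℤ) × (V → ℝ)) :
    Zs (eWF s t I M q) 0 = ZM (eW s t I q.1) M q.2 := by
  unfold Zs ZM TM.H104.T eWF
  refine tsum_congr fun h => ?_
  rw [TM.H104.li_zero, Real.exp_zero, one_mul, mul_one]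

/-- background and source together -/
theorem Zs_eWF' {M : Matrix V V ℝ} (hM : Mᵀ = M) (q : (E → ℤ) × (V → ℝ)) (J : V → ℝ) :
    Zs (eWF s t I M q) J =
      Real.exp (-(qf M q.2 / 2)) * Zs (wM (eW s t I q.1) M) (Matrix.mulVec M q.2 + J) := by
  unfold Zs TM.H104.T
  rw [← tsum_mul_left]
  refine tsum_congr fun h => ?_
  unfold wM eWF
  rw [one_mul, one_mul, TM.H104.li_add, li_mass hM, qf_sub_vec hM, Real.exp_add]
  have e : Real.exp (-((qf M (re h) + qf M q.2 - 2 * bf M (re h) q.2) / 2)) =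
      Real.exp (-(qf M q.2 / 2)) * Real.exp (-(qf M (re h) / 2)) *
        Real.exp (bf M (re h) q.2) := by
    rw [← Real.exp_add, ← Real.exp_add]
    congr 1
    ring
  rw [show qf M (re h) - 2 * bf M (re h) q.2 + qf M q.2 =
    qf M (re h) + qf M q.2 - 2 * bf M (re h) q.2 by ring, e]
  ring

/-- the background form as a homomorphism -/
def bgH (V E : Type) : ((V → ℤ) × ((E → ℤ) × (V → ℝ))) →+ (V → ℝ) where
  toFun q := fun x => (q.1 x : ℝ) - q.2.2 x
  map_zero' := by funext x; simp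
  map_add' p q := by
    funext x
    simp only [Prod.fst_add, Prod.snd_add, Pi.add_apply]
    push_cast
    ring

/-- **dislocations and real backgrounds** -/
theorem disF_bg (hI : EdW I) {M : Matrix V V ℝ} (hMt : Mᵀ = M) {m0 : ℝ} (hm0 : 0 < m0)
    (hM : ∀ u : V → ℝ, m0 * ∑ x, u x ^ 2 ≤ qf M u) : DisF (eWF s t I M) where
  em q := by
    have h1 : EM (wM (eW s t I q.1) M) := hI.em q.1 hm0 hM
    have h2 := H789.em_tw h1 (Matrix.mulVec M q.2)
    have e : eWF s t I M q = fun h => Real.exp (-(qf M q.2 / 2)) *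
        H789.tw (wM (eW s t I q.1) M) (Matrix.mulVec M q.2) h := by
      funext h
      unfold eWF H789.tw wM
      rw [li_mass hMt, qf_sub_vec hMt, mul_assoc, ← Real.exp_add, ← mul_assoc,
        mul_comm _ (eW s t I q.1 h), mul_assoc, ← Real.exp_add]
      congr 2
      ring
    rw [e]
    refine ⟨fun h => mul_nonneg (Real.exp_pos _).le (h2.nn h), ?_, fun C => ?_⟩
    · obtain ⟨h, hh⟩ := h2.pos
      exact ⟨h, mul_pos (Real.exp_pos _) hh⟩
    · have := (h2.sum C).mul_left (Real.exp (-(qf M q.2 / 2)))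
      refine this.congr fun h => ?_
      ring
  ev q h := by
    unfold eWF
    have e1 : re (-h) - (-q).2 = -(re h - q.2) := by
      funext x
      simp only [re, Pi.neg_apply, Pi.sub_apply, Prod.snd_neg]
      push_cast
      ring
    rw [e1, qf_neg, Prod.fst_neg, hI.eW_neg]
  dup := by
    have h1 := (TM.H821.dup_form (V := V) fun x y => M x y).comp (bgH V E)
    have h0 := (hI.dup_eW (s := s) (t := t)).comp
      ((AddMonoidHom.fst (V → ℤ) ((E → ℤ) × (V → ℝ))).prod
        ((AddMonoidHom.fst (E → ℤ) (V → ℝ)).comp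
          (AddMonoidHom.snd (V → ℤ) ((E → ℤ) × (V → ℝ)))))
    have h2 := h0.mul h1
    have e : (fun q : (V → ℤ) × ((E → ℤ) × (V → ℝ)) => ENNReal.ofReal (eWF s t I M q.2 q.1)) =
        fun q : (V → ℤ) × ((E → ℤ) × (V → ℝ)) => ENNReal.ofReal (eW s t I q.2.1 q.1) *
          ENNReal.ofReal (Real.exp ((-∑ x, ∑ y, (bgH V E q) x * M x y * (bgH V E q) y) / 2)) := by
      funext q
      rw [← ENNReal.ofReal_mul (hI.eW_pos _ _).le]
      unfold eWF qf
      rw [neg_div]
      rfl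
    rw [e]
    exact h2

/-- gauge covariance of the partition function -/
theorem ZM_gauge (M : Matrix V V ℝ) (η : E → ℤ) (k : V → ℤ) (F : V → ℝ) :
    ZM (eW s t I (η + grd s t k)) M F = ZM (eW s t I η) M (F + re k) := by
  unfold ZM
  rw [← (Equiv.addRight k).tsum_eq (fun h => eW s t I η h *
    Real.exp (-(qf M (re h - (F + re k)) / 2)))]
  refine tsum_congr fun h => ?_
  rw [eW_gauge, Equiv.coe_addRight]
  congr 3
  have : re (h + k) - (F + re k) = re h - F := by
    funext x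
    simp only [re, Pi.add_apply, Pi.sub_apply]
    push_cast
    ring
  rw [this]

end edges

/-! ### the torus -/

section torus

open Vale.Agent.P159.H353 (wI wI_nonneg wI_neg wI_anti wI_eq aw cb summable_aw_col aw_nonneg)
open Vale.Agent.P159.TM.SpecC (Tor wT)

theorem wI_pos {b : ℝ} (hb : 0 < b) (n : ℤ) : 0 < wI b n := by
  rw [wI_eq]
  refine mul_pos (Real.exp_pos _) ?_
  have h := (summable_aw_col hb.le n).le_tsum n.natAbs fun k _ => aw_nonneg hb.le k n
  refine lt_of_lt_of_le ?_ h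
  unfold aw cb
  rw [← two_mul, Nat.choose_self]
  positivity

theorem edW_wI {E : Type} {b : ℝ} (hb : 0 < b) : EdW fun _ : E => wI b where
  pos _ n := wI_pos hb n
  ev _ n := wI_neg b n
  le _ n := wI_anti hb.le (by simp)
  dup _ := TM.H821.dup_wI hb.le

variable (N : ℕ) [NeZero N]

/-- edges of the torus -/
abbrev Ed : Type := Tor N × Bool

/-- starting point -/
def eS (e : Ed N) : Tor N := e.1

/-- end point -/
def eT (e : Ed N) : Tor N := if e.2 then e.1 + (0, 1) else e.1 + (1, 0)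

/-- torus weight with the dislocation `η` -/
noncomputable def wTD (b : ℝ) (η : Ed N → ℤ) (h : Tor N → ℤ) : ℝ :=
  eW (eS N) (eT N) (fun _ => wI b) η h

variable {N}

theorem wTD_eq (b : ℝ) (η : Ed N → ℤ) (h : Tor N → ℤ) :
    wTD N b η h = ∏ x : Tor N, wI b (h (x + (1, 0)) - h x + η (x, false)) *
      wI b (h (x + (0, 1)) - h x + η (x, true)) := by
  unfold wTD eW
  rw [Fintype.prod_prod_type]
  refine Finset.prod_congr rfl fun x _ => ?_
  rw [Fintype.prod_bool, mul_comm]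
  simp [eS, eT]

theorem wTD_zero (b : ℝ) : wTD N b 0 = wT b N := by
  funext h
  rw [wTD_eq]
  unfold wT
  refine Finset.prod_congr rfl fun x _ => ?_
  simp

variable {b : ℝ}

theorem wTD_pos (hb : 0 < b) (η : Ed N → ℤ) (h : Tor N → ℤ) : 0 < wTD N b η h :=
  (edW_wI hb).eW_pos η h

theorem wTD_le (hb : 0 < b) (η : Ed N → ℤ) (h : Tor N → ℤ) : wTD N b η h ≤ wT b N 0 := by
  have h1 := (edW_wI hb).eW_le (s := eS N) (t := eT N) η h
  have h2 : ∏ _e : Ed N, wI b 0 = wT b N 0 := by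
    rw [← wTD_zero, wTD_eq, Fintype.prod_prod_type]
    refine Finset.prod_congr rfl fun x _ => ?_
    rw [Fintype.prod_bool]
    simp
  rw [← h2]
  exact h1

theorem em_wTD (hb : 0 < b) (η : Ed N → ℤ) {M : Matrix (Tor N) (Tor N) ℝ} {m0 : ℝ}
    (hm0 : 0 < m0) (hM : ∀ u : Tor N → ℝ, m0 * ∑ x, u x ^ 2 ≤ qf M u) :
    EM (wM (wTD N b η) M) := (edW_wI hb).em η hm0 hM

theorem disF_torus (hb : 0 < b) {M : Matrix (Tor N) (Tor N) ℝ} {m0 : ℝ} (hm0 : 0 < m0)
    (hM : ∀ u : Tor N → ℝ, m0 * ∑ x, u x ^ 2 ≤ qf M u) :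
    DisF fun η : Ed N → ℤ => wM (wTD N b η) M := disF_edges (edW_wI hb) hm0 hM

/-- the torus weight with scalar mass `t` and dislocation -/
noncomputable def wtD (N : ℕ) [NeZero N] (b t : ℝ) (η : Ed N → ℤ) : (Tor N → ℤ) → ℝ :=
  wM (wTD N b η) (t • (1 : Matrix (Tor N) (Tor N) ℝ))

theorem wtD_zero (b t : ℝ) : wtD N b t 0 = wt N b t := by
  unfold wtD wt
  rw [wTD_zero]

theorem disF_wtD {t : ℝ} (hb : 0 < b) (ht : 0 < t) : DisF (wtD N b t) :=
  disF_torus hb ht (H789.coer_smul t)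

theorem disF_torus_bg (hb : 0 < b) {M : Matrix (Tor N) (Tor N) ℝ} (hMt : Mᵀ = M) {m0 : ℝ}
    (hm0 : 0 < m0) (hM : ∀ u : Tor N → ℝ, m0 * ∑ x, u x ^ 2 ≤ qf M u) :
    DisF (eWF (eS N) (eT N) (fun _ => wI b) M) := disF_bg (edW_wI hb) hMt hm0 hM

end torus

end Vale.Agent.P159.H770
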