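import Vale.Agent.P159.H770.DisL
import Vale.Agent.P159.H239.Met0

/-!
P159, helper770, module DISL (7): pointwise consequences of the metric inequality of the half
dislocation family, in the letters of helper239 (`Met`, `tn`, `dl`).

`MetD RD R` : `R` satisfies `Met`, `RD ≥ 0`, `RD 0 = 0`, `2 RD a + 2 R c ≤ RD (a+c) + RD (a-c)` and
`|exp (dD a c) - 1| ≤ tD a * tD c`, `dD a c = RD(a+c) + R(a-c) - RD a - R a - RD c - R c`,
`tD a = √(exp (RD(2a) - 2 RD a - 2 R a) - 1)`.

* `MetD.abs_dD_le`, `abs_dD_le'` : `|dD a c| ≤ (2 + 2 (RD a + R a + RD c + R c)) tD a tD c`, no smallness,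
* `Qd a = RD a - R a` : `Qd_add` : `|Qd (a+c) - Qd a - Qd c| ≤ ..` (almost additive),
  `Qd_even_nonneg` : `0 ≤ Qd a + Qd (-a)`, `Qd_even_le`, `Qd_odd`,
* `tD_sq_eq`: `tD² + 1 = exp (TR R a + (Qd (2a) - 2 Qd a))`,
* `metD_fam` : the instance `MetD (RsD W b J) (Rs (W 0))`.
-/

open Real

set_option linter.unusedSectionVars false

namespace Vale.Agent.P159.H770

open Vale.Agent.P159.H239

variable {E : Type*} [AddCommGroup E] [Module ℝ E]

/-- the exponent -/
def dD (RD R : E → ℝ) (a c : E) : ℝ := RD (a + c) + R (a - c) - RD a - R a - RD c - R c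

/-- `log (1 + tan² α)` -/
def TRD (RD R : E → ℝ) (a : E) : ℝ := RD ((2 : ℝ) • a) - 2 * RD a - 2 * R a

/-- `tan α` -/
noncomputable def tD (RD R : E → ℝ) (a : E) : ℝ := √(Real.exp (TRD RD R a) - 1)

/-- the deviation of the dislocation factor from an exponential-linear function -/
def Qd (RD R : E → ℝ) (a : E) : ℝ := RD a - R a

/-- abstract pair -/
structure MetD (RD R : E → ℝ) : Prop where
  base : Met R
  nn : ∀ x, 0 ≤ RD x
  zero : RD 0 = 0
  par : ∀ a c, 2 * RD a + 2 * R c ≤ RD (a + c) + RD (a - c)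
  met : ∀ a c, |Real.exp (dD RD R a c) - 1| ≤ tD RD R a * tD RD R c

variable {RD R : E → ℝ}

theorem tD_nonneg (a : E) : 0 ≤ tD RD R a := Real.sqrt_nonneg _

theorem TRD_eq (a : E) :
    TRD RD R a = TR R a + (Qd RD R ((2 : ℝ) • a) - 2 * Qd RD R a) := by
  unfold TRD TR Qd
  ring

theorem dD_eq (a c : E) : dD RD R a c = dl R a c + (Qd RD R (a + c) - Qd RD R a - Qd RD R c) := by
  unfold dD dl Qd
  ring

theorem MetD.TRD_nonneg (h : MetD RD R) (a : E) : 0 ≤ TRD RD R a := by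
  have h1 := h.par a a
  rw [sub_self, h.zero, ← two_smul ℝ a] at h1
  unfold TRD
  linarith

theorem MetD.tD_sq (h : MetD RD R) (a : E) : tD RD R a ^ 2 = Real.exp (TRD RD R a) - 1 :=
  Real.sq_sqrt (by
    have := Real.one_le_exp (h.TRD_nonneg a)
    linarith)

theorem MetD.tD_sq_le (h : MetD RD R) {a : E} {r : ℝ} (h1 : r ≤ 1) (hT : TRD RD R a ≤ r) :
    tD RD R a ^ 2 ≤ 2 * r := by
  have h0 := (h.TRD_nonneg a).trans hT
  rw [h.tD_sq]
  have h2 : Real.exp (TRD RD R a) ≤ Real.exp r := Real.exp_le_exp.2 hT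
  have h4 := Real.abs_exp_sub_one_le (x := r) (by rw [abs_of_nonneg h0]; exact h1)
  rw [abs_of_nonneg h0] at h4
  have h5 := le_abs_self (Real.exp r - 1)
  linarith

theorem MetD.dD_le (h : MetD RD R) (a c : E) : dD RD R a c ≤ tD RD R a * tD RD R c :=
  le_of_met (h.met a c)

/-- **the basic estimate**, no smallness required -/
theorem MetD.abs_dD_le (h : MetD RD R) (a c : E) :
    |dD RD R a c| ≤ (2 + 2 * (RD a + R a + RD c + R c)) * (tD RD R a * tD RD R c) := by
  have h0 : 0 ≤ tD RD R a * tD RD R c := mul_nonneg (tD_nonneg _) (tD_nonneg _)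
  have h1 := h.nn a
  have h2 := h.nn c
  have h1' := h.base.nn a
  have h2' := h.base.nn c
  set S := RD a + R a + RD c + R c with hS
  have hS0 : 0 ≤ S := by positivity
  have h3 : tD RD R a * tD RD R c ≤ (2 + 2 * S) * (tD RD R a * tD RD R c) := by
    have : 1 ≤ 2 + 2 * S := by linarith
    nlinarith
  refine abs_le.2 ⟨?_, (h.dD_le a c).trans h3⟩
  rcases le_or_gt (tD RD R a * tD RD R c) (1 / 2) with ht | ht
  · have h4 := ge_of_met (h.met a c) ht
    nlinarith [mul_nonneg hS0 h0]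
  · have h5 : -S ≤ dD RD R a c := by
      unfold dD
      linarith [h.nn (a + c), h.base.nn (a - c)]
    nlinarith [mul_nonneg hS0 h0]

/-- on the good set -/
theorem MetD.abs_dD_le' (h : MetD RD R) {a c : E} (ha : RD a + R a ≤ 2) (hc : RD c + R c ≤ 2) :
    |dD RD R a c| ≤ 10 * (tD RD R a * tD RD R c) := by
  refine (h.abs_dD_le a c).trans ?_
  have h0 : 0 ≤ tD RD R a * tD RD R c := mul_nonneg (tD_nonneg _) (tD_nonneg _)
  nlinarith

/-- **`Qd` is almost additive** -/
theorem MetD.Qd_add (h : MetD RD R) (a c : E) :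
    |Qd RD R (a + c) - Qd RD R a - Qd RD R c| ≤
      (2 + 2 * (RD a + R a + RD c + R c)) * (tD RD R a * tD RD R c) +
        (2 + 4 * R a + 4 * R c) * (tn R a * tn R c) := by
  have h1 := h.abs_dD_le a c
  have h2 := h.base.abs_dl_le a c
  have h3 : Qd RD R (a + c) - Qd RD R a - Qd RD R c = dD RD R a c - dl R a c := by
    rw [dD_eq]
    ring
  rw [h3]
  exact (abs_sub _ _).trans (add_le_add h1 h2)

theorem MetD.Qd_zero (h : MetD RD R) : Qd RD R 0 = 0 := by
  unfold Qd
  rw [h.zero, h.base.zero, sub_zero]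

/-- the even part of `Qd` is nonnegative -/
theorem MetD.Qd_even_nonneg (h : MetD RD R) (a : E) : 0 ≤ Qd RD R a + Qd RD R (-a) := by
  have h1 := h.par 0 a
  rw [h.zero, zero_add, zero_sub] at h1
  unfold Qd
  rw [h.base.even a]
  linarith

/-- the even part of `Qd` is small -/
theorem MetD.Qd_even_le (h : MetD RD R) (a : E) :
    Qd RD R a + Qd RD R (-a) ≤
      (2 + 2 * (RD a + R a + RD (-a) + R a)) * (tD RD R a * tD RD R (-a)) +
        (2 + 8 * R a) * (tn R a * tn R a) := by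
  have h1 := h.Qd_add a (-a)
  rw [add_neg_cancel, h.Qd_zero, h.base.even a] at h1
  have h2 := (abs_le.1 h1).1
  have h3 : tn R (-a) = tn R a := by
    unfold tn TR
    rw [smul_neg, h.base.even, h.base.even]
  rw [h3] at h2
  nlinarith [h2]

/-- doubling -/
theorem MetD.Qd_two (h : MetD RD R) (a : E) :
    |Qd RD R ((2 : ℝ) • a) - 2 * Qd RD R a| ≤
      (2 + 4 * (RD a + R a)) * tD RD R a ^ 2 + (2 + 8 * R a) * tn R a ^ 2 := by
  have h1 := h.Qd_add a a
  rw [← two_smul ℝ a] at h1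
  have e : Qd RD R ((2 : ℝ) • a) - Qd RD R a - Qd RD R a =
      Qd RD R ((2 : ℝ) • a) - 2 * Qd RD R a := by ring
  rw [e] at h1
  refine h1.trans (le_of_eq ?_)
  ring

/-- monotonicity of the nonquadratic part in the good direction: `2 R a ≤ RD a + RD (-a)` -/
theorem MetD.R_le (h : MetD RD R) (a : E) : 2 * R a ≤ RD a + RD (-a) := by
  have h1 := h.Qd_even_nonneg a
  unfold Qd at h1
  rw [h.base.even a] at h1
  linarith

/-- `RD` is superquadratic along doubling: `2 RD a + 2 R a ≤ RD (2a)` -/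
theorem MetD.two_le (h : MetD RD R) (a : E) : 2 * RD a + 2 * R a ≤ RD ((2 : ℝ) • a) := by
  have := h.TRD_nonneg a
  unfold TRD at this
  linarith

/-- on the good set in terms of `r ≥ TRD`, `TR` -/
theorem MetD.Qd_add_good (h : MetD RD R) {a c : E} {ra rc sa sc : ℝ}
    (ha : RD a + R a ≤ 2) (hc : RD c + R c ≤ 2) (hra : ra ≤ 1) (hrc : rc ≤ 1)
    (hTa : TRD RD R a ≤ ra) (hTc : TRD RD R c ≤ rc) (hsa : sa ≤ 1) (hsc : sc ≤ 1)
    (hSa : TR R a ≤ sa) (hSc : TR R c ≤ sc) (hsa0 : 0 ≤ sa) (hsc0 : 0 ≤ sc) :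
    |Qd RD R (a + c) - Qd RD R a - Qd RD R c| ≤ 20 * √(ra * rc) + 36 * √(sa * sc) := by
  have h1 := h.Qd_add a c
  have hra0 := (h.TRD_nonneg a).trans hTa
  have hrc0 := (h.TRD_nonneg c).trans hTc
  have t1 := h.tD_sq_le hra hTa
  have t2 := h.tD_sq_le hrc hTc
  have t3 := tn_sq_le hsa0 hsa hSa
  have t4 := tn_sq_le hsc0 hsc hSc
  have n1 := tD_nonneg (RD := RD) (R := R) a
  have n2 := tD_nonneg (RD := RD) (R := R) c
  have n3 := tn_nonneg R a
  have n4 := tn_nonneg R c
  have p1 : tD RD R a * tD RD R c ≤ 2 * √(ra * rc) := by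
    have : tD RD R a * tD RD R c ≤ √((2 * √(ra * rc)) ^ 2) := by
      refine Real.le_sqrt_of_sq_le ?_
      rw [mul_pow, mul_pow, Real.sq_sqrt (by positivity)]
      nlinarith [mul_le_mul t1 t2 (sq_nonneg _) (by positivity)]
    rwa [Real.sqrt_sq (by positivity)] at this
  have p2 : tn R a * tn R c ≤ 2 * √(sa * sc) := by
    have : tn R a * tn R c ≤ √((2 * √(sa * sc)) ^ 2) := by
      refine Real.le_sqrt_of_sq_le ?_
      rw [mul_pow, mul_pow, Real.sq_sqrt (by positivity)]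
      nlinarith [mul_le_mul t3 t4 (sq_nonneg _) (by positivity)]
    rwa [Real.sqrt_sq (by positivity)] at this
  have q1 : (2 + 2 * (RD a + R a + RD c + R c)) * (tD RD R a * tD RD R c) ≤
      10 * (2 * √(ra * rc)) := by
    have : 2 + 2 * (RD a + R a + RD c + R c) ≤ 10 := by linarith
    exact mul_le_mul this p1 (mul_nonneg n1 n2) (by norm_num)
  have q2 : (2 + 4 * R a + 4 * R c) * (tn R a * tn R c) ≤ 18 * (2 * √(sa * sc)) := by
    have : 2 + 4 * R a + 4 * R c ≤ 18 := by linarith [h.nn a, h.nn c]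
    exact mul_le_mul this p2 (mul_nonneg n3 n4) (by norm_num)
  linarith

/-! ### the instance -/

section inst

open Vale.Agent.P159.H37
open Vale.Agent.P159.H789 (Rs_neg Rs_nonneg Tq_eq)

variable {B V : Type} [AddCommGroup B] [Fintype V] {W : B → (V → ℤ) → ℝ}

/-- the undislocated structure of helper239 -/
theorem met_Rs {μ : (V → ℤ) → ℝ} (hμ : TM.H104.EM μ) (he : Ev μ) (hK : PK μ) : Met (Rs μ) where
  even := Rs_neg he
  nn := Rs_nonneg hμ he hK
  met a c := by
    have h := H789.met2 hμ he hK a c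
    have e1 : dl (Rs μ) a c = Rs μ (a + c) + Rs μ (a - c) - 2 * Rs μ a - 2 * Rs μ c := rfl
    have t : ∀ x, tn (Rs μ) x ^ 2 = Real.exp (Tq μ x) - 1 := by
      intro x
      have hT : TR (Rs μ) x = Tq μ x := (Tq_eq μ x).symm
      unfold tn
      rw [hT, Real.sq_sqrt]
      have := Real.one_le_exp (H789.Tq_nonneg hμ he hK x)
      linarith
    rw [← t a, ← t c, ← mul_pow] at h
    rw [e1]
    exact abs_le_of_sq_le_sq h (mul_nonneg (tn_nonneg _ a) (tn_nonneg _ c))

/-- **the instance** -/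
theorem metD_fam (hW : DisF W) (b : B) (J : V → ℝ) : MetD (RsD W b J) (Rs (W 0)) where
  base := met_Rs (hW.em 0) hW.ev0 hW.pk
  nn := RsD_nonneg hW b J
  zero := RsD_zero_vec b J
  par := parD hW b J
  met := metH_log hW b J

end inst

end Vale.Agent.P159.H770
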