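import Vale.Agent.P159.H770.Dis
import Vale.Agent.P159.H789.Ray

/-!
P159, helper770, module DISL (4): logarithmic letters.

For a family `W` of weights (`DisF`), `Z(b, J) = Zs (W b) J`, `G = Gm (W 0)`:

* `RsD W b J a = log Z(b,J+a) - log Z(b,J) - E^b_J⟨a,h⟩ - ⟨a,G a⟩/2` (non-quadratic part in the
  dislocated background, reference form = undislocated covariance),
* `TqD W b J a = RsD (2a) - 2 RsD a - 2 Rs a` (`= log (1 + tan² α_a)`), `TqD_eq`,
* `metH_log` : `|exp (RsD(a+c) + Rs(a-c) - RsD a - Rs a - RsD c - Rs c) - 1|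
    ≤ √(e^{TqD a} - 1) √(e^{TqD c} - 1)`,
* `parD` : `2 RsD a + 2 Rs c ≤ RsD (a+c) + RsD (a-c)`,
* `Cv_monoD` : `C^b_J ≥ G` as forms, `RsD_nonneg`, `Rs_le_RsD_add` ...
* `lb1D`, `starD` : covariances in the dislocated background by `T^D`.
-/

open scoped ENNReal Topology Matrix
open Finset Filter

namespace Vale.Agent.P159.H770

open Vale.Agent.P159.TM.H821 (Dup)
open Vale.Agent.P159.TM.H104 (EM T Ex Cv K3 Lg li nh Gr)
open Vale.Agent.P159.H37
open Vale.Agent.P159.H789 (disc kk PSDK yy)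

section family

variable {B V : Type} [AddCommGroup B] [Fintype V] {W : B → (V → ℤ) → ℝ}

theorem exp_LgB (hW : DisF W) (b : B) (J : V → ℝ) : Real.exp (Lg (W b) J) = Zs (W b) J :=
  Real.exp_log (hW.pos b J)

theorem DisF.pk (hW : DisF W) : PK (W 0) := by
  intro n a c
  have h := hW.pp 0 0 n a c
  refine le_of_le_of_eq h ?_
  refine Finset.sum_congr rfl fun i _ => Finset.sum_congr rfl fun j _ => ?_
  simp [kp, Ker]

/-- non-quadratic part in the dislocated background -/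
noncomputable def RsD (W : B → (V → ℤ) → ℝ) (b : B) (J a : V → ℝ) : ℝ :=
  Lg (W b) (J + a) - Lg (W b) J - Ex (W b) J (li a) - qf (Gm (W 0)) a / 2

/-- `log (1 + tan² α)` -/
noncomputable def TqD (W : B → (V → ℤ) → ℝ) (b : B) (J a : V → ℝ) : ℝ :=
  RsD W b J ((2 : ℝ) • a) - 2 * RsD W b J a - 2 * Rs (W 0) a

/-- the exponent of the half dislocation metric inequality -/
noncomputable def dlD (W : B → (V → ℤ) → ℝ) (b : B) (J a c : V → ℝ) : ℝ :=
  RsD W b J (a + c) + Rs (W 0) (a - c) - RsD W b J a - Rs (W 0) a - RsD W b J c - Rs (W 0) c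

theorem Ex_li_add (hW : DisF W) (b : B) (J a c : V → ℝ) :
    Ex (W b) J (li (a + c)) = Ex (W b) J (li a) + Ex (W b) J (li c) := by
  have e : li (a + c) = fun h : V → ℤ => li a h + li c h := funext fun h => TM.H104.li_add a c h
  rw [e, TM.H104.Ex_add (hW.em b) (Gr.li a) (Gr.li c)]

theorem Ex_li_smul (μ : (V → ℤ) → ℝ) (J : V → ℝ) (s : ℝ) (a : V → ℝ) :
    Ex μ J (li (s • a)) = s * Ex μ J (li a) := by
  have e : li (s • a) = fun h : V → ℤ => s * li a h := funext fun h => TM.H104.li_smul s a h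
  rw [e, TM.H104.Ex_cmul]

theorem Ex_li_neg (μ : (V → ℤ) → ℝ) (J : V → ℝ) (a : V → ℝ) :
    Ex μ J (li (-a)) = -Ex μ J (li a) := by
  have := Ex_li_smul μ J (-1) a
  rw [neg_one_smul] at this
  rw [this]
  ring

theorem TqD_eq (b : B) (J a : V → ℝ) :
    TqD W b J a = Lg (W b) (J + (a + a)) + Lg (W b) J + 2 * Lg (W 0) 0 - 2 * Lg (W b) (J + a)
      - 2 * Lg (W 0) a := by
  unfold TqD RsD Rs
  rw [Ex_li_smul, qf_smul, two_smul]
  ring

theorem dlD_eq (hW : DisF W) (b : B) (J a c : V → ℝ) :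
    dlD W b J a c = Lg (W b) (J + (a + c)) + Lg (W 0) (a - c) + Lg (W b) J + Lg (W 0) 0
      - Lg (W b) (J + a) - Lg (W 0) a - Lg (W b) (J + c) - Lg (W 0) c := by
  unfold dlD RsD Rs
  have h := H789.qf_par (Gm (W 0)) a c
  rw [Ex_li_add hW]
  linarith

theorem exp_TqD (hW : DisF W) (b : B) (J a : V → ℝ) :
    Real.exp (TqD W b J a) = Zs (W b) (J + (a + a)) * Zs (W b) J * Zs (W 0) 0 ^ 2 /
      (Zs (W b) (J + a) * Zs (W 0) a) ^ 2 := by
  have p1 := hW.pos b (J + (a + a))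
  have p2 := hW.pos b J
  have p3 := hW.pos 0 0
  have p4 := hW.pos b (J + a)
  have p5 := hW.pos 0 a
  rw [TqD_eq, ← exp_LgB hW b (J + (a + a)), ← exp_LgB hW b J, ← exp_LgB hW 0 0,
    ← exp_LgB hW b (J + a), ← exp_LgB hW 0 a, ← Real.exp_add, ← Real.exp_add, ← Real.exp_nat_mul,
    ← Real.exp_add, ← Real.exp_nat_mul, ← Real.exp_sub]
  congr 1
  push_cast
  ring

theorem exp_dlD (hW : DisF W) (b : B) (J a c : V → ℝ) :
    Real.exp (dlD W b J a c) = Zs (W b) (J + (a + c)) * Zs (W 0) (a - c) *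
      (Zs (W b) J * Zs (W 0) 0) / (Zs (W b) (J + a) * Zs (W 0) a *
        (Zs (W b) (J + c) * Zs (W 0) c)) := by
  rw [dlD_eq hW, ← exp_LgB hW b (J + (a + c)), ← exp_LgB hW 0 (a - c), ← exp_LgB hW b J,
    ← exp_LgB hW 0 0, ← exp_LgB hW b (J + a), ← exp_LgB hW 0 a, ← exp_LgB hW b (J + c),
    ← exp_LgB hW 0 c, ← Real.exp_add, ← Real.exp_add, ← Real.exp_add, ← Real.exp_add,
    ← Real.exp_add, ← Real.exp_add, ← Real.exp_sub]
  congr 1
  ring

theorem TqD_nonneg (hW : DisF W) (b : B) (J a : V → ℝ) : 0 ≤ TqD W b J a := by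
  have h := ang_nonneg (hW.pp b J) hW.neg0 (fun a => hW.pos b _) (fun a => hW.pos 0 _) a
  simp only [add_zero] at h
  rw [← exp_TqD hW, sub_nonneg] at h
  exact Real.one_le_exp_iff.1 h

/-- `tan α` -/
noncomputable def tnD (W : B → (V → ℤ) → ℝ) (b : B) (J a : V → ℝ) : ℝ :=
  √(Real.exp (TqD W b J a) - 1)

theorem tnD_nonneg (b : B) (J a : V → ℝ) : 0 ≤ tnD W b J a := Real.sqrt_nonneg _

theorem tnD_sq (hW : DisF W) (b : B) (J a : V → ℝ) :
    tnD W b J a ^ 2 = Real.exp (TqD W b J a) - 1 :=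
  Real.sq_sqrt (by
    have := Real.one_le_exp (TqD_nonneg hW b J a)
    linarith)

/-- **metric inequality of the half dislocation family, logarithmic form** -/
theorem metH_log (hW : DisF W) (b : B) (J a c : V → ℝ) :
    |Real.exp (dlD W b J a c) - 1| ≤ tnD W b J a * tnD W b J c := by
  have h := hW.metH b J a c
  rw [← exp_dlD hW, ← exp_TqD hW, ← exp_TqD hW, ← tnD_sq hW, ← tnD_sq hW, ← mul_pow] at h
  exact abs_le_of_sq_le_sq h (mul_nonneg (tnD_nonneg b J a) (tnD_nonneg b J c))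

/-- **Ginibre parallelogram** in the dislocated background -/
theorem parD (hW : DisF W) (b : B) (J a c : V → ℝ) :
    2 * RsD W b J a + 2 * Rs (W 0) c ≤ RsD W b J (a + c) + RsD W b J (a - c) := by
  have h := hW.gin b 0 (J + a) c
  rw [add_zero, sub_zero, add_assoc, add_sub_assoc, ← exp_LgB hW, ← exp_LgB hW, ← exp_LgB hW,
    ← exp_LgB hW, ← exp_LgB hW, ← Real.exp_add, ← Real.exp_nat_mul, ← Real.exp_nat_mul,
    ← Real.exp_add, ← Real.exp_add, Real.exp_le_exp] at h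
  push_cast at h
  have h2 := H789.qf_par (Gm (W 0)) a c
  have e1 := Ex_li_add hW b J a c
  have e2 : Ex (W b) J (li (a - c)) = Ex (W b) J (li a) - Ex (W b) J (li c) := by
    rw [sub_eq_add_neg, Ex_li_add hW, Ex_li_neg]
    ring
  unfold RsD Rs
  rw [e1, e2]
  linarith

theorem RsD_zero_vec (b : B) (J : V → ℝ) : RsD W b J 0 = 0 := by
  unfold RsD
  have : Ex (W b) J (li (0 : V → ℝ)) = 0 := by
    have e : li (0 : V → ℝ) = fun _ : V → ℤ => (0 : ℝ) := funext fun h => TM.H104.li_zero h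
    rw [e, H789.Ex_zero']
  rw [this, qf_zero_vec, add_zero]
  ring

/-- no dislocation, no source: `RsD = Rs` -/
theorem RsD_zero (hW : DisF W) (a : V → ℝ) : RsD W 0 0 a = Rs (W 0) a := by
  unfold RsD Rs
  rw [H789.Ex_zero_li hW.ev0, zero_add]
  ring

/-- first derivative of `RsD` along a line -/
theorem hasDerivAt_RsD (hW : DisF W) (b : B) (J a u : V → ℝ) (s : ℝ) :
    HasDerivAt (fun s : ℝ => RsD W b J (a + s • u))
      (Ex (W b) (J + a + s • u) (li u) - Ex (W b) J (li u) - bf (Gm (W 0)) u (a + s • u)) s := by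
  have h1 := TM.H104.hasDerivAt_Lg (hW.em b) (J + a) u s
  have h2 : HasDerivAt (fun s : ℝ => qf (Gm (W 0)) (a + s • u))
      (2 * bf (Gm (W 0)) u (a + s • u)) s := by
    have e : (fun s : ℝ => qf (Gm (W 0)) (a + s • u)) =
        fun s => qf (Gm (W 0)) a + s * (bf (Gm (W 0)) a u + bf (Gm (W 0)) u a) +
          s ^ 2 * qf (Gm (W 0)) u := funext fun s => H789.qf_line _ a u s
    rw [e]
    have h3 : HasDerivAt (fun s : ℝ => qf (Gm (W 0)) a +
        s * (bf (Gm (W 0)) a u + bf (Gm (W 0)) u a) + s ^ 2 * qf (Gm (W 0)) u)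
        (1 * (bf (Gm (W 0)) a u + bf (Gm (W 0)) u a) + (2 : ℕ) * s ^ (2 - 1) * 1 *
          qf (Gm (W 0)) u) s :=
      (((hasDerivAt_id s).mul_const _).const_add _).add (((hasDerivAt_id s).pow 2).mul_const _)
    refine h3.congr_deriv ?_
    rw [bf_add_right, bf_smul_right, H789.bf_Gm_comm _ a u, bf_self]
    push_cast
    ring
  have h5 : HasDerivAt (fun s : ℝ => Ex (W b) J (li (a + s • u))) (Ex (W b) J (li u)) s := by
    have e : (fun s : ℝ => Ex (W b) J (li (a + s • u))) =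
        fun s => Ex (W b) J (li a) + s * Ex (W b) J (li u) := by
      funext s
      rw [Ex_li_add hW, Ex_li_smul]
    rw [e]
    have := ((hasDerivAt_id s).mul_const (Ex (W b) J (li u))).const_add (Ex (W b) J (li a))
    refine this.congr_deriv ?_
    ring
  have h4 := ((h1.sub_const (Lg (W b) J)).sub h5).sub (h2.div_const 2)
  have e : (fun s : ℝ => RsD W b J (a + s • u)) = fun s => Lg (W b) (J + a + s • u) -
      Lg (W b) J - Ex (W b) J (li (a + s • u)) - qf (Gm (W 0)) (a + s • u) / 2 := by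
    funext s
    unfold RsD
    rw [add_assoc]
  rw [e]
  refine h4.congr_deriv ?_
  ring

/-- second derivative of `RsD` along a line -/
theorem hasDerivAt_RsD' (hW : DisF W) (b : B) (J a u : V → ℝ) (s : ℝ) :
    HasDerivAt (fun s : ℝ => Ex (W b) (J + a + s • u) (li u) - Ex (W b) J (li u) -
        bf (Gm (W 0)) u (a + s • u))
      (Cv (W b) (J + a + s • u) (li u) (li u) - Cv (W 0) 0 (li u) (li u)) s := by
  have h1 := TM.H104.hasDerivAt_Ex (hW.em b) (Gr.li u) (J + a) u s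
  have h2 : HasDerivAt (fun s : ℝ => bf (Gm (W 0)) u (a + s • u)) (qf (Gm (W 0)) u) s := by
    have e : (fun s : ℝ => bf (Gm (W 0)) u (a + s • u)) =
        fun s => bf (Gm (W 0)) u a + s * qf (Gm (W 0)) u := by
      funext s
      rw [bf_add_right, bf_smul_right, bf_self]
    rw [e]
    have h3 := ((hasDerivAt_id s).mul_const (qf (Gm (W 0)) u)).const_add (bf (Gm (W 0)) u a)
    refine h3.congr_deriv ?_
    ring
  rw [← H789.qf_Gm (hW.em 0) u]
  exact (h1.sub_const _).sub h2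

/-- **the covariance in a dislocated background dominates the undislocated one** -/
theorem Cv_monoD (hW : DisF W) (b : B) (J u : V → ℝ) :
    Cv (W 0) 0 (li u) (li u) ≤ Cv (W b) J (li u) (li u) := by
  set g : ℝ → ℝ := fun s => RsD W b J (0 + s • u) + RsD W b J (0 + s • (-u)) -
    2 * Rs (W 0) (0 + s • u) with hg
  have h1 : ∀ s, HasDerivAt g ((Ex (W b) (J + 0 + s • u) (li u) - Ex (W b) J (li u) -
      bf (Gm (W 0)) u (0 + s • u)) + (Ex (W b) (J + 0 + s • (-u)) (li (-u)) -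
      Ex (W b) J (li (-u)) - bf (Gm (W 0)) (-u) (0 + s • (-u))) -
      2 * (Ex (W 0) (0 + s • u) (li u) - bf (Gm (W 0)) u (0 + s • u))) s := fun s =>
    ((hasDerivAt_RsD hW b J 0 u s).add (hasDerivAt_RsD hW b J 0 (-u) s)).sub
      ((H789.hasDerivAt_Rs (hW.em 0) 0 u s).const_mul 2)
  have h2 : HasDerivAt (fun s : ℝ => (Ex (W b) (J + 0 + s • u) (li u) - Ex (W b) J (li u) -
      bf (Gm (W 0)) u (0 + s • u)) + (Ex (W b) (J + 0 + s • (-u)) (li (-u)) -
      Ex (W b) J (li (-u)) - bf (Gm (W 0)) (-u) (0 + s • (-u))) -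
      2 * (Ex (W 0) (0 + s • u) (li u) - bf (Gm (W 0)) u (0 + s • u)))
      ((Cv (W b) (J + 0 + (0 : ℝ) • u) (li u) (li u) - Cv (W 0) 0 (li u) (li u)) +
      (Cv (W b) (J + 0 + (0 : ℝ) • (-u)) (li (-u)) (li (-u)) - Cv (W 0) 0 (li (-u)) (li (-u))) -
      2 * (Cv (W 0) (0 + (0 : ℝ) • u) (li u) (li u) - Cv (W 0) 0 (li u) (li u))) 0 :=
    ((hasDerivAt_RsD' hW b J 0 u 0).add (hasDerivAt_RsD' hW b J 0 (-u) 0)).sub
      ((H789.hasDerivAt_Rs' (hW.em 0) 0 u 0).const_mul 2)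
  have h3 := H612.quad_lim h1 h2 (by
    have e3 : bf (Gm (W 0)) u 0 = 0 := by simp [bf]
    have e4 : bf (Gm (W 0)) (-u) 0 = 0 := by simp [bf]
    simp only [zero_smul, add_zero, H789.Ex_zero_li hW.ev0, e3, e4]
    ring)
  have h5 : 0 ≤ Cv (W b) J (li u) (li u) - Cv (W 0) 0 (li u) (li u) := by
    have h6 : 0 ≤ ((Cv (W b) (J + 0 + (0 : ℝ) • u) (li u) (li u) - Cv (W 0) 0 (li u) (li u)) +
      (Cv (W b) (J + 0 + (0 : ℝ) • (-u)) (li (-u)) (li (-u)) - Cv (W 0) 0 (li (-u)) (li (-u))) -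
      2 * (Cv (W 0) (0 + (0 : ℝ) • u) (li u) (li u) - Cv (W 0) 0 (li u) (li u))) / 2 := by
      refine ge_of_tendsto h3 (Eventually.of_forall fun s => div_nonneg ?_ (sq_nonneg s))
      have h6 := parD hW b J 0 (s • u)
      have h7 : g 0 = 0 := by
        simp only [hg, zero_smul, add_zero, RsD_zero_vec, H789.Rs_zero]
        ring
      have h8 : g s = RsD W b J (0 + s • u) + RsD W b J (0 - s • u) - 2 * Rs (W 0) (s • u) := by
        simp only [hg, smul_neg, zero_add, zero_sub]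
      rw [h7, h8]
      rw [RsD_zero_vec] at h6
      linarith
    simp only [zero_smul, add_zero, H789.Cv_neg_neg] at h6
    linarith
  linarith

/-- the same as forms -/
theorem qf_monoD (hW : DisF W) (b : B) (J u : V → ℝ) :
    qf (Gm (W 0)) u ≤ qf (Cm (W b) J) u := by
  rw [H789.qf_Gm (hW.em 0), H789.qf_Cm (hW.em b)]
  exact Cv_monoD hW b J u

/-- `RsD` is convex -/
theorem RsD_convex (hW : DisF W) (b : B) (J : V → ℝ) : ConvexOn ℝ Set.univ (RsD W b J) := by
  refine ⟨convex_univ, fun x _ y _ α β ha hb hab => ?_⟩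
  have h1 : ConvexOn ℝ Set.univ fun s : ℝ => RsD W b J (x + s • (y - x)) := by
    refine convexOn_univ_of_deriv2_nonneg
      (fun s => (hasDerivAt_RsD hW b J x (y - x) s).differentiableAt) ?_ ?_
    · have e : deriv (fun s : ℝ => RsD W b J (x + s • (y - x))) =
          fun s => Ex (W b) (J + x + s • (y - x)) (li (y - x)) - Ex (W b) J (li (y - x)) -
            bf (Gm (W 0)) (y - x) (x + s • (y - x)) :=
        funext fun s => (hasDerivAt_RsD hW b J x (y - x) s).deriv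
      rw [e]
      exact fun s => (hasDerivAt_RsD' hW b J x (y - x) s).differentiableAt
    · intro s
      have e : deriv (fun s : ℝ => RsD W b J (x + s • (y - x))) =
          fun s => Ex (W b) (J + x + s • (y - x)) (li (y - x)) - Ex (W b) J (li (y - x)) -
            bf (Gm (W 0)) (y - x) (x + s • (y - x)) :=
        funext fun s => (hasDerivAt_RsD hW b J x (y - x) s).deriv
      have e2 : deriv^[2] (fun s : ℝ => RsD W b J (x + s • (y - x))) =
          deriv (deriv fun s : ℝ => RsD W b J (x + s • (y - x))) := rfl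
      rw [e2, e, (hasDerivAt_RsD' hW b J x (y - x) s).deriv]
      have := Cv_monoD hW b (J + x + s • (y - x)) (y - x)
      linarith
  have h2 := h1.2 (Set.mem_univ 0) (Set.mem_univ 1) ha hb hab
  simp only [smul_eq_mul, mul_zero, zero_add, mul_one, zero_smul, add_zero, one_smul,
    add_sub_cancel] at h2
  have e : x + β • (y - x) = α • x + β • y := by
    have : α = 1 - β := by linarith
    rw [this]
    module
  rw [e] at h2
  exact h2

/-- `RsD ≥ 0` -/
theorem RsD_nonneg (hW : DisF W) (b : B) (J a : V → ℝ) : 0 ≤ RsD W b J a := by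
  -- convex along the ray with vanishing derivative at `0`
  have hconv : ConvexOn ℝ Set.univ fun s : ℝ => RsD W b J (0 + s • a) := by
    refine ⟨convex_univ, fun x _ y _ α β ha hb hab => ?_⟩
    have := (RsD_convex hW b J).2 (Set.mem_univ (x • a)) (Set.mem_univ (y • a)) ha hb hab
    simp only [smul_eq_mul, zero_add] at this ⊢
    rw [add_smul, mul_smul, mul_smul]
    exact this
  have hd := hasDerivAt_RsD hW b J 0 a 0
  have e0 : Ex (W b) (J + 0 + (0 : ℝ) • a) (li a) - Ex (W b) J (li a) -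
      bf (Gm (W 0)) a (0 + (0 : ℝ) • a) = 0 := by
    have e3 : bf (Gm (W 0)) a 0 = 0 := by simp [bf]
    simp only [zero_smul, add_zero, e3]
    ring
  rw [e0] at hd
  have h1 := hconv.le_slope_of_hasDerivAt (Set.mem_univ 0) (Set.mem_univ 1) one_pos hd
  rw [slope_def_field] at h1
  simp only [zero_smul, add_zero, RsD_zero_vec, one_smul, zero_add, sub_zero, div_one] at h1
  exact h1

/-! ### the gradient of `Q = RsD - Rs` -/

/-- the derivative of `TqD` along a ray -/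
theorem hasDerivAt_TqD (hW : DisF W) (b : B) (J x : V → ℝ) (s : ℝ) :
    HasDerivAt (fun s : ℝ => TqD W b J (s • x))
      ((Ex (W b) (J + 0 + s • ((2 : ℝ) • x)) (li ((2 : ℝ) • x)) - Ex (W b) J (li ((2 : ℝ) • x)) -
          bf (Gm (W 0)) ((2 : ℝ) • x) (0 + s • ((2 : ℝ) • x))) -
        2 * (Ex (W b) (J + 0 + s • x) (li x) - Ex (W b) J (li x) -
          bf (Gm (W 0)) x (0 + s • x)) -
        2 * (Ex (W 0) (0 + s • x) (li x) - bf (Gm (W 0)) x (0 + s • x))) s := by
  have h1 := ((hasDerivAt_RsD hW b J 0 ((2 : ℝ) • x) s).sub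
    ((hasDerivAt_RsD hW b J 0 x s).const_mul 2)).sub
    ((H789.hasDerivAt_Rs (hW.em 0) 0 x s).const_mul 2)
  have e : (fun s : ℝ => TqD W b J (s • x)) = fun s : ℝ =>
      RsD W b J (0 + s • ((2 : ℝ) • x)) - 2 * RsD W b J (0 + s • x) - 2 * Rs (W 0) (0 + s • x) := by
    funext s
    unfold TqD
    rw [zero_add, zero_add, smul_comm s (2 : ℝ) x]
  rw [e]
  exact h1

/-- second order behaviour of `e^{TqD}` at the origin -/
theorem lim_TqD (hW : DisF W) (b : B) (J x : V → ℝ) :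
    Tendsto (fun s : ℝ => (Real.exp (TqD W b J (s • x)) - 1) / s ^ 2) (𝓝[≠] 0)
      (𝓝 (Cv (W b) J (li x) (li x) - Cv (W 0) 0 (li x) (li x))) := by
  have h1 : ∀ s, HasDerivAt (fun s : ℝ => Real.exp (TqD W b J (s • x)))
      (Real.exp (TqD W b J (s • x)) *
        ((Ex (W b) (J + 0 + s • ((2 : ℝ) • x)) (li ((2 : ℝ) • x)) - Ex (W b) J (li ((2 : ℝ) • x)) -
          bf (Gm (W 0)) ((2 : ℝ) • x) (0 + s • ((2 : ℝ) • x))) -
        2 * (Ex (W b) (J + 0 + s • x) (li x) - Ex (W b) J (li x) -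
          bf (Gm (W 0)) x (0 + s • x)) -
        2 * (Ex (W 0) (0 + s • x) (li x) - bf (Gm (W 0)) x (0 + s • x)))) s := fun s =>
    (hasDerivAt_TqD hW b J x s).exp
  have hT0 : TqD W b J 0 = 0 := by
    unfold TqD
    rw [smul_zero, RsD_zero_vec, H789.Rs_zero]
    ring
  have hz : (Ex (W b) (J + 0 + (0 : ℝ) • ((2 : ℝ) • x)) (li ((2 : ℝ) • x)) -
      Ex (W b) J (li ((2 : ℝ) • x)) -
          bf (Gm (W 0)) ((2 : ℝ) • x) (0 + (0 : ℝ) • ((2 : ℝ) • x))) -
        2 * (Ex (W b) (J + 0 + (0 : ℝ) • x) (li x) - Ex (W b) J (li x) -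
          bf (Gm (W 0)) x (0 + (0 : ℝ) • x)) -
        2 * (Ex (W 0) (0 + (0 : ℝ) • x) (li x) - bf (Gm (W 0)) x (0 + (0 : ℝ) • x)) = 0 := by
    have e3 : ∀ v : V → ℝ, bf (Gm (W 0)) v 0 = 0 := fun v => by simp [bf]
    simp only [zero_smul, add_zero, e3, H789.Ex_zero_li hW.ev0]
    ring
  have h2 := ((h1 0).mul
    (((hasDerivAt_RsD' hW b J 0 ((2 : ℝ) • x) 0).sub
    ((hasDerivAt_RsD' hW b J 0 x 0).const_mul 2)).sub
    ((H789.hasDerivAt_Rs' (hW.em 0) 0 x 0).const_mul 2)))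
  have h3 := H612.quad_lim h1 h2 (by
    show _ * _ = _
    rw [hz, mul_zero])
  have eC : ∀ (μ : (V → ℤ) → ℝ) (K : V → ℝ), Cv μ K (li ((2 : ℝ) • x)) (li ((2 : ℝ) • x)) =
      4 * Cv μ K (li x) (li x) := by
    intro μ K
    have e1 : li ((2 : ℝ) • x) = fun h : V → ℤ => 2 * li x h :=
      funext fun h => TM.H104.li_smul 2 x h
    rw [e1]
    unfold TM.H104.Cv
    have e2 : (fun h : V → ℤ => 2 * li x h * (2 * li x h)) = fun h => 4 * (li x h * li x h) := by
      funext h; ring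
    rw [e2, TM.H104.Ex_cmul, TM.H104.Ex_cmul]
    ring
  have h4 : (fun s : ℝ => (Real.exp (TqD W b J (s • x)) - 1) / s ^ 2) = fun s : ℝ =>
      (Real.exp (TqD W b J (s • x)) - Real.exp (TqD W b J ((0 : ℝ) • x))) / s ^ 2 := by
    funext s
    rw [zero_smul, hT0, Real.exp_zero]
  rw [h4]
  convert h3 using 2
  rw [hz, zero_smul, hT0, Real.exp_zero]
  simp only [zero_smul, add_zero, eC]
  ring

/-- **gradient of `Q = RsD - Rs`**: `(E^b_{J+a}⟨x,h⟩ - E^b_J⟨x,h⟩ - E^0_a⟨x,h⟩)² ≤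
(e^{TqD a} - 1) (C^b_J - C_0)(x,x)` -/
theorem gradQ (hW : DisF W) (b : B) (J a x : V → ℝ) :
    (Ex (W b) (J + a) (li x) - Ex (W b) J (li x) - Ex (W 0) a (li x)) ^ 2 ≤
      (Real.exp (TqD W b J a) - 1) * (Cv (W b) J (li x) (li x) - Cv (W 0) 0 (li x) (li x)) := by
  -- the left side
  have h1 : HasDerivAt (fun s : ℝ => Real.exp (dlD W b J a (s • x)))
      (Ex (W b) (J + a) (li x) - Ex (W b) J (li x) - Ex (W 0) a (li x)) 0 := by
    have e : (fun s : ℝ => dlD W b J a (s • x)) = fun s : ℝ => RsD W b J (a + s • x) +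
        Rs (W 0) (a + s • (-x)) - RsD W b J a - Rs (W 0) a - RsD W b J (0 + s • x) -
        Rs (W 0) (0 + s • x) := by
      funext s
      unfold dlD
      rw [zero_add, smul_neg, ← sub_eq_add_neg]
    have h2' := ((((((hasDerivAt_RsD hW b J a x 0).add
        (H789.hasDerivAt_Rs (hW.em 0) a (-x) 0)).sub_const
        (RsD W b J a)).sub_const (Rs (W 0) a)).sub (hasDerivAt_RsD hW b J 0 x 0)).sub
        (H789.hasDerivAt_Rs (hW.em 0) 0 x 0))
    have h2 := h2'.congr_of_eventuallyEq (f₁ := fun s : ℝ => dlD W b J a (s • x))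
      (Eventually.of_forall fun s => congrFun e s)
    have h3 := h2.exp
    have e0 : dlD W b J a ((0 : ℝ) • x) = 0 := by
      unfold dlD
      rw [zero_smul, add_zero, sub_zero, RsD_zero_vec, H789.Rs_zero]
      ring
    refine h3.congr_deriv ?_
    have e3 : ∀ v : V → ℝ, bf (Gm (W 0)) v 0 = 0 := fun v => by simp [bf]
    have e4 : bf (Gm (W 0)) (-x) a = -bf (Gm (W 0)) x a := by
      have := bf_smul_left (Gm (W 0)) (-1) x a
      rw [neg_one_smul] at this
      rw [this]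
      ring
    rw [e0, Real.exp_zero]
    simp only [zero_smul, add_zero, e3, e4, H789.Ex_zero_li hW.ev0, Ex_li_neg]
    ring
  have h2 := (hasDerivAt_iff_tendsto_slope.1 h1).pow 2
  have h3 := (lim_TqD hW b J x).const_mul (Real.exp (TqD W b J a) - 1)
  refine le_of_tendsto_of_tendsto h2 h3 ?_
  filter_upwards [self_mem_nhdsWithin] with s hs
  have hs' : s ≠ 0 := hs
  rw [slope_def_field, zero_smul, sub_zero, div_pow]
  have e0 : dlD W b J a 0 = 0 := by
    unfold dlD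
    rw [add_zero, sub_zero, RsD_zero_vec, H789.Rs_zero]
    ring
  rw [e0, Real.exp_zero, ← mul_div_assoc]
  refine div_le_div_of_nonneg_right ?_ (sq_nonneg s)
  have h4 := metH_log hW b J a (s • x)
  have h5 := pow_le_pow_left₀ (abs_nonneg _) h4 2
  rw [sq_abs, mul_pow, tnD_sq hW, tnD_sq hW] at h5
  exact h5

/-- the excess covariance `P = C^b_J - C_0` is a positive semidefinite form -/
theorem excess_cs (hW : DisF W) (b : B) (J u x : V → ℝ) :
    (Cv (W b) J (li u) (li x) - Cv (W 0) 0 (li u) (li x)) ^ 2 ≤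
      (Cv (W b) J (li u) (li u) - Cv (W 0) 0 (li u) (li u)) *
        (Cv (W b) J (li x) (li x) - Cv (W 0) 0 (li x) (li x)) := by
  refine disc fun s t => ?_
  have h := qf_monoD hW b J (s • u + t • x)
  have hb := hW.em b
  have h0 := hW.em 0
  have e : ∀ (μ : (V → ℤ) → ℝ) (_ : EM μ) (K : V → ℝ), qf (Cm μ K) (s • u + t • x) =
      s ^ 2 * Cv μ K (li u) (li u) + 2 * (s * t * Cv μ K (li u) (li x)) +
        t ^ 2 * Cv μ K (li x) (li x) := by
    intro μ hμ K
    rw [qf_add_vec (H789.Cm_symm μ K), qf_smul, qf_smul, bf_smul_left, bf_smul_right,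
      H789.qf_Cm hμ, H789.qf_Cm hμ, H789.bf_Cm hμ]
    ring
  rw [e _ hb, show Gm (W 0) = Cm (W 0) 0 from rfl, e _ h0] at h
  linarith

end family

end Vale.Agent.P159.H770
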