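import Vale.Agent.P159.H770.DisT
import Vale.Agent.P159.H963.NeuT

/-!
P159, helper770, module DISL (6): the neutral model with dislocations.

`GWF w` : family `w : B → (V → ℤ) → ℝ` of bounded gradient weights of the duplication class.
* `GWF.disF_wM` : `b ↦ wM (w b) M`, `GWF.disF_nM` : `b ↦ nM (w b) M m x₀` (neutral model, pinned)
  are `DisF`; `GWF.disF_bgn` : dislocation and real background, neutral model.
* `GWF.Zn_eq`, `GWF.Zn_pos` : the neutral partition function `Zn (w b) M F`,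
* `GWF.ppZn` : half dislocation kernel of the neutral partition functions in the background form:
  `Zn (w b) M (F₀ + a + c) * Zn (w 0) M (a - c)` is PSD, `GWF.ginZn`.
* instances `gwf_eW`, `gwf_wTD`, `disF_nwtD`.
-/

open scoped ENNReal Matrix
open Finset

set_option linter.unusedSectionVars false

namespace Vale.Agent.P159.H770

open Vale.Agent.P159.TM.H821 (Dup)
open Vale.Agent.P159.TM.H104 (EM T Ex Cv K3 Lg li nh Gr)
open Vale.Agent.P159.H37
open Vale.Agent.P159.H789 (disc kk PSDK reHom)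
open Vale.Agent.P159.H963 (GrI pin Neu ntr nM MF GW)

noncomputable section

/-- families of gradient weights -/
structure GWF {B V : Type} [AddCommGroup B] [Fintype V] (w : B → (V → ℤ) → ℝ) : Prop where
  nn : ∀ b h, 0 ≤ w b h
  pos : ∀ b, 0 < w b 0
  bdd : ∃ Wb : ℝ, ∀ b h, w b h ≤ Wb
  ev : ∀ b h, w (-b) (-h) = w b h
  grd : ∀ b, GrI (w b)
  dup : Dup fun q : (V → ℤ) × B => ENNReal.ofReal (w q.2 q.1)

section gwf

variable {B V : Type} [AddCommGroup B] [Fintype V] {w : B → (V → ℤ) → ℝ}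

/-- product of a family of the class with a quadratic form in the height -/
theorem dup_wMF (hw : ∀ b h, 0 ≤ w b h)
    (hd : Dup fun q : (V → ℤ) × B => ENNReal.ofReal (w q.2 q.1)) (M : Matrix V V ℝ) :
    Dup fun q : (V → ℤ) × B => ENNReal.ofReal (wM (w q.2) M q.1) := by
  have h1 := (TM.H821.dup_form (V := V) fun x y => M x y).comp
    ((reHom V).comp (AddMonoidHom.fst (V → ℤ) B))
  have h2 := hd.mul h1
  have e : (fun q : (V → ℤ) × B => ENNReal.ofReal (wM (w q.2) M q.1)) =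
      fun q : (V → ℤ) × B => ENNReal.ofReal (w q.2 q.1) *
        ENNReal.ofReal (Real.exp ((-∑ x, ∑ y,
          (((reHom V).comp (AddMonoidHom.fst (V → ℤ) B)) q) x * M x y *
          (((reHom V).comp (AddMonoidHom.fst (V → ℤ) B)) q) y) / 2)) := by
    funext q
    rw [← ENNReal.ofReal_mul (hw _ _)]
    unfold wM qf
    rw [neg_div]
    rfl
  rw [e]
  exact h2

theorem evF_wM (hw : ∀ b h, w (-b) (-h) = w b h) (M : Matrix V V ℝ) (b : B) (h : V → ℤ) :
    wM (w (-b)) M (-h) = wM (w b) M h := by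
  unfold wM
  have : re (-h) = -re h := by funext x; simp [re]
  rw [hw, this, qf_neg]

theorem GWF.disF_wM (hw : GWF w) {M : Matrix V V ℝ} {m : ℝ} (hM : MF M m) :
    DisF fun b => wM (w b) M where
  em b := by
    obtain ⟨Wb, hb⟩ := hw.bdd
    obtain ⟨m0, hm0, hc⟩ := hM.coer
    exact H37.em_wM (hw.nn b) (hb b) ⟨0, hw.pos b⟩ hm0 hc
  ev b h := evF_wM hw.ev M b h
  dup := dup_wMF hw.nn hw.dup M

/-- the evaluation homomorphism -/
def evB (B : Type) [AddCommGroup B] {V : Type} (x : V) : ((V → ℤ) × B) →+ ℤ :=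
  (H963.evHom x).comp (AddMonoidHom.fst (V → ℤ) B)

variable [DecidableEq V]

theorem dup_pinF (hd : Dup fun q : (V → ℤ) × B => ENNReal.ofReal (w q.2 q.1)) (x₀ : V) :
    Dup fun q : (V → ℤ) × B => ENNReal.ofReal (pin (w q.2) x₀ q.1) := by
  have h1 := (Dup.pin (A := ℤ) fun x hx => by omega).comp (evB B x₀)
  have h2 := hd.mul h1
  have e : (fun q : (V → ℤ) × B => ENNReal.ofReal (pin (w q.2) x₀ q.1)) =
      fun q => ENNReal.ofReal (w q.2 q.1) * (if evB B x₀ q = 0 then 1 else 0) := by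
    funext q
    unfold pin
    by_cases h0 : q.1 x₀ = 0
    · rw [if_pos h0, if_pos (show evB B x₀ q = 0 from h0), mul_one]
    · rw [if_neg h0, if_neg (show ¬ evB B x₀ q = 0 from h0), mul_zero, ENNReal.ofReal_zero]
  rw [e]
  exact h2

variable [Nonempty V]

theorem GWF.em_nM (hw : GWF w) {M : Matrix V V ℝ} {m : ℝ} (hM : MF M m) (x₀ : V) (b : B) :
    EM (nM (w b) M m x₀) := by
  obtain ⟨Wb, hb⟩ := hw.bdd
  obtain ⟨m0, hm0, hc⟩ := hM.coer
  exact H963.em_neu (hw.nn b) (hb b) (hw.pos b) hM.symm hm0 hM.row hc x₀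

/-- **the neutral model with dislocations** -/
theorem GWF.disF_nM (hw : GWF w) {M : Matrix V V ℝ} {m : ℝ} (hM : MF M m) (x₀ : V) :
    DisF fun b => nM (w b) M m x₀ where
  em b := hw.em_nM hM x₀ b
  ev b h := by
    unfold nM pin
    by_cases h0 : h x₀ = 0
    · have h1 : (-h) x₀ = 0 := by simp [h0]
      rw [if_pos h0, if_pos h1, evF_wM hw.ev]
    · have h1 : ¬ (-h) x₀ = 0 := by simpa using h0
      rw [if_neg h0, if_neg h1]
  dup := dup_pinF (w := fun b => wM (w b) (ntr M m)) (dup_wMF hw.nn hw.dup _) x₀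

theorem GWF.Zn_eq (hw : GWF w) {M : Matrix V V ℝ} {m : ℝ} (hM : MF M m) (x₀ : V) (b : B)
    (F : V → ℝ) :
    Zn (w b) M F = Real.sqrt (2 * Real.pi / (m * Fintype.card V)) *
      (Real.exp (-(qf (ntr M m) F / 2)) * Zs (nM (w b) M m x₀) (ntr M m *ᵥ F)) :=
  H963.Zn_eq (hw.grd b) (hw.nn b) hM.symm hM.pos hM.row (hw.em_nM hM x₀ b) F

theorem GWF.Zn_pos (hw : GWF w) {M : Matrix V V ℝ} {m : ℝ} (hM : MF M m) (b : B)
    (F : V → ℝ) : 0 < Zn (w b) M F := by
  have x₀ : V := Classical.arbitrary V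
  have hN : (0 : ℝ) < Fintype.card V := Nat.cast_pos.2 Fintype.card_pos
  have hm := hM.pos
  rw [hw.Zn_eq hM x₀ b F]
  exact mul_pos (Real.sqrt_pos.2 (by positivity))
    (mul_pos (Real.exp_pos _) (TM.H104.T_one_pos (hw.em_nM hM x₀ b) _))

/-- the product of two neutral partition functions -/
theorem GWF.Zn_mul (hw : GWF w) {M : Matrix V V ℝ} {m : ℝ} (hM : MF M m) (x₀ : V) (b c : B)
    (u v : V → ℝ) :
    Zn (w b) M (u + v) * Zn (w c) M (u - v) =
      2 * Real.pi / (m * Fintype.card V) * (Real.exp (-qf (ntr M m) u) *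
        Real.exp (-qf (ntr M m) v) * (Zs (nM (w b) M m x₀) (ntr M m *ᵥ u + ntr M m *ᵥ v) *
          Zs (nM (w c) M m x₀) (ntr M m *ᵥ u - ntr M m *ᵥ v))) := by
  have hN : (0 : ℝ) < Fintype.card V := Nat.cast_pos.2 Fintype.card_pos
  have hm := hM.pos
  rw [hw.Zn_eq hM x₀, hw.Zn_eq hM x₀, Matrix.mulVec_add, Matrix.mulVec_sub]
  have h1 := qf_add_vec (H963.ntr_transpose hM.symm m) u v
  have h2 := qf_sub_vec (H963.ntr_transpose hM.symm m) u v
  have h3 : Real.exp (-(qf (ntr M m) (u + v) / 2)) * Real.exp (-(qf (ntr M m) (u - v) / 2)) =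
      Real.exp (-qf (ntr M m) u) * Real.exp (-qf (ntr M m) v) := by
    rw [← Real.exp_add, ← Real.exp_add, h1, h2]
    congr 1
    ring
  have h4 : Real.sqrt (2 * Real.pi / (m * Fintype.card V)) *
      Real.sqrt (2 * Real.pi / (m * Fintype.card V)) = 2 * Real.pi / (m * Fintype.card V) :=
    Real.mul_self_sqrt (by positivity)
  rw [← h3]
  linear_combination (Real.exp (-(qf (ntr M m) (u + v) / 2)) *
    Real.exp (-(qf (ntr M m) (u - v) / 2)) *
    (Zs (nM (w b) M m x₀) (ntr M m *ᵥ u + ntr M m *ᵥ v) *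
      Zs (nM (w c) M m x₀) (ntr M m *ᵥ u - ntr M m *ᵥ v))) * h4

/-- **Ginibre for the neutral partition functions with dislocations** -/
theorem GWF.ginZn (hw : GWF w) {M : Matrix V V ℝ} {m : ℝ} (hM : MF M m) (b c : B)
    (F H : V → ℝ) :
    (Zn (w b) M F * Zn (w c) M H) ^ 2 ≤
      Zn (w 0) M 0 ^ 2 * (Zn (w (b + c)) M (F + H) * Zn (w (b - c)) M (F - H)) := by
  have x₀ : V := Classical.arbitrary V
  have hN : (0 : ℝ) < Fintype.card V := Nat.cast_pos.2 Fintype.card_pos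
  have hm := hM.pos
  have h := (hw.disF_nM hM x₀).gin b c (ntr M m *ᵥ F) (ntr M m *ᵥ H)
  rw [hw.Zn_mul hM x₀, hw.Zn_eq hM x₀ b, hw.Zn_eq hM x₀ c, hw.Zn_eq hM x₀ 0 0, qf_zero_vec,
    Matrix.mulVec_zero]
  set κ := 2 * Real.pi / (m * Fintype.card V) with hκ
  have hκ0 : 0 < κ := by positivity
  have hs : Real.sqrt κ ^ 2 = κ := Real.sq_sqrt hκ0.le
  have e1 : Real.exp (-(qf (ntr M m) F / 2)) ^ 2 = Real.exp (-qf (ntr M m) F) := by
    rw [← Real.exp_nat_mul]; congr 1; push_cast; ring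
  have e2 : Real.exp (-(qf (ntr M m) H / 2)) ^ 2 = Real.exp (-qf (ntr M m) H) := by
    rw [← Real.exp_nat_mul]; congr 1; push_cast; ring
  have e3 : Real.exp (-((0 : ℝ) / 2)) = 1 := by simp
  rw [e3, one_mul]
  have hL : (Real.sqrt κ * (Real.exp (-(qf (ntr M m) F / 2)) *
      Zs (nM (w b) M m x₀) (ntr M m *ᵥ F)) * (Real.sqrt κ * (Real.exp (-(qf (ntr M m) H / 2)) *
      Zs (nM (w c) M m x₀) (ntr M m *ᵥ H)))) ^ 2 =
      κ ^ 2 * (Real.exp (-qf (ntr M m) F) * Real.exp (-qf (ntr M m) H)) *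
        (Zs (nM (w b) M m x₀) (ntr M m *ᵥ F) * Zs (nM (w c) M m x₀) (ntr M m *ᵥ H)) ^ 2 := by
    rw [← e1, ← e2]
    have h4 : Real.sqrt κ ^ 4 = κ ^ 2 := by
      rw [← hs]
      have : (Real.sqrt (Real.sqrt κ ^ 2)) = Real.sqrt κ := by rw [hs]
      rw [this]
      ring
    linear_combination (Real.exp (-(qf (ntr M m) F / 2)) ^ 2 *
      Real.exp (-(qf (ntr M m) H / 2)) ^ 2 *
      (Zs (nM (w b) M m x₀) (ntr M m *ᵥ F) * Zs (nM (w c) M m x₀) (ntr M m *ᵥ H)) ^ 2) * h4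
  have hR : (Real.sqrt κ * Zs (nM (w 0) M m x₀) 0) ^ 2 * (κ * (Real.exp (-qf (ntr M m) F) *
      Real.exp (-qf (ntr M m) H) * (Zs (nM (w (b + c)) M m x₀) (ntr M m *ᵥ F + ntr M m *ᵥ H) *
      Zs (nM (w (b - c)) M m x₀) (ntr M m *ᵥ F - ntr M m *ᵥ H)))) =
      κ ^ 2 * (Real.exp (-qf (ntr M m) F) * Real.exp (-qf (ntr M m) H)) *
        (Zs (nM (w 0) M m x₀) 0 ^ 2 * (Zs (nM (w (b + c)) M m x₀) (ntr M m *ᵥ F + ntr M m *ᵥ H) *
      Zs (nM (w (b - c)) M m x₀) (ntr M m *ᵥ F - ntr M m *ᵥ H))) := by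
    rw [mul_pow, hs]
    ring
  rw [hL, hR]
  exact mul_le_mul_of_nonneg_left h (by positivity)

/-- **half dislocation kernel of the neutral partition functions** (background form) -/
theorem GWF.ppZn (hw : GWF w) {M : Matrix V V ℝ} {m : ℝ} (hM : MF M m) (b : B)
    (F₀ : V → ℝ) : PP (fun a => Zn (w b) M (F₀ + a)) (Zn (w 0) M) := by
  have x₀ : V := Classical.arbitrary V
  have hN : (0 : ℝ) < Fintype.card V := Nat.cast_pos.2 Fintype.card_pos
  have hm := hM.pos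
  -- feature points: sources `ntr (F₀ / 2 + a)`
  have h1 := ((hw.disF_nM hM x₀).pp b 0).comp
    fun a : V → ℝ => ntr M m *ᵥ ((1 / 2 : ℝ) • F₀ + a)
  have h2 := (h1.rank fun a => Real.exp (-qf (ntr M m) ((1 / 2 : ℝ) • F₀ + a))).smul
    (r := 2 * Real.pi / (m * Fintype.card V)) (by positivity)
  have e : kp (fun a => Zn (w b) M (F₀ + a)) (Zn (w 0) M) = fun a c =>
      2 * Real.pi / (m * Fintype.card V) * (Real.exp (-qf (ntr M m) ((1 / 2 : ℝ) • F₀ + a)) *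
        Real.exp (-qf (ntr M m) ((1 / 2 : ℝ) • F₀ + c)) *
        kp (fun a => Zs (nM (w b) M m x₀) (0 + a)) (Zs (nM (w 0) M m x₀))
          (ntr M m *ᵥ ((1 / 2 : ℝ) • F₀ + a)) (ntr M m *ᵥ ((1 / 2 : ℝ) • F₀ + c))) := by
    funext a c
    have h3 := hw.Zn_mul hM x₀ b 0 ((1 / 2 : ℝ) • F₀ + a) ((1 / 2 : ℝ) • F₀ + c)
    have e1 : (1 / 2 : ℝ) • F₀ + a + ((1 / 2 : ℝ) • F₀ + c) = F₀ + (a + c) := by module
    have e2 : (1 / 2 : ℝ) • F₀ + a - ((1 / 2 : ℝ) • F₀ + c) = a - c := by module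
    rw [e1, e2] at h3
    simp only [kp, zero_add]
    exact h3
  show PSDF (kp (fun a => Zn (w b) M (F₀ + a)) (Zn (w 0) M))
  rw [e]
  exact h2

end gwf

/-! ### instances -/

section inst

variable {V E : Type} [Fintype V] [Fintype E]

theorem grI_eW (s t : E → V) (I : E → ℤ → ℝ) (η : E → ℤ) : GrI (eW s t I η) := by
  intro h n
  unfold eW
  refine Finset.prod_congr rfl fun e _ => ?_
  congr 1
  ring

theorem gwf_eW {I : E → ℤ → ℝ} (hI : EdW I) (s t : E → V) : GWF (eW s t I) where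
  nn b h := (hI.eW_pos b h).le
  pos b := hI.eW_pos b 0
  bdd := ⟨_, hI.eW_le⟩
  ev := hI.eW_neg
  grd := grI_eW s t I
  dup := hI.dup_eW

open Vale.Agent.P159.TM.SpecC (Tor wT)

variable {N : ℕ} [NeZero N] {b : ℝ}

theorem gwf_wTD (hb : 0 < b) : GWF (wTD N b) := gwf_eW (edW_wI hb) (eS N) (eT N)

/-- the neutral torus weight with dislocation -/
def nwtD (N : ℕ) [NeZero N] (b t : ℝ) (x₀ : Tor N) (η : Ed N → ℤ) : (Tor N → ℤ) → ℝ :=
  nM (wTD N b η) (t • (1 : Matrix (Tor N) (Tor N) ℝ)) t x₀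

theorem nwtD_zero (b t : ℝ) (x₀ : Tor N) : nwtD N b t x₀ 0 = H963.nwt N b t x₀ := by
  unfold nwtD H963.nwt
  rw [wTD_zero]

theorem disF_nwtD {t : ℝ} (hb : 0 < b) (ht : 0 < t) (x₀ : Tor N) : DisF (nwtD N b t x₀) :=
  (gwf_wTD hb).disF_nM (H963.mf_smul ht) x₀

end inst

end

end Vale.Agent.P159.H770
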