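import Vale.Agent.P159.H770.DisL

/-!
P159, helper770, module DISL (5): STAR and LB1 in a dislocated background.

`TD W b J = log Z(2b,2J) - 4 log Z(b,J) + 3 log Z(0,0)` (`= Tq (W 0) J` if `b = 0`), `≥ 0`.

* `starD` : `(C^b_J(u,x) - C_0(u,x))² ≤ (1/2) (e^{TD} - 1) κ₄(u,u,x,x)`,
* `lb1D` : `C^b_J(u,v)² ≤ (1/2) e^{TD} Cov_0(X_u², X_v²)`,
* `metD_log` : the metric inequality for a dislocated and an undislocated (or two dislocated)
  backgrounds relative to the origin,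
* `MetD` : abstract pointwise structure `(RD, R)` with consequences (`MetD.abs_le`, ...).
-/

open scoped ENNReal Topology Matrix
open Finset Filter

namespace Vale.Agent.P159.H770

open Vale.Agent.P159.TM.H821 (Dup)
open Vale.Agent.P159.TM.H104 (EM T Ex Cv K3 Lg li nh Gr)
open Vale.Agent.P159.H37
open Vale.Agent.P159.H789 (disc kk PSDK yy)

section family

variable {B V : Type} [AddCommGroup B] [Fintype V] {W : B → (V → ℤ) → ℝ}

/-- the angle of the dislocated background with the origin -/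
noncomputable def TD (W : B → (V → ℤ) → ℝ) (b : B) (J : V → ℝ) : ℝ :=
  Lg (W (b + b)) (J + J) - 4 * Lg (W b) J + 3 * Lg (W 0) 0

theorem TD_zero (J : V → ℝ) : TD W 0 J = Tq (W 0) J := by
  unfold TD Tq
  rw [add_zero, two_smul]

theorem exp_TD (hW : DisF W) (b : B) (J : V → ℝ) :
    Real.exp (TD W b J) = Zs (W (b + b)) (J + J) * Zs (W 0) 0 ^ 3 / Zs (W b) J ^ 4 := by
  unfold TD
  rw [← exp_LgB hW (b + b), ← exp_LgB hW 0 0, ← exp_LgB hW b J, ← Real.exp_nat_mul,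
    ← Real.exp_nat_mul, ← Real.exp_add, ← Real.exp_sub]
  congr 1
  push_cast
  ring

theorem TD_nonneg (hW : DisF W) (b : B) (J : V → ℝ) : 0 ≤ TD W b J := by
  have h := hW.four b J
  have p := hW.pos b J
  rw [← Real.one_le_exp_iff, exp_TD hW, le_div_iff₀ (by positivity), one_mul]
  linarith

/-- metric inequality, two arbitrary vectors relative to the origin -/
theorem metD_log (hW : DisF W) (b c : B) (J K : V → ℝ) :
    (Real.exp (Lg (W (b + c)) (J + K) + Lg (W (b - c)) (J - K) + 2 * Lg (W 0) 0 -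
      2 * Lg (W b) J - 2 * Lg (W c) K) - 1) ^ 2 ≤
      (Real.exp (TD W b J) - 1) * (Real.exp (TD W c K) - 1) := by
  have h := hW.metD b c J K
  rw [← exp_TD hW, ← exp_TD hW] at h
  refine le_of_eq_of_le ?_ h
  congr 2
  rw [← exp_LgB hW (b + c), ← exp_LgB hW (b - c), ← exp_LgB hW 0 0, ← exp_LgB hW b J,
    ← exp_LgB hW c K, ← Real.exp_add, ← Real.exp_nat_mul, ← Real.exp_add, ← Real.exp_nat_mul,
    ← Real.exp_nat_mul, ← Real.exp_add, ← Real.exp_sub]
  congr 1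
  push_cast
  ring

/-- the kernel between a dislocated vector and an undislocated one -/
theorem kk_ZB (b : B) (J p : V → ℝ) : kk (ZB W) (b, J) (0, p) = kk (yy (W b)) J p := by
  unfold kk ZB
  simp only [Prod.mk_add_mk, Prod.mk_sub_mk, add_zero, sub_zero]
  rfl

/-- **STAR^D** -/
theorem starD (hW : DisF W) (b : B) (J u x : V → ℝ) :
    (Cv (W b) J (li u) (li x) - Cv (W 0) 0 (li u) (li x)) ^ 2 ≤
      1 / 2 * (Real.exp (TD W b J) - 1) * H37.K4 (W 0) u u x x := by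
  have hy0 : 0 < yy (W 0) 0 := hW.pos 0 0
  have hyJ : 0 < yy (W b) J := hW.pos b J
  have t1 := H789.tendsto_div_pow (H789.kk_diff (hW.em b) J u x)
  have t2 := H789.tendsto_div_pow (H789.kk_diff (hW.em 0) 0 u x)
  have t3 := H789.tendsto_div_pow (H789.kk_quad (hW.em 0) hW.ev0 u x)
  set M0 := yy (W 0) 0 with hM0
  set MJ := yy (W b) J with hMJ
  set M2 := Zs (W (b + b)) (J + J) with hM2
  set α := 4 * (MJ ^ 2 * Cv (W b) J (li u) (li x)) with hα
  set β := 4 * (M0 ^ 2 * Cv (W 0) 0 (li u) (li x)) with hβ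
  set c := 8 * (M0 ^ 2 *
        (Ex (W 0) 0 (fun h => li u h ^ 2 * li x h ^ 2) - Ex (W 0) 0 (fun h => li u h ^ 2) *
    Ex (W 0) 0 (fun h => li x h ^ 2))) with hc
  have key : (α * M0 ^ 2 - MJ ^ 2 * β) ^ 2 ≤ (M2 * M0 * M0 ^ 2 - (MJ ^ 2) ^ 2) *
      (c * M0 ^ 2 - β ^ 2) := by
    refine le_of_tendsto_of_tendsto (((t1.mul_const (M0 ^ 2)).sub (t2.const_mul (MJ ^ 2))).pow 2)
      (((t3.mul_const (M0 ^ 2)).sub (t2.pow 2)).const_mul
        (M2 * M0 * M0 ^ 2 - (MJ ^ 2) ^ 2)) ?_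
    filter_upwards [self_mem_nhdsWithin] with e he'
    have he0 : e ≠ 0 := he'
    have h1 := H789.cs2 hW.psdk hW.negB (hW.posB 0) (b, J) (0, e • (u + x)) (0, e • (u - x))
    have z0 : (0 : B × (V → ℝ)) = ((0 : B), (0 : V → ℝ)) := rfl
    have e0 : ZB W ((0 : B), (0 : V → ℝ)) = M0 := rfl
    have e1 : kk (yy (W b)) J 0 = MJ ^ 2 := by
      unfold kk
      rw [add_zero, sub_zero]
      exact (pow_two _).symm
    have e2 : kk (ZB W) (b, J) (b, J) = M2 * M0 := by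
      unfold kk ZB
      simp only [Prod.mk_add_mk, sub_self]
      rfl
    rw [z0, e2, e0] at h1
    simp only [kk_ZB] at h1
    rw [e1] at h1
    have h2 : 0 < (e ^ 2) ^ 2 := by positivity
    have h3 := div_le_div_of_nonneg_right h1 h2.le
    refine (le_of_eq ?_).trans (h3.trans (le_of_eq ?_))
    · field_simp
    · field_simp
  have hC0 : Cv (W 0) 0 (li u) (li x) = Ex (W 0) 0 (fun h => li u h * li x h) := by
    unfold TM.H104.Cv
    rw [H789.Ex_zero_li hW.ev0, zero_mul, sub_zero]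
  have hK4 : c * M0 ^ 2 - β ^ 2 = 8 * M0 ^ 4 * H789.K4 (W 0) u x := by
    rw [hc, hβ, hC0]
    unfold H789.K4
    ring
  have hL : (α * M0 ^ 2 - MJ ^ 2 * β) ^ 2 = 16 * MJ ^ 4 * M0 ^ 4 *
      (Cv (W b) J (li u) (li x) - Cv (W 0) 0 (li u) (li x)) ^ 2 := by
    rw [hα, hβ]
    ring
  rw [hK4, hL] at key
  have eT : Real.exp (TD W b J) = M2 * M0 ^ 3 / MJ ^ 4 := exp_TD hW b J
  have h5 : 1 / 2 * (M2 * M0 ^ 3 / MJ ^ 4 - 1) * H789.K4 (W 0) u x =
      (M2 * M0 * M0 ^ 2 - (MJ ^ 2) ^ 2) * (8 * M0 ^ 4 * H789.K4 (W 0) u x) /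
        (16 * MJ ^ 4 * M0 ^ 4) := by
    field_simp
    ring
  rw [H789.K4_eq, eT, h5, le_div_iff₀ (by positivity)]
  linarith

/-- the three point inequality on the group -/
theorem three_gen {A : Type*} [AddCommGroup A] {Z : A → ℝ} (hK : PSDK Z)
    (he : ∀ a, Z (-a) = Z a) (a p q : A) :
    (kk Z a p - kk Z a q) ^ 2 ≤ kk Z a a * (kk Z p p + kk Z q q - 2 * kk Z p q) := by
  have key : ∀ c d : ℝ, 0 ≤ c ^ 2 * kk Z a a + 2 * (c * d * (kk Z a p - kk Z a q)) +
      d ^ 2 * (kk Z p p + kk Z q q - 2 * kk Z p q) := by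
    intro c d
    have h := hK 3 ![a, p, q] ![c, d, -d]
    simp only [Fin.sum_univ_three, Matrix.cons_val_zero, Matrix.cons_val_one,
      Matrix.cons_val] at h
    rw [H789.kk_symm he p a, H789.kk_symm he q a, H789.kk_symm he q p] at h
    linarith
  exact disc key

/-- **LB1^D** -/
theorem lb1D (hW : DisF W) (b : B) (J u v : V → ℝ) :
    Cv (W b) J (li u) (li v) ^ 2 ≤
      1 / 2 * Real.exp (TD W b J) * Cv (W 0) 0 (fun h => li u h ^ 2) (fun h => li v h ^ 2) := by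
  have hyJ : 0 < yy (W b) J := hW.pos b J
  have hy0 : 0 < yy (W 0) 0 := hW.pos 0 0
  have hy2 : 0 < Zs (W (b + b)) (J + J) := hW.pos _ _
  have t1 := H789.tendsto_div_pow (H789.kk_diff (hW.em b) J u v)
  have t3 := H789.tendsto_div_pow (H789.kk_quad (hW.em 0) hW.ev0 u v)
  set M0 := yy (W 0) 0 with hM0
  set MJ := yy (W b) J with hMJ
  set M2 := Zs (W (b + b)) (J + J) with hM2
  set α := 4 * (MJ ^ 2 * Cv (W b) J (li u) (li v)) with hα
  set c := 8 * (M0 ^ 2 *
        (Ex (W 0) 0 (fun h => li u h ^ 2 * li v h ^ 2) - Ex (W 0) 0 (fun h => li u h ^ 2) *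
    Ex (W 0) 0 (fun h => li v h ^ 2))) with hc
  have key : α ^ 2 ≤ M2 * M0 * c := by
    refine le_of_tendsto_of_tendsto (t1.pow 2) (t3.const_mul (M2 * M0)) ?_
    filter_upwards [self_mem_nhdsWithin] with e he'
    have he0 : e ≠ 0 := he'
    have h1 := three_gen hW.psdk hW.negB (b, J) (0, e • (u + v)) (0, e • (u - v))
    have e2 : kk (ZB W) (b, J) (b, J) = M2 * M0 := by
      unfold kk ZB
      simp only [Prod.mk_add_mk, sub_self]
      rfl
    rw [e2] at h1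
    simp only [kk_ZB] at h1
    have h2 : 0 < (e ^ 2) ^ 2 := by positivity
    have h3 := div_le_div_of_nonneg_right h1 h2.le
    refine (le_of_eq ?_).trans (h3.trans (le_of_eq ?_))
    · field_simp
    · field_simp
  have eT : Real.exp (TD W b J) = M2 * M0 ^ 3 / MJ ^ 4 := exp_TD hW b J
  have h5 : 1 / 2 * (M2 * M0 ^ 3 / MJ ^ 4) *
      Cv (W 0) 0 (fun h => li u h ^ 2) (fun h => li v h ^ 2) =
      M2 * M0 * c / (16 * MJ ^ 4) := by
    rw [hc]
    unfold TM.H104.Cv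
    field_simp
    ring
  have hL : α ^ 2 = 16 * MJ ^ 4 * Cv (W b) J (li u) (li v) ^ 2 := by
    rw [hα]
    ring
  rw [eT, h5, le_div_iff₀ (by positivity)]
  rw [hL] at key
  linarith

end family

end Vale.Agent.P159.H770
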