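import Vale.Agent.P159.H770.Sti4
import Vale.Agent.P159.H280.Hs11
import Vale.Agent.P159.H612.LocK6
import Vale.Agent.P159.H612.NsF
import Vale.Agent.P159.H529.Pr3
import Vale.Agent.P159.H859.Idl5

/-!
P159 (helper770): the inputs `ModK` and `ReIn` of `stat_flow` at a fixed level, from the outputs of the
modules: helper612's `LocI` on two tori at every scale (`LcK`), helper276's class `FlD` of decorations,
helper859's `SmT` on every torus (`SmK`).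
-/

set_option linter.unusedSectionVars false

namespace Vale.Agent.P159.H770.Sti

open Finset
open Vale.Agent.P159.TM.Spec (V)
open Vale.Agent.P159.TM.SpecC (Tor)
open Vale.Agent.P159.H817
open Vale.Agent.P159.H37 (Rs)
open Vale.Agent.P159.H963 (nwt)
open Vale.Agent.P159.H963.Core (RF nS)
open Vale.Agent.P159.H972 (lg tn)
open Vale.Agent.P159.H859.Idl
open Vale.Agent.P159.H773 (sd sd_pow sd_ne sd_ge)
open Vale.Agent.P159.H612.LocK (LocI epsL)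
open Vale.Agent.P159.H280.Hs (PRS)
open Vale.Agent.P159.H276 (FlD dcs_dec)

noncomputable section

/-- the mass in helper612's letters -/
lemma tn_eq (n : ℕ) : 1 / ((2 ^ n : ℕ) : ℝ) ^ 2 = tn n := by
  unfold tn
  push_cast
  rw [one_div, ← pow_mul, mul_comm n 2, pow_mul]
  norm_num

lemma tn_pos' (n : ℕ) : 0 < tn n := by
  unfold tn
  positivity

/-- the torus of `R` is the torus of the next power of two -/
lemma sd_up (i R : ℕ) : sd i R = sd i (2 ^ Nat.clog 2 R) := by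
  rw [sd_pow]
  unfold sd
  rw [pow_add]

/-! ### one scale -/

section one

variable {N mb n1 n2 : ℕ} [NeZero N] [NeZero ((mb + 1) * 2)] [NeZero ((mb + 1) * (n1 + 2))]
  [NeZero ((mb + 1) * (n2 + 2))] {b : ℝ} {hb : 0 < b} {n A κ l r l0 : ℕ}
  {L₀ c C Λ pr ω ε₃ : ℝ} {D0 D1 : Dec}

lemma locN_of (I : LocI N mb n1 b hb (2 ^ n) A κ l r l0 L₀ c C Λ pr ω D0 D1)
    (hlr : 256 * l ≤ r) (hrN : 64 * r ≤ N) (hε : epsL N (2 ^ n) A κ c C pr ω ≤ ε₃) :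
    LocN N l r b (tn n) Λ ε₃ D0 D1 := by
  intro w m B P W hm h00 h10 h01 h11 hP hW
  have h := I.loc hlr hrN w m B P W hm h00 h10 h01 h11 hP hW
  rw [tn_eq] at h
  exact h.trans hε

lemma torN_of {N' : ℕ} [NeZero N'] (hN' : N' = 2 * N)
    (I1 : LocI N mb n1 b hb (2 ^ n) A κ l r l0 L₀ c C Λ pr ω D0 D1)
    (I2 : LocI N' mb n2 b hb (2 ^ n) A κ l r l0 L₀ c C Λ pr ω D0 D1) (h8 : 8 ∣ N)
    (hlr : 256 * l ≤ r) (hrN : 64 * r ≤ N) (hpr : 0 ≤ pr)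
    (hε : epsL N (2 ^ n) A κ c C pr ω ≤ ε₃) : TorN N l r b (tn n) Λ ε₃ D0 D1 := by
  subst hN'
  intro β k1 k2 k3
  have h := H280.Hs.tor_LocI I1 I2 h8 hlr hrN hpr β k1 k2 k3
  rw [tn_eq] at h
  exact h.trans hε

variable {ρ rr : ℕ} {A' J' : ℝ}

/-- the price of one decoration -/
lemma pr_dec (hN : (mb + 1) * (n1 + 2) = N) (hb : 0 < b) {F : ℤ → ℤ → ℝ}
    (hF : FlD (tn n) ρ rr A' J' F) (hA : 0 ≤ A') (hJ : 0 ≤ J') (h2 : 2 * ρ + 4 < N)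
    (hρ : ρ + 2 ≤ κ) (hpr : 2 * (b * (J' + J')) + (A' + A') ≤ pr) (p : V N) :
    PRS mb n1 κ b (tn n) ({p} : Finset (Tor N)) (gr (dec F p)) pr := by
  refine H529.Pr.prs_dec1N hN hb (tn_pos' n) hF h2 hρ p ?_
  have : 0 ≤ b * J' := mul_nonneg hb.le hJ
  linarith

/-- **the field `dd`** at the distance `R` on one torus -/
lemma dd_one (I : LocI N mb n1 b hb (2 ^ n) A κ l r l0 L₀ c C Λ pr ω D0 D1) {R : ℕ}
    (hR : 4 * l ≤ R) (hRN : 2 * R ≤ N) (hF : ∀ F, F ∈ D0 ∨ F ∈ D1 → FlD (tn n) ρ rr A' J' F)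
    (hA : 0 ≤ A') (hJ : 0 ≤ J') (h2 : 2 * ρ + 4 < N) (hρ : ρ + 2 ≤ κ) (h3 : 2 * ρ + rr + 1 < R)
    (hpr : 2 * (b * (J' + J')) + (A' + A') ≤ pr) :
    ∀ F0 ∈ D0, ∀ F1 ∈ D1,
      |EZ N b (tn n) (gr (edec F0 F1 0 (R • H817.e1))) - EZ N b (tn n) (gr (dec F0 0)) -
        EZ N b (tn n) (gr (dec F1 (R • H817.e1)))| ≤ epsL N (2 ^ n) A κ c C pr ω := by
  have h := I.dd_R hR hRN
    (fun F hF0 p q _ => by
      rw [tn_eq]
      exact H612.LocK.PRS_mono (by simp) (pr_dec I.hN hb (hF F (Or.inl hF0)) hA hJ h2 hρ hpr p))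
    (fun F hF1 p q _ => by
      rw [tn_eq]
      exact H612.LocK.PRS_mono (by simp) (pr_dec I.hN hb (hF F (Or.inr hF1)) hA hJ h2 hρ hpr q))
    (fun F0 h0 F1 h1 p q hpq => by
      rw [tn_eq]
      exact H529.Pr.prs_edecN I.hN hb (tn_pos' n) (hF F0 (Or.inl h0)) (hF F1 (Or.inr h1)) h2
        (by omega) (by omega) hρ hpr)
  rw [tn_eq] at h
  exact h

/-- the same on a torus of the same side -/
lemma dd_two {M : ℕ} [NeZero M] (hM : M = N)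
    (I : LocI N mb n1 b hb (2 ^ n) A κ l r l0 L₀ c C Λ pr ω D0 D1) {R : ℕ}
    (hR : 4 * l ≤ R) (hRN : 2 * R ≤ N) (hF : ∀ F, F ∈ D0 ∨ F ∈ D1 → FlD (tn n) ρ rr A' J' F)
    (hA : 0 ≤ A') (hJ : 0 ≤ J') (h2 : 2 * ρ + 4 < N) (hρ : ρ + 2 ≤ κ) (h3 : 2 * ρ + rr + 1 < R)
    (hpr : 2 * (b * (J' + J')) + (A' + A') ≤ pr) :
    ∀ F0 ∈ D0, ∀ F1 ∈ D1,
      |EZ M b (tn n) (gr (edec F0 F1 0 (R • H817.e1))) - EZ M b (tn n) (gr (dec F0 0)) -
        EZ M b (tn n) (gr (dec F1 (R • H817.e1)))| ≤ epsL N (2 ^ n) A κ c C pr ω := by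
  subst hM
  exact dd_one I hR hRN hF hA hJ h2 hρ h3 hpr

/-- the comparison of two tori on one decoration -/
lemma tor_one {N' : ℕ} [NeZero N'] (hN' : N' = 2 * N)
    (I1 : LocI N mb n1 b hb (2 ^ n) A κ l r l0 L₀ c C Λ pr ω D0 D1)
    (I2 : LocI N' mb n2 b hb (2 ^ n) A κ l r l0 L₀ c C Λ pr ω D0 D1) (h8 : 8 ∣ N)
    (hlr : 256 * l ≤ r) (hrN : 64 * r ≤ N) (hpr0 : 0 ≤ pr) {F : ℤ → ℤ → ℝ} (hs : SuppD l0 F)
    (hF : FlD (tn n) ρ rr A' J' F) (hA : 0 ≤ A') (hJ : 0 ≤ J') (h2 : 2 * ρ + 4 < N)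
    (hρ : ρ + 2 ≤ κ) (hpr : 2 * (b * (J' + J')) + (A' + A') ≤ pr) :
    |EZ N' b (tn n) (gr (dec F 0)) - EZ N b (tn n) (gr (dec F 0))| ≤
      epsL N (2 ^ n) A κ c C pr ω := by
  have h := H280.Hs.tor_real_LocI hN' I1 I2 h8 hlr hrN hpr0 hs
    (Pc1 := ({0} : Finset (V N))) (Pc2 := ({0} : Finset (V N')))
    (fun p hp => by
      rw [Finset.mem_singleton] at hp
      rw [hp, H817.sz_zero]
      exact Nat.zero_le _)
    (fun p hp => by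
      rw [Finset.mem_singleton] at hp
      rw [hp, H817.sz_zero]
      exact Nat.zero_le _)
    (by simp)
    (by
      rw [tn_eq]
      exact pr_dec I1.hN hb hF hA hJ h2 hρ hpr 0)
    (by
      rw [tn_eq]
      exact pr_dec I2.hN hb hF hA hJ (by omega) hρ hpr 0)
  rw [tn_eq] at h
  exact h

/-- the smoothed energy of a decoration with a flow -/
lemma nS_FlD {a : ℝ} (ha : 1 ≤ a) {F : ℤ → ℤ → ℝ} (hF : FlD (tn n) ρ rr A' J' F) (hA : 0 ≤ A')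
    (hJ : 0 ≤ J') (h2 : 2 * ρ + 4 < N) : nS a (tn n) (dec F (0 : V N)) ≤ A' + J' := by
  obtain ⟨K, j, h⟩ := dcs_dec hF h2 (0 : V N)
  have ht := tn_pos' n
  have ha0 : 0 < a := by linarith
  refine (H612.NsF.nS_flow ha0 ht h.eq).trans ?_
  have h3 : (∑ x, K x ^ 2) / (2 * tn n) ≤ A' := by
    rw [div_le_iff₀ (by positivity)]
    have := h.K2
    have h4 : 0 ≤ tn n * A' := by positivity
    linarith
  have h5 : (∑ e, j e ^ 2) / a ≤ J' := by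
    rw [div_le_iff₀ ha0]
    have := h.j2
    nlinarith
  have h6 : 1 / a ≤ 1 := by
    rw [div_le_one ha0]
    exact ha
  calc 1 / a * ((∑ x, K x ^ 2) / (2 * tn n) + (∑ e, j e ^ 2) / a)
      ≤ 1 / a * (A' + J') := mul_le_mul_of_nonneg_left (add_le_add h3 h5) (by positivity)
    _ ≤ 1 * (A' + J') := mul_le_mul_of_nonneg_right h6 (by positivity)
    _ = _ := one_mul _

end one

/-! ### the two families of inputs -/

/-- **locality at the scale `k`**: helper612's `LocI` on the tori of `2 ^ k` and of `2 ^ (k + 1)` with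
the same numbers; `pj` = a number below the price -/
def LcK (i n l0 : ℕ) (b Λ ε₃ pj : ℝ) (D0 D1 : Dec) (k : ℕ) : Prop :=
  ∃ (hb : 0 < b) (mb n1 n2 A : ℕ) (_ : NeZero ((mb + 1) * 2)) (_ : NeZero ((mb + 1) * (n1 + 2)))
    (_ : NeZero ((mb + 1) * (n2 + 2))) (L₀ c C pr ω : ℝ),
    LocI (sd i (2 ^ k)) mb n1 b hb (2 ^ n) A (2 ^ (n + 5 * (k - n) / 8)) (2 ^ lK n k) (2 ^ k) l0
      L₀ c C Λ pr ω D0 D1 ∧
    LocI (sd i (2 ^ (k + 1))) mb n2 b hb (2 ^ n) A (2 ^ (n + 5 * (k - n) / 8)) (2 ^ lK n k)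
      (2 ^ k) l0 L₀ c C Λ pr ω D0 D1 ∧
    0 ≤ pr ∧ pj ≤ pr ∧
    epsL (sd i (2 ^ k)) (2 ^ n) A (2 ^ (n + 5 * (k - n) / 8)) c C pr ω ≤ ε₃ ∧
    epsL (sd i (2 ^ (k + 1))) (2 ^ n) A (2 ^ (n + 5 * (k - n) / 8)) c C pr ω ≤ ε₃

/-- **smooth real fields on the torus of `2 ^ k`**: helper859's `SmT` and its two numbers -/
def SmK (i : ℕ) (b t Λ εR : ℝ) (k : ℕ) : Prop :=
  ∃ (lc : ℕ) (_ : NeZero (sd i (2 ^ k) / lc)) (Y ρ p p' κ : ℝ) (j k' : ℕ),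
    SmT (sd i (2 ^ k)) lc b t Y ρ p p' κ j k' ∧ 112896 * κ * Λ ^ 2 ≤ 4 ^ j ∧
    H789.lvS ρ j k' / 2 + 56448 * t * (lc : ℝ) ^ 2 * Λ ^ 2 ≤ εR

section two

variable {i n l0 K1 Kw k0 : ℕ} {b a η Λ εR ε₃ pj r1 : ℝ} {D0 D1 : Dec}

/-- smooth real fields, any length -/
lemma SmK.realN {t : ℝ} (hb : 0 < b) (ht : 0 < t) {k : ℕ} (h : SmK i b t Λ εR k) {l : ℕ}
    (hl : 1 ≤ l) : RealN (sd i (2 ^ k)) l b t Λ εR := by
  obtain ⟨lc, _, Y, ρ, p, p', κ, j, k', H, h1, h2⟩ := h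
  intro F w hF hw
  exact (H.hR hb ht hl h1 F w hF hw).trans h2

/-- the strong number of the ideal correction on a torus of the same side -/
lemma gs_one {N M lc : ℕ} [NeZero N] [NeZero M] [NeZero (N / lc)] (hM : M = N)
    {t Y ρ p p' κ : ℝ} {j k' : ℕ} (H : SmT N lc b t Y ρ p p' κ j k') (hb : 0 < b) (ht : 0 < t)
    {N1 : ℕ} [NeZero N1] {R1 l R : ℕ} (hP : Prm M N1 l R R1)
    (hj : 17280000000 * κ * (s0 ^ 2 * ((l : ℝ) / R) ^ 2) ≤ 4 ^ j) :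
    RF M b t ((3 : ℝ) • gsR M N1 R1 l R) ≤
      H789.lvS ρ j k' / 2 + 144 * t * (lc : ℝ) ^ 2 * (60000000 * s0 ^ 2 * ((l : ℝ) / R) ^ 2) := by
  subst hM
  exact H.gs hb ht hP hj

/-- **`ModK`** -/
theorem modK_of (hb : 0 < b) {k : ℕ} (H : NmK i n (sd i (2 ^ K1)) (2 ^ K1) l0 η k)
    (hL : LcK i n l0 b Λ ε₃ pj D0 D1 k) (h1 : SmK i b (tn n) Λ εR k)
    (h2 : SmK i b (tn n) Λ εR (k + 1)) : ModK i n b Λ εR ε₃ D0 D1 k := by
  obtain ⟨hb', mb, n1, n2, A, i1, i2, i3, L₀, c, C, pr, ω, I1, I2, p0, p1, e1, e2⟩ := hL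
  have hlr := H.lr
  have hrN := H.rN
  have hrN' := H.rN'
  have hk := H.hk
  have hl1 : 1 ≤ 2 ^ lK n k := Nat.one_le_two_pow
  have h8 : 8 ∣ sd i (2 ^ k) := by
    rw [sd_pow]
    exact (pow_dvd_pow 2 (by omega : 3 ≤ i + k))
  exact ⟨h1.realN hb (tn_pos' n) hl1, h2.realN hb (tn_pos' n) hl1,
    locN_of I1 (by omega) hrN e1, locN_of I2 (by omega) hrN' e2,
    torN_of (sd_succ i k) I1 I2 h8 (by omega) hrN p0 e1⟩

variable {ρ rr : ℕ} {A' J' : ℝ}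

/-- **the strong number of the ideal correction** -/
lemma gR_of (hb : 0 < b) (hN : ∀ k, k0 ≤ k → k ≤ K1 → NmK i n (sd i (2 ^ K1)) (2 ^ K1) l0 η k)
    (hKw : Kw ≤ K1) (hΛ : 2 ≤ Λ) (hS : ∀ k, k0 ≤ k → k ≤ Kw → SmK i b (tn n) Λ εR k) {R : ℕ}
    (h0 : 2 ^ k0 ≤ R) (h1 : R ≤ 2 ^ Kw) :
    RF (sd i R) b (tn n) ((3 : ℝ) • gsF i n K1 R) ≤ εR := by
  have h2w : 2 ^ Kw ≤ 2 ^ K1 := Nat.pow_le_pow_right (by norm_num) hKw
  have hc1 : Nat.clog 2 R ≤ Kw := (Nat.clog_le_iff_le_pow (by norm_num)).2 h1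
  have hc0 : k0 ≤ Nat.clog 2 R := by
    have h5 : 2 ^ k0 ≤ 2 ^ Nat.clog 2 R := h0.trans (Nat.le_pow_clog (by norm_num) R)
    exact (Nat.pow_le_pow_iff_right (by norm_num)).1 h5
  have hsd : sd i R = sd i (2 ^ Nat.clog 2 R) := sd_up i R
  obtain ⟨lc, _, Y, ρ, p, p', κ, j, k', H, g1, g2⟩ := hS _ hc0 hc1
  have hP := prmR hN h0 (h1.trans h2w)
  obtain ⟨q1, q2, q3⟩ := log_mem h0 (h1.trans h2w)
  have hs := (hN _ q1 q2).s0l
  set l : ℕ := 2 ^ lK n (Nat.log 2 R) with hl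
  have hR0 : (0 : ℝ) < R := by
    have h5 : 0 < 2 ^ k0 := by positivity
    have : 0 < R := by omega
    exact_mod_cast this
  have h3 : ((2 ^ Nat.log 2 R : ℕ) : ℝ) ≤ R := by exact_mod_cast q3
  have hs0 := s0_pos
  have h4 : s0 * ((l : ℝ) / R) ≤ 1 / 328 := by
    rw [← mul_div_assoc, div_le_div_iff₀ hR0 (by norm_num)]
    linarith
  have h5 : 0 ≤ s0 * ((l : ℝ) / R) := by positivity
  have h6 : s0 ^ 2 * ((l : ℝ) / R) ^ 2 ≤ (1 / 328) ^ 2 := by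
    rw [← mul_pow]
    exact pow_le_pow_left₀ h5 h4 2
  have hκ := H.hκ
  have hΛ2 : 4 ≤ Λ ^ 2 := by nlinarith
  have h7 : 17280000000 * κ * (s0 ^ 2 * ((l : ℝ) / R) ^ 2) ≤ 4 ^ j := by
    refine le_trans ?_ g1
    have h8 : 0 ≤ 17280000000 * κ := by linarith
    have h9 := mul_le_mul_of_nonneg_left h6 h8
    have h10 : 112896 * κ * 4 ≤ 112896 * κ * Λ ^ 2 :=
      mul_le_mul_of_nonneg_left hΛ2 (by linarith)
    norm_num at h9
    nlinarith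
  refine (gs_one hsd H hb (tn_pos' n) hP h7).trans (le_trans ?_ g2)
  have ht := tn_pos' n
  have h8 : 0 ≤ tn n * (lc : ℝ) ^ 2 := by positivity
  have h9 : 144 * (60000000 * (s0 ^ 2 * ((l : ℝ) / R) ^ 2)) ≤ 56448 * Λ ^ 2 := by
    norm_num at h6
    linarith
  nlinarith [mul_le_mul_of_nonneg_left h9 h8]

/-- **`ReIn`** -/
theorem reIn_of (hb : 0 < b) (ha : 1 ≤ a) (hk0 : k0 ≤ Kw) (hKw : Kw ≤ K1)
    (hN : ∀ k, k0 ≤ k → k ≤ K1 → NmK i n (sd i (2 ^ K1)) (2 ^ K1) l0 η k) (hD : DecC l0 D0 D1)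
    (hL : ∀ k, k0 ≤ k → k ≤ Kw → LcK i n l0 b Λ ε₃ pj D0 D1 k)
    (hS : ∀ k, k0 ≤ k → k ≤ Kw → SmK i b (tn n) Λ εR k) (hΛ : 2 ≤ Λ)
    (hF : ∀ F, F ∈ D0 ∨ F ∈ D1 → FlD (tn n) ρ rr A' J' F) (hA : 0 ≤ A') (hJ : 0 ≤ J')
    (hpj : 2 * (b * (J' + J')) + (A' + A') ≤ pj)
    (hρ : ρ + 2 ≤ 2 ^ (n + 5 * (k0 - n) / 8)) (hρr : 2 * ρ + rr + 4 < 2 ^ k0) (hε : 0 ≤ ε₃)
    (R3 : ∀ k, k0 ≤ k → k ≤ Kw → ∀ F, F ∈ D0 ∨ F ∈ D1 →
      RF (sd i (2 ^ k)) b (tn n) ((3 : ℝ) • dec F 0) ≤ r1) :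
    ReIn i n b a D0 D1 k0 Kw K1 ε₃ ε₃ r1 εR (A' + J') := by
  have hi : 6 ≤ i := (hN k0 le_rfl (hk0.trans hKw)).i6
  have hρk : ∀ k, k0 ≤ k → ρ + 2 ≤ 2 ^ (n + 5 * (k - n) / 8) := fun k h1 =>
    hρ.trans (Nat.pow_le_pow_right (by norm_num) (by omega))
  have hρN : ∀ k, k0 ≤ k → 2 * ρ + 4 < sd i (2 ^ k) := fun k h1 => by
    have h2 : 2 ^ k0 ≤ 2 ^ k := Nat.pow_le_pow_right (by norm_num) h1
    have h3 := sd64 (R := 2 ^ k) hi
    omega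
  refine ⟨R3, fun k h1 h2 F hF' => nS_FlD ha (hF F hF') hA hJ (hρN k h1), ?_, hε, ?_,
    fun R h0 h1 => gR_of hb hN hKw hΛ hS h0 h1⟩
  · intro k h1 h2 F hF'
    obtain ⟨hb', mb, n1, n2, A, i1, i2, i3, L₀, c, C, pr, ω, I1, I2, p0, p1, e1, e2⟩ :=
      hL k h1 h2.le
    have H := hN k h1 (h2.le.trans hKw)
    have hlr := H.lr
    have hrN := H.rN
    have hk := H.hk
    have h8 : 8 ∣ sd i (2 ^ k) := by
      rw [sd_pow]
      exact (pow_dvd_pow 2 (by omega : 3 ≤ i + k))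
    have hs : SuppD l0 F := by
      rcases hF' with h | h
      · exact hD.supp0 F h
      · exact hD.supp1 F h
    exact (tor_one (sd_succ i k) I1 I2 h8 (by omega) hrN p0 hs (hF F hF') hA hJ (hρN k h1)
      (hρk k h1) (hpj.trans p1)).trans e1
  · intro R h0 h1
    have hR0 : R ≠ 0 := by
      have : 0 < 2 ^ k0 := by positivity
      omega
    rcases Nat.eq_or_lt_of_le h0 with h2 | h2
    · obtain ⟨hb', mb, n1, n2, A, i1, i2, i3, L₀, c, C, pr, ω, I1, I2, p0, p1, e1, e2⟩ :=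
        hL k0 le_rfl hk0
      have H := hN k0 le_rfl (hk0.trans hKw)
      have hlr := H.lr
      have hrN := H.rN
      intro F0 g0 F1 g1
      exact (dd_two (by rw [← h2]) I1 (R := R) (by omega) (by omega) hF hA hJ (hρN k0 le_rfl)
        (hρk k0 le_rfl) (by omega) (hpj.trans p1) F0 g0 F1 g1).trans e1
    · have hc1 : Nat.clog 2 R ≤ Kw := (Nat.clog_le_iff_le_pow (by norm_num)).2 h1
      have hc0 : k0 < Nat.clog 2 R := by
        by_contra hcon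
        have h3 := (Nat.clog_le_iff_le_pow (by norm_num)).1 (not_lt.1 hcon)
        omega
      obtain ⟨k, hk⟩ : ∃ k, Nat.clog 2 R = k + 1 := ⟨Nat.clog 2 R - 1, by omega⟩
      have hR1 : 2 ^ k < R := by
        by_contra hcon
        have h3 := (Nat.clog_le_iff_le_pow (b := 2) (by norm_num)).2 (not_lt.1 hcon)
        omega
      have hR2 : R ≤ 2 ^ (k + 1) := by
        rw [← hk]
        exact Nat.le_pow_clog (by norm_num) R
      obtain ⟨hb', mb, n1, n2, A, i1, i2, i3, L₀, c, C, pr, ω, I1, I2, p0, p1, e1, e2⟩ :=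
        hL k (by omega) (by omega)
      have H := hN k (by omega) (by omega)
      have hlr := H.lr
      have hsd : sd i R = sd i (2 ^ (k + 1)) := by
        rw [← hk]
        exact sd_up i R
      have h3 := sd64 (R := 2 ^ (k + 1)) hi
      intro F0 g0 F1 g1
      exact (dd_two hsd I2 (R := R) (by omega) (by omega) hF hA hJ (hρN (k + 1) (by omega))
        (hρk k (by omega)) (by omega) (hpj.trans p1) F0 g0 F1 g1).trans e2

end two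

end

end Vale.Agent.P159.H770.Sti
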