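import Vale.Agent.P159.H817.Id8

/-!
P159 (helper770): the chain of doublings of STATG-IDEAL (helper817) with a locality length `l k` which
depends on the scale `2^k` of the pair, so that the smooth energy `(N_k / l_k)^2` stays small against
`l_k / ξ` at every scale of the window.
-/

set_option linter.unusedSectionVars false

namespace Vale.Agent.P159.H770.Vl

open Finset
open Vale.Agent.P159.TM.Spec (V)
open Vale.Agent.P159.H817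

noncomputable section

variable {b t a : ℝ} {n : ℕ} {L S B : ℝ} {D0 D1 : Dec} {b0 : ℤ → ℤ → Bool → ℝ}

/-- slopes for a larger length -/
lemma GB_len {N l l' : ℕ} [NeZero N] {s : ℝ} {g : V N → ℝ} (hs : 0 ≤ s) (hl : 0 < l) (h : l ≤ l')
    (hg : GB (s / l') g) : GB (s / l) g :=
  hg.mono (div_le_div_of_nonneg_left hs (by exact_mod_cast hl) (by exact_mod_cast h))

/-- **the chain of doublings with variable length**: every ideal decorated pair at a distance `R` in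
`[2^k, 2^(k+1)]` on the torus `N_(k+1)`, against the base pair `2^k0` on the torus `N_k0`; at the
scale `k` the length is `l k` -/
theorem rh_chain {Nf : ℕ → ℕ} [∀ k, NeZero (Nf k)] {k0 k1 : ℕ} {E : ℝ} {l : ℕ → ℕ}
    {Λ ε₂ ε₃ : ℕ → ℝ}
    (H : ∀ k, k0 ≤ k → k ≤ k1 →
      ChI b t a n (l k) (Λ k) (ε₂ k) (ε₃ k) L D0 D1 b0 (Nf k) (Nf (k + 1)) k)
    (hl : ∀ k, k0 ≤ k → k < k1 → l k ≤ l (k + 1))
    (hE : ∀ k, k0 ≤ k → k ≤ k1 → 500000 * eB (Nf (k + 1)) (l k) (ε₂ k) (ε₃ k) ≤ E)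
    (hRb : ∀ k, k0 ≤ k → k ≤ k1 → RefB b0 (20 * l k)) (hL : 0 ≤ L)
    {F0 F1 : ℤ → ℤ → ℝ} (h0 : F0 ∈ D0) (h1 : F1 ∈ D1) (hLS : L ≤ S) (hB1 : 1 ≤ B)
    (hΛ : ∀ k, k0 ≤ k → k ≤ k1 → 10000000000 * (1 + CG + S + B) ≤ Λ k)
    {g : V (Nf k0) → ℝ} (hg : GB (S / l k0) g) (hgB : ∀ x, |g x| ≤ B)
    (hgI : Idl b0 (20 * l k0) (0 : V (Nf k0)) ((2 ^ k0) • e1) g)
    {k R : ℕ} (hk : k0 ≤ k) (hk1 : k ≤ k1) (hR1 : 2 ^ k ≤ R) (hR2 : R ≤ 2 ^ (k + 1))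
    {g' : V (Nf (k + 1)) → ℝ} (hg' : GB (S / l k) g') (hgB' : ∀ x, |g' x| ≤ B)
    (hgI' : Idl b0 (20 * l k) (0 : V (Nf (k + 1))) (R • e1) g') :
    |rh (Nf (k + 1)) b t a n (cfg F0 F1 0 (R • e1) g') -
      rh (Nf k0) b t a n (cfg F0 F1 0 ((2 ^ k0) • e1) g)| ≤ (k - k0 + 1) * E := by
  have hS : 0 ≤ S := hL.trans hLS
  -- a pair at the scale `2^j` on the torus `N_j`
  have A : ∀ d j, j = k0 + d → j ≤ k1 → ∃ gj : V (Nf j) → ℝ, GB (S / l j) gj ∧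
      (∀ x, |gj x| ≤ B) ∧ Idl b0 (20 * l j) (0 : V (Nf j)) ((2 ^ j) • e1) gj ∧
      |rh (Nf j) b t a n (cfg F0 F1 0 ((2 ^ j) • e1) gj) -
        rh (Nf k0) b t a n (cfg F0 F1 0 ((2 ^ k0) • e1) g)| ≤ d * E := by
    intro d
    induction d with
    | zero =>
      intro j hj hj1
      have : j = k0 := by omega
      subst this
      refine ⟨g, hg, hgB, hgI, ?_⟩
      simp
    | succ d ih =>
      intro j hj hj1
      obtain ⟨i, rfl⟩ : ∃ i, j = i + 1 := ⟨k0 + d, by omega⟩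
      obtain ⟨gi, a1, a2, a3, a4⟩ := ih i (by omega) (by omega)
      have Hi := H i (by omega) (by omega)
      have Hj := H (i + 1) (by omega) (by omega)
      have hli := hl i (by omega) (by omega)
      obtain ⟨s, hs⟩ := two_pow_64 Hi.sys.hl Hi.lr
      obtain ⟨gj, c1, c2, c3⟩ := id_next (S := S) (B := B) Hj.sys.hl Hj.sys.hlr Hj.sys.hrN
        Hj.id hL hLS hB1 (R := 2 ^ (i + 1)) le_rfl (by omega)
      refine ⟨gj, c1, c2, c3, ?_⟩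
      have hl0 : 0 < l i := by have := Hi.sys.hl; omega
      have st := rh_step Hi.dbl Hi.sys Hi.sys' (hRb i (by omega) (by omega)) Hi.id Hi.id' hL Hi.n8
        Hi.tor hs Hi.lr h0 h1 hLS hB1 (hΛ i (by omega) (by omega))
        (R := 2 ^ (i + 1)) (by rw [pow_succ]; omega) (by rw [pow_succ]; omega)
        a1 a2 a3 (GB_len hS hl0 hli c1) c2 (c3.mono (by omega))
      have st' := st.trans (hE i (by omega) (by omega))
      push_cast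
      rw [abs_le] at st' a4 ⊢
      constructor <;> linarith [st'.1, st'.2, a4.1, a4.2]
  obtain ⟨gk, a1, a2, a3, a4⟩ := A (k - k0) k (by omega) hk1
  have Hk := H k hk hk1
  obtain ⟨s, hs⟩ := two_pow_64 Hk.sys.hl Hk.lr
  have st := rh_step Hk.dbl Hk.sys Hk.sys' (hRb k hk hk1) Hk.id Hk.id' hL Hk.n8 Hk.tor hs Hk.lr
    h0 h1 hLS hB1 (hΛ k hk hk1) (R := R) hR1 (by rw [pow_succ] at hR2; omega) a1 a2 a3 hg' hgB' hgI'
  have st' := st.trans (hE k hk hk1)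
  rw [Nat.cast_sub hk] at a4
  rw [abs_le] at st' a4 ⊢
  constructor <;> linarith [st'.1, st'.2, a4.1, a4.2]

/-- **the chain for the partition functions, variable length** -/
theorem LPg_chain {Nf : ℕ → ℕ} [∀ k, NeZero (Nf k)] {k0 k1 : ℕ} {E ε₄ : ℝ} {l : ℕ → ℕ}
    {Λ ε₂ ε₃ : ℕ → ℝ}
    (H : ∀ k, k0 ≤ k → k ≤ k1 →
      ChI b t a n (l k) (Λ k) (ε₂ k) (ε₃ k) L D0 D1 b0 (Nf k) (Nf (k + 1)) k)
    (hl : ∀ k, k0 ≤ k → k < k1 → l k ≤ l (k + 1))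
    (hE : ∀ k, k0 ≤ k → k ≤ k1 → 500000 * eB (Nf (k + 1)) (l k) (ε₂ k) (ε₃ k) ≤ E)
    (hRb : ∀ k, k0 ≤ k → k ≤ k1 → RefB b0 (20 * l k)) (hL : 0 ≤ L)
    {F0 F1 : ℤ → ℤ → ℝ} (h0 : F0 ∈ D0) (h1 : F1 ∈ D1) (hLS : L ≤ S) (hB1 : 1 ≤ B)
    (hΛ : ∀ k, k0 ≤ k → k ≤ k1 → 10000000000 * (1 + CG + S + B) ≤ Λ k)
    {g : V (Nf k0) → ℝ} (hg : GB (S / l k0) g) (hgB : ∀ x, |g x| ≤ B)
    (hgI : Idl b0 (20 * l k0) (0 : V (Nf k0)) ((2 ^ k0) • e1) g)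
    {k R : ℕ} (hk : k0 ≤ k) (hk1 : k ≤ k1) (hR1 : 2 ^ k ≤ R) (hR2 : R ≤ 2 ^ (k + 1))
    {g' : V (Nf (k + 1)) → ℝ} (hg' : GB (S / l k) g') (hgB' : ∀ x, |g' x| ≤ B)
    (hgI' : Idl b0 (20 * l k) (0 : V (Nf (k + 1))) (R • e1) g')
    (hreal : |rh (Nf (k + 1)) b t a n (gr fun x => edec F0 F1 0 (R • e1) x + g' x) -
      rh (Nf k0) b t a n (gr fun x => edec F0 F1 0 ((2 ^ k0) • e1) x + g x)| ≤ ε₄) :
    |LPg (Nf (k + 1)) b t F0 F1 0 (R • e1) g' - LPg (Nf k0) b t F0 F1 0 ((2 ^ k0) • e1) g -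
      a / 2 * (eD (Nf (k + 1)) R - eD (Nf k0) (2 ^ k0))| ≤ (k - k0 + 1) * E + ε₄ := by
  have key := rh_chain H hl hE hRb hL h0 h1 hLS hB1 hΛ hg hgB hgI hk hk1 hR1 hR2 hg' hgB' hgI'
  rw [LPg_rh (a := a) (n := n), LPg_rh (N := Nf k0) (a := a) (n := n), eD_eq, eD_eq]
  have c1 : ax (Nf (k + 1)) R = R • e1 := (nsmul_e1 R).symm
  have c2 : ax (Nf k0) (2 ^ k0) = (2 ^ k0) • e1 := (nsmul_e1 (2 ^ k0)).symm
  rw [c1, c2]
  rw [abs_le] at key hreal ⊢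
  constructor <;> linarith [key.1, key.2, hreal.1, hreal.2]

end

end Vale.Agent.P159.H770.Vl
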