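import Vale.Agent.P159.H770.Sti3
import Vale.Agent.P159.H37.Sf3

/-!
P159 (helper770): STAT of one window along the flow `SFlow`: the inputs `StV` (helper686) and `RealR`
at every pair of the window, with total error `≤ y ^ (1 + c4) / 32` each, for all late levels, from the
outputs of the modules at every scale.
-/

set_option linter.unusedSectionVars false

namespace Vale.Agent.P159.H770.Sti

open Finset Filter Topology
open Vale.Agent.P159.TM.Spec (V)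
open Vale.Agent.P159.H817
open Vale.Agent.P159.H972 (lg tn Par Good)
open Vale.Agent.P159.H859.Idl
open Vale.Agent.P159.H773 (sd sd_pow sd_ne sd_ge)
open Vale.Agent.P159.H686 (StV RealR RealW)
open Vale.Agent.P159.H801 (SFlow)
open Vale.Agent.P159.H37.Sf (kf sf_wt sf_k1 sf_k3 sf_a sf_eps lb_tend)

noncomputable section

lemma FL_cast {N M : ℕ} [NeZero N] [NeZero M] (h : N = M) {b t a η : ℝ}
    (H : H972.FL b t a η M) : H972.FL b t a η N := by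
  subst h
  exact H

/-- the numbers of one window: `k0`, `K1` = exponents of the first and of the last distance,
`w` = length of the window -/
structure Lvn (i n k0 K1 w : ℕ) (b a η y sη p : ℝ) : Prop where
  hy0 : 0 < y
  hy1 : y ≤ 1
  ha : 1 ≤ a
  ha2 : a ≤ 2
  hη0 : 0 < η
  hη1 : 2 * η ≤ 1
  hη : η ≤ 17 * y ^ sη
  h01 : k0 ≤ K1
  hn : n ≤ k0
  hw : K1 ≤ n + 4 * w
  nm : ∀ k, k0 ≤ k → k ≤ K1 → ∀ l0, l0 ≤ 2 ^ lK n k0 →
    NmK i n (sd i (2 ^ K1)) (2 ^ K1) l0 η k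
  fl : ∀ k, k0 ≤ k → k ≤ K1 → H972.FL b (tn n) a η (sd i (2 ^ k))
  w1 : (w : ℝ) ≤ 2 * (1 + Real.logb 2 (1 / y))
  w2 : (2 : ℝ) ^ w ≤ 2 * y ^ (-p)

section flow

variable {P : Par} {b σ c c1 q2 qx : ℝ} {a y ε xs : ℕ → ℝ} {c' r q A : ℝ} {N : ℕ}

/-- **the numbers of the window at every late level** -/
theorem lvn_flow (hA : P.Adm) (hσ0 : 0 ≤ σ) (hσ : σ ≤ 1 / 4)
    (h : SFlow P b σ c c1 q2 qx a y ε xs c' r q A N) {ck : ℝ} (hck : 0 < ck)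
    (hck1 : ck ≤ P.thp) (hth : 2 * P.th ≤ ck) (i : ℕ) (hi : 6 ≤ i) :
    ∀ᶠ n in atTop, Lvn i n (n + kf ck y n) ((n + P.w (ε n)) + kf ck y (n + P.w (ε n)))
      (P.w (ε n)) b (a n) (17 * ε n ^ P.pf) (y n) ((2 - 3 * σ) * P.pf) (2 * P.thp) := by
  obtain ⟨hpf0, hpf1⟩ : 0 < P.pf ∧ P.pf ≤ 1 := ⟨hA.pf0, hA.pf1⟩
  have hthp0 := P.thp0
  have hthp1 := hA.thp1
  have hth0 := P.th0
  -- a power of two above `328 s0`
  obtain ⟨K, hK⟩ := pow_unbounded_of_one_lt (328 * s0) (one_lt_two (α := ℝ))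
  obtain ⟨E0, hE0, hE01, hdeg⟩ := deg_small (c' := ck / 2) (by positivity)
  have hy := h.fl.y0
  have hsη : 0 < (2 - 3 * σ) * P.pf := mul_pos (by linarith) hpf0
  have e1 : ∀ᶠ n in atTop, y n ^ ((2 - 3 * σ) * P.pf) ≤ 1 / 34 :=
    h.fl.ev_pow hsη (by norm_num)
  have e2 : ∀ᶠ n in atTop, y n ^ (2 : ℝ) ≤ E0 := h.fl.ev_pow (by norm_num) hE0
  have e3 := (lb_tend hy h.fl.yt).eventually_ge_atTop (((4 * K + 60 : ℕ) : ℝ) / ck)
  have e4 := (sf_wt h hσ).eventually_ge_atTop i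
  obtain ⟨hk1, hk1'⟩ := sf_k1 h hck
  filter_upwards [e1, e2, e3, e4, hk1, sf_k3 h hσ hck hck1, (sf_a h).1,
    eventually_ge_atTop (max N 1)] with n g1 g2 g3 g4 g5 g6 g7 hn
  have hN : N ≤ n := (le_max_left _ _).trans hn
  have hn1 : 1 ≤ n := (le_max_right _ _).trans hn
  have hyn := hy n
  have hy1 := h.y1 n hN
  have hε := sf_eps h hN
  have hlo := h.lo n hN
  have hup := h.up n hN
  have hes := h.es n hN
  have hε1 : ε n ≤ 1 := hes.trans (P.es1.trans (by norm_num))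
  have hlb : 0 ≤ Real.logb 2 (1 / y n) :=
    Real.logb_nonneg one_lt_two (by rw [le_div_iff₀ hyn]; linarith)
  -- `log2 (1/ε) ≤ 2 log2 (1/y)`
  have hεy : y n ^ (2 : ℝ) ≤ ε n :=
    (Real.rpow_le_rpow_of_exponent_ge hyn hy1 (by linarith)).trans hlo
  have hlε : Real.logb 2 (1 / ε n) ≤ 2 * Real.logb 2 (1 / y n) := by
    have h1 : Real.logb 2 (1 / ε n) ≤ Real.logb 2 ((1 / y n) ^ (2 : ℝ)) := by
      refine Real.logb_le_logb_of_le one_lt_two (by positivity) ?_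
      rw [one_div, one_div, Real.inv_rpow hyn.le]
      exact inv_anti₀ (Real.rpow_pos_of_pos hyn _) hεy
    rwa [Real.logb_rpow_eq_mul_logb_of_pos (by positivity)] at h1
  have hη : 17 * ε n ^ P.pf ≤ 17 * y n ^ ((2 - 3 * σ) * P.pf) := by
    rw [Real.rpow_mul hyn.le]
    have := Real.rpow_le_rpow hε.le hup hpf0.le
    linarith
  have hη0 : 0 < 17 * ε n ^ P.pf := by positivity
  -- the exponents
  have hkf : ck * Real.logb 2 (1 / y n) ≤ (kf ck y n : ℝ) := Nat.le_ceil _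
  have hkf60 : 4 * K + 60 ≤ kf ck y n := by
    have h1 : ((4 * K + 60 : ℕ) : ℝ) ≤ ck * Real.logb 2 (1 / y n) := by
      rw [div_le_iff₀ hck] at g3
      linarith
    exact_mod_cast h1.trans hkf
  have hkE : P.kE (ε n) ≤ kf ck y n + 1 := by
    have h1 : (P.kE (ε n) : ℝ) ≤ P.th * Real.logb 2 (1 / ε n) + 1 := lg_up hth0.le hε hε1
    have h2 : P.th * Real.logb 2 (1 / ε n) ≤ P.th * (2 * Real.logb 2 (1 / y n)) :=
      mul_le_mul_of_nonneg_left hlε hth0.le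
    have h3 : 2 * P.th * Real.logb 2 (1 / y n) ≤ ck * Real.logb 2 (1 / y n) :=
      mul_le_mul_of_nonneg_right hth hlb
    have h4 : (P.kE (ε n) : ℝ) ≤ (kf ck y n + 1 : ℕ) := by
      push_cast
      linarith
    exact_mod_cast h4
  have hpow : (y n ^ (2 : ℝ)) ^ (-(ck / 2)) ≤ (2 : ℝ) ^ kf ck y n := by
    rw [← Real.rpow_mul hyn.le]
    have : (2 : ℝ) * -(ck / 2) = -ck := by ring
    rw [this]
    exact two_lg_ge ck hyn
  have heη : y n ^ (2 : ℝ) ≤ 17 * ε n ^ P.pf := by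
    have h1 : ε n ≤ ε n ^ P.pf := by
      have := Real.rpow_le_rpow_of_exponent_ge hε hε1 hpf1
      rwa [Real.rpow_one] at this
    linarith
  have hq := hA.hq
  set w := P.w (ε n) with hw
  set k' := kf ck y (n + w) with hk'
  refine ⟨hyn, hy1, h.a1 n hN, g7.2.trans ?_, hη0, ?_, hη, by omega, by omega, by omega, ?_, ?_,
    ?_, ?_⟩
  · have := Real.pi_lt_four
    linarith
  · have : 17 * y n ^ ((2 - 3 * σ) * P.pf) ≤ 17 * (1 / 34) :=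
      mul_le_mul_of_nonneg_left g1 (by norm_num)
    linarith
  · intro k h1 h2 l0 hl0
    have h3 : kf ck y n ≤ k - n := by omega
    refine ⟨hi, hn1, by omega, ?_, ?_, sd64 hi, ?_, ?_⟩
    · refine hK.le.trans (pow_le_pow_right₀ (by norm_num) (by omega))
    · have : 2 ^ k ≤ 2 ^ ((n + w) + k') := Nat.pow_le_pow_right (by norm_num) h2
      omega
    · exact hl0.trans (Nat.pow_le_pow_right (by norm_num) (lK_mono h1))
    · refine hdeg (y n ^ (2 : ℝ)) _ (by positivity) g2 heη (k - n) (by omega) ?_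
      exact hpow.trans (pow_le_pow_right₀ (by norm_num) h3)
  · intro k h1 h2
    have hT : P.TT n (ε n) (i + k) := by
      have h8 : 2 * (4 * w) ≤ P.q0 * (4 * w) := Nat.mul_le_mul_right _ hq
      have h9 : i ≤ w := g4
      have h10 : k' ≤ 3 * w := g6
      refine ⟨by omega, ?_⟩
      refine le_trans (b := n + P.kE (ε n) + 2 * (4 * w)) (by omega) ?_
      exact Nat.add_le_add_left h8 _
    exact FL_cast (sd_pow i k) (h.flc n (ε n) hε hes (h.good n hN) (ε n) le_rfl hes (i + k) hT)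
  · have h1 : (w : ℝ) ≤ P.thp * Real.logb 2 (1 / ε n) + 1 := lg_up hthp0.le hε hε1
    have h2 : P.thp * Real.logb 2 (1 / ε n) ≤ 1 * (2 * Real.logb 2 (1 / y n)) :=
      mul_le_mul hthp1 hlε (Real.logb_nonneg one_lt_two (by rw [le_div_iff₀ hε]; linarith))
        (by norm_num)
    linarith
  · have h1 : (2 : ℝ) ^ w ≤ 2 * ε n ^ (-P.thp) := two_lg_le hthp0.le hε hε1
    have h2 : ε n ^ (-P.thp) ≤ (y n ^ (2 : ℝ)) ^ (-P.thp) :=
      Real.rpow_le_rpow_of_nonpos (Real.rpow_pos_of_pos hyn _) hεy (by linarith)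
    have h3 : (y n ^ (2 : ℝ)) ^ (-P.thp) = y n ^ (-(2 * P.thp)) := by
      rw [← Real.rpow_mul hyn.le]
      congr 1
      ring
    rw [h3] at h2
    linarith

end flow

/-! ### the two outputs at fixed small `y` -/

/-- a power against a smaller one with a constant -/
lemma pow_div {s v K : ℝ} (hK : 0 < K) (h : v < s) : ∃ Y0 : ℝ, 0 < Y0 ∧ Y0 ≤ 1 ∧
    ∀ y, 0 < y → y ≤ Y0 → y ^ s ≤ y ^ v / K := by
  obtain ⟨Y0, h0, h1, hY⟩ := pow_abs (C := K) hK.le h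
  refine ⟨Y0, h0, h1, fun y hy hy0 => ?_⟩
  have h2 := hY y hy hy0
  have hlb : 0 ≤ Real.logb 2 (1 / y) :=
    Real.logb_nonneg one_lt_two (by rw [le_div_iff₀ hy]; linarith)
  have h3 : 0 < y ^ s := Real.rpow_pos_of_pos hy _
  rw [le_div_iff₀ hK]
  have h4 : 0 ≤ K * Real.logb 2 (1 / y) * y ^ s := by positivity
  nlinarith

/-- **the chain**: `StV` at the pair `R`, total error `≤ y ^ (1 + c4) / 32` -/
theorem stV_num {sη p cL u c4 : ℝ}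
    (h1 : 1 + c4 + 2 * p < sη - 2 * cL) (h2 : 1 + c4 + 2 * p < u) (i : ℕ) :
    ∃ Y0 : ℝ, 0 < Y0 ∧ Y0 ≤ 1 ∧ ∀ (n k0 K1 w l0 R : ℕ) (b a η y Λ εR ε₃ : ℝ) (D0 D1 : Dec),
      0 < b → Lvn i n k0 K1 w b a η y sη p → y ≤ Y0 → DecC l0 D0 D1 → l0 ≤ 2 ^ lK n k0 →
      10000000000 * (1 + CG + 37 * s0 + 1) ≤ Λ → Λ ≤ y ^ (-cL) → 0 ≤ εR → εR ≤ y ^ u →
      0 ≤ ε₃ → ε₃ ≤ y ^ u → 2 ^ k0 ≤ R → R ≤ 2 ^ K1 →
      (∀ k, k0 ≤ k → k < Nat.clog 2 R →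
        RealN (sd i (2 ^ k)) (2 ^ lK n k) b (tn n) Λ εR ∧
        RealN (sd i (2 ^ (k + 1))) (2 ^ lK n k) b (tn n) Λ εR ∧
        LocN (sd i (2 ^ k)) (2 ^ lK n k) (2 ^ k) b (tn n) Λ ε₃ D0 D1 ∧
        LocN (sd i (2 ^ (k + 1))) (2 ^ lK n k) (2 ^ k) b (tn n) Λ ε₃ D0 D1 ∧
        TorN (sd i (2 ^ k)) (2 ^ lK n k) (2 ^ k) b (tn n) Λ ε₃ D0 D1) →
      ∃ ε₂ E : ℝ, StV i b (tn n) a (dg n (2 * η)) (fun k => 2 ^ lK n k) (fun _ => Λ)
        (fun _ => ε₂) (fun _ => ε₃) (37 * s0) (37 * s0) 1 E D0 D1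
        (bC (sd i (2 ^ K1)) (2 ^ K1)) k0 R (gsF i n K1 (2 ^ k0)) (gsF i n K1 R) ∧
        ((Nat.clog 2 R : ℝ) - k0) * E ≤ y ^ (1 + c4) / 32 := by
  set s := min (sη - 2 * cL) u with hs
  have hs1 : s ≤ sη - 2 * cL := min_le_left _ _
  have hs2 : s ≤ u := min_le_right _ _
  have hs3 : 1 + c4 + 2 * p < s := lt_min h1 h2
  obtain ⟨Y1, q1, q2, hE⟩ := sum_E i (p := p) (s := s) (v := (1 + c4 + (s - 2 * p)) / 2)
    (C := 3 * (3528 * (12 * 17)) + 4) (D := 2) (by norm_num) (by norm_num) (by linarith)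
  obtain ⟨Y2, q3, q4, hY⟩ := pow_div (s := (1 + c4 + (s - 2 * p)) / 2) (v := 1 + c4) (K := 32)
    (by norm_num) (by linarith)
  refine ⟨min Y1 Y2, lt_min q1 q3, (min_le_left _ _).trans q2, ?_⟩
  intro n k0 K1 w l0 R b a η y Λ εR ε₃ D0 D1 hb L hy0 hD hl0 hΛ0 hΛ hR0 hR h30 h3 hRa hRb hS
  have hy := L.hy0
  have hy1 := L.hy1
  have hΛp : 0 ≤ Λ := by
    have := CG_pos
    have := s0_pos
    linarith
  set ε₂ : ℝ := 3528 * (12 * η) * Λ ^ 2 + εR with hε₂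
  have hη0 := L.hη0
  have hε₂0 : 0 ≤ ε₂ := by positivity
  set x : ℝ := 3 * ε₂ + ε₃ with hx
  have hx0 : 0 ≤ x := by positivity
  have hps : ∀ z, s ≤ z → y ^ z ≤ y ^ s := fun z hz =>
    Real.rpow_le_rpow_of_exponent_ge hy hy1 hz
  have hxs : x ≤ (3 * (3528 * (12 * 17)) + 4) * y ^ s := by
    have a1 : Λ ^ 2 ≤ y ^ (-(2 * cL)) := by
      have a2 : Λ ^ 2 ≤ (y ^ (-cL)) ^ 2 := pow_le_pow_left₀ hΛp hΛ 2
      have a3 : (y ^ (-cL)) ^ 2 = y ^ (-(2 * cL)) := by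
        rw [← Real.rpow_natCast (y ^ (-cL)) 2, ← Real.rpow_mul hy.le]
        congr 1
        push_cast
        ring
      rwa [a3] at a2
    have a4 : η * Λ ^ 2 ≤ 17 * y ^ s := by
      calc η * Λ ^ 2 ≤ (17 * y ^ sη) * y ^ (-(2 * cL)) :=
            mul_le_mul L.hη a1 (by positivity) (by positivity)
        _ = 17 * y ^ (sη - 2 * cL) := by
            rw [mul_assoc, ← Real.rpow_add hy]
            congr 2
        _ ≤ 17 * y ^ s := mul_le_mul_of_nonneg_left (hps _ hs1) (by norm_num)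
    have a5 := hps u hs2
    rw [hx, hε₂]
    linarith
  set E : ℝ := 500000 * (8 * (2 ^ (i + 1) * 2 ^ w) ^ 2 * x) with hEd
  have hE0 : 0 ≤ E := by positivity
  have hc : Nat.clog 2 R ≤ K1 := (Nat.clog_le_iff_le_pow (by norm_num)).2 hRb
  have hkc : k0 ≤ Nat.clog 2 R := by
    have h5 : 2 ^ k0 ≤ 2 ^ Nat.clog 2 R := hRa.trans (Nat.le_pow_clog (by norm_num) R)
    exact (Nat.pow_le_pow_iff_right (by norm_num)).1 h5
  have hLw := L.hw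
  have hLn := L.hn
  refine ⟨ε₂, E, ?_, ?_⟩
  · refine stV_of (l0 := l0) (εR := εR) (η := η) hb L.ha L.ha2 hη0 L.hη1 hD
      (fun k g1 g2 => L.nm k g1 g2 l0 hl0) hRa hRb (fun k g1 g2 => ?_) hR0 le_rfl hΛ0 hE0
      fun k g1 g2 => ?_
    · obtain ⟨b1, b2, b3, b4, b5⟩ := hS k g1 g2
      exact ⟨L.fl k g1 (by omega), L.fl (k + 1) (by omega) (by omega), b1, b2, b3, b4, b5⟩
    · exact eB_val i hx0 (by omega) (by omega)
  · have h5 : ((Nat.clog 2 R : ℝ) - k0) ≤ 4 * (w : ℝ) := by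
      have h6 : (Nat.clog 2 R : ℝ) ≤ n + 4 * w := by exact_mod_cast hc.trans hLw
      have h7 : (n : ℝ) ≤ k0 := by exact_mod_cast hLn
      linarith
    calc ((Nat.clog 2 R : ℝ) - k0) * E ≤ 4 * (w : ℝ) * E := mul_le_mul_of_nonneg_right h5 hE0
      _ ≤ y ^ ((1 + c4 + (s - 2 * p)) / 2) :=
          hE y hy (hy0.trans (min_le_left _ _)) w L.w1 L.w2 x hx0 hxs
      _ ≤ y ^ (1 + c4) / 32 := hY y hy (hy0.trans (min_le_right _ _))

/-- **the real part**: `RealR` at the pair `R`, total error `≤ y ^ (1 + c4) / 32` -/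
theorem realR_num {sη p cB u c4 b2 : ℝ} (hb2 : 0 ≤ b2) (h1 : 1 + c4 < sη - cB / 2)
    (hcB : 0 ≤ cB) (h2 : 1 + c4 < u) (i : ℕ) :
    ∃ Y0 : ℝ, 0 < Y0 ∧ Y0 ≤ 1 ∧
      ∀ (n k0 K1 Kw w l0 R : ℕ) (b a η y εX ε₃ r1 r2 B1 : ℝ) (D0 D1 : Dec),
      0 < b → b ≤ b2 → Lvn i n k0 K1 w b a η y sη p → y ≤ Y0 → DecC l0 D0 D1 →
      l0 ≤ 2 ^ lK n k0 → Kw ≤ K1 → ReIn i n b a D0 D1 k0 Kw K1 εX ε₃ r1 r2 B1 →
      εX ≤ y ^ u → ε₃ ≤ y ^ u → r1 ≤ y ^ u → r2 ≤ y ^ u → 0 ≤ B1 → B1 ≤ y ^ (-cB) →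
      2 ^ k0 ≤ R → R ≤ 2 ^ Kw →
      ∃ ε₄ : ℝ, RealR i b (tn n) a (dg n (2 * η)) D0 D1 k0 R (gsF i n K1 (2 ^ k0))
        (gsF i n K1 R) ε₄ ∧ ε₄ ≤ y ^ (1 + c4) / 32 := by
  set s := min (sη - cB / 2) u with hs
  have hs1 : s ≤ sη - cB / 2 := min_le_left _ _
  have hs2 : s ≤ u := min_le_right _ _
  have hs3 : 1 + c4 < s := lt_min h1 h2
  have hs0 := s0_pos
  set C : ℝ := 32 * (16 + 2 + 2 * (2 * 17 * (5 + b2) * (s0 * 5) + 24 * 17 * s0 ^ 2 + 1)) with hC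
  have hC0 : 0 < C := by positivity
  obtain ⟨Y0, q1, q2, hY⟩ := pow_abs (C := C) (s := s) (v := 1 + c4) hC0.le (by linarith)
  refine ⟨Y0, q1, q2, ?_⟩
  intro n k0 K1 Kw w l0 R b a η y εX ε₃ r1 r2 B1 D0 D1 hb hbb L hy0 hD hl0 hKw H hX h3 hr1 hr2
    hB0 hB hRa hRb
  have hkw : k0 ≤ Kw := (Nat.pow_le_pow_iff_right (by norm_num)).1 (hRa.trans hRb)
  have hy := L.hy0
  have hy1 := L.hy1
  have hη0 := L.hη0
  have ht : 0 < tn n := by unfold tn; positivity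
  have hlb : 0 ≤ Real.logb 2 (1 / y) :=
    Real.logb_nonneg one_lt_two (by rw [le_div_iff₀ hy]; linarith)
  have hI := realI_of (l0 := l0) hη0 hD hkw hKw (fun k g1 g2 => L.nm k g1 g2 l0 hl0) L.fl H
  have hW := hI.realW hb ht (by linarith [L.ha]) (by linarith)
  refine ⟨_, hW.at hRa hRb, ?_⟩
  have hps : ∀ z, s ≤ z → y ^ z ≤ y ^ s := fun z hz =>
    Real.rpow_le_rpow_of_exponent_ge hy hy1 hz
  have hu := hps u hs2
  have hys : 0 < y ^ s := Real.rpow_pos_of_pos hy _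
  -- the length of the window
  have k1 : ((Kw : ℝ) - k0) ≤ 8 * (1 + Real.logb 2 (1 / y)) := by
    have h6 : (Kw : ℝ) ≤ n + 4 * w := by exact_mod_cast hKw.trans L.hw
    have h7 : (n : ℝ) ≤ k0 := by exact_mod_cast L.hn
    have := L.w1
    linarith
  have k2 : ((Kw : ℝ) - k0) * εX ≤ 8 * (1 + Real.logb 2 (1 / y)) * y ^ s :=
    mul_le_mul k1 (hX.trans hu) H.X0 (by positivity)
  -- `e5`
  have k3 := e5_le (n := n) (r1 := r1) (r2 := r2) hb L.ha L.ha2 hη0 L.hη1 hB0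
  have k4 : √B1 ≤ y ^ (-(cB / 2)) := by
    have : y ^ (-(cB / 2)) = √(y ^ (-cB)) := by
      rw [Real.sqrt_eq_rpow, ← Real.rpow_mul hy.le]
      congr 1
      ring
    rw [this]
    exact Real.sqrt_le_sqrt hB
  have k5 : η * √B1 ≤ 17 * y ^ s := by
    calc η * √B1 ≤ (17 * y ^ sη) * y ^ (-(cB / 2)) :=
          mul_le_mul L.hη k4 (Real.sqrt_nonneg _) (by positivity)
      _ = 17 * y ^ (sη - cB / 2) := by
          rw [mul_assoc, ← Real.rpow_add hy]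
          congr 2
      _ ≤ 17 * y ^ s := mul_le_mul_of_nonneg_left (hps _ hs1) (by norm_num)
  have k6 : η ≤ 17 * y ^ s :=
    L.hη.trans (mul_le_mul_of_nonneg_left (hps _ (by linarith)) (by norm_num))
  have k7 : 2 * η * (5 + b) * (s0 * (5 * √B1)) ≤ 2 * 17 * (5 + b2) * (s0 * 5) * y ^ s := by
    calc 2 * η * (5 + b) * (s0 * (5 * √B1)) = 2 * (5 + b) * (s0 * 5) * (η * √B1) := by ring
      _ ≤ 2 * (5 + b2) * (s0 * 5) * (17 * y ^ s) := by gcongr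
      _ = _ := by ring
  have k8 : 24 * η * s0 ^ 2 ≤ 24 * 17 * s0 ^ 2 * y ^ s := by
    have : 0 ≤ 24 * s0 ^ 2 := by positivity
    nlinarith
  have k9 := hY y hy hy0
  have hT : 0 ≤ C * Real.logb 2 (1 / y) * y ^ s := by positivity
  have k10 : C * y ^ s + C * Real.logb 2 (1 / y) * y ^ s ≤ y ^ (1 + c4) := by
    linarith
  rw [le_div_iff₀ (by norm_num : (0 : ℝ) < 32)]
  have k11 : 16 * (1 + Real.logb 2 (1 / y)) * y ^ s * 32 ≤
      16 * 32 * y ^ s + C * Real.logb 2 (1 / y) * y ^ s := by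
    have h16 : 16 * 32 ≤ C := by
      rw [hC]
      have : 0 ≤ 2 * 17 * (5 + b2) * (s0 * 5) + 24 * 17 * s0 ^ 2 + 1 := by positivity
      linarith
    have h17 : 0 ≤ Real.logb 2 (1 / y) * y ^ s := by positivity
    nlinarith
  have k12 : C * y ^ s = 32 * (16 * y ^ s + 2 * y ^ s +
      2 * (2 * 17 * (5 + b2) * (s0 * 5) * y ^ s + 24 * 17 * s0 ^ 2 * y ^ s + y ^ s)) := by
    rw [hC]
    ring
  linarith

/-- the outputs of the modules for the chain at one scale `k`: real smooth fields, locality on the two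
tori, comparison of the two tori -/
def ModK (i n : ℕ) (b Λ εR ε₃ : ℝ) (D0 D1 : Dec) (k : ℕ) : Prop :=
  RealN (sd i (2 ^ k)) (2 ^ lK n k) b (tn n) Λ εR ∧
  RealN (sd i (2 ^ (k + 1))) (2 ^ lK n k) b (tn n) Λ εR ∧
  LocN (sd i (2 ^ k)) (2 ^ lK n k) (2 ^ k) b (tn n) Λ ε₃ D0 D1 ∧
  LocN (sd i (2 ^ (k + 1))) (2 ^ lK n k) (2 ^ k) b (tn n) Λ ε₃ D0 D1 ∧
  TorN (sd i (2 ^ k)) (2 ^ lK n k) (2 ^ k) b (tn n) Λ ε₃ D0 D1

/-- the class constant and the errors, in powers of `y` -/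
structure NumC (y cL cB u Λ εR ε₃ εX r1 r2 B1 : ℝ) : Prop where
  Λ0 : 10000000000 * (1 + CG + 37 * s0 + 1) ≤ Λ
  Λ1 : Λ ≤ y ^ (-cL)
  R0 : 0 ≤ εR
  R1 : εR ≤ y ^ u
  l0 : 0 ≤ ε₃
  l1 : ε₃ ≤ y ^ u
  X1 : εX ≤ y ^ u
  r11 : r1 ≤ y ^ u
  r21 : r2 ≤ y ^ u
  B0 : 0 ≤ B1
  B1 : B1 ≤ y ^ (-cB)

section flow2

variable {P : Par} {b σ c c1 q2 qx : ℝ} {a y ε xs : ℕ → ℝ} {c' r q A : ℝ} {N : ℕ}

/-- **STAT AT THE PAIR `R` ALONG THE FLOW**: at every late level, for every pair of the window, the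
inputs `StV` and `RealR` of `loc_V` with total error `≤ y ^ (1 + c4) / 16` -/
theorem stat_flow (hb : 0 < b) (hA : P.Adm) (hσ0 : 0 ≤ σ) (hσ : σ ≤ 1 / 4)
    (h : SFlow P b σ c c1 q2 qx a y ε xs c' r q A N) {ck : ℝ} (hck : 0 < ck)
    (hck1 : ck ≤ P.thp) (hth : 2 * P.th ≤ ck) {cL cB u c4 : ℝ} (hcB : 0 ≤ cB)
    (h1 : 1 + c4 + 4 * P.thp < (2 - 3 * σ) * P.pf - 2 * cL) (h2 : 1 + c4 + 4 * P.thp < u)
    (h3 : 1 + c4 < (2 - 3 * σ) * P.pf - cB / 2) (i : ℕ) (hi : 6 ≤ i) :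
    ∀ᶠ n in atTop, ∀ k0 K1 : ℕ, k0 = n + kf ck y n →
      K1 = (n + P.w (ε n)) + kf ck y (n + P.w (ε n)) →
      Lvn i n k0 K1 (P.w (ε n)) b (a n) (17 * ε n ^ P.pf) (y n) ((2 - 3 * σ) * P.pf)
        (2 * P.thp) ∧
      ∀ (l0 : ℕ) (Λ εR ε₃ εX r1 r2 B1 : ℝ) (D0 D1 : Dec),
        DecC l0 D0 D1 → l0 ≤ 2 ^ lK n k0 → NumC (y n) cL cB u Λ εR ε₃ εX r1 r2 B1 →
        ∀ R, 2 ^ k0 ≤ R → R ≤ 2 ^ K1 →
        ReIn i n b (a n) D0 D1 k0 (Nat.clog 2 R) K1 εX ε₃ r1 r2 B1 →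
        (∀ k, k0 ≤ k → k < Nat.clog 2 R → ModK i n b Λ εR ε₃ D0 D1 k) →
        ∃ ε₂ E ε₄ : ℝ,
          StV i b (tn n) (a n) (dg n (2 * (17 * ε n ^ P.pf))) (fun k => 2 ^ lK n k)
            (fun _ => Λ) (fun _ => ε₂) (fun _ => ε₃) (37 * s0) (37 * s0) 1 E D0 D1
            (bC (sd i (2 ^ K1)) (2 ^ K1)) k0 R (gsF i n K1 (2 ^ k0)) (gsF i n K1 R) ∧
          RealR i b (tn n) (a n) (dg n (2 * (17 * ε n ^ P.pf))) D0 D1 k0 R
            (gsF i n K1 (2 ^ k0)) (gsF i n K1 R) ε₄ ∧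
          ((Nat.clog 2 R : ℝ) - k0) * E + ε₄ ≤ y n ^ (1 + c4) / 16 := by
  have hthp := P.thp0
  obtain ⟨Y1, p1, -, H1⟩ := stV_num (sη := (2 - 3 * σ) * P.pf) (p := 2 * P.thp) (cL := cL)
    (u := u) (c4 := c4) (by linarith) (by linarith) i
  obtain ⟨Y2, p2, -, H2⟩ := realR_num (sη := (2 - 3 * σ) * P.pf) (p := 2 * P.thp) (cB := cB)
    (u := u) (c4 := c4) hb.le h3 hcB (by linarith) i
  filter_upwards [lvn_flow hA hσ0 hσ h hck hck1 hth i hi,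
    h.fl.yt.eventually (gt_mem_nhds p1), h.fl.yt.eventually (gt_mem_nhds p2)] with n L g1 g2
  intro k0 K1 e0 e1
  subst e0 e1
  refine ⟨L, fun l0 Λ εR ε₃ εX r1 r2 B1 D0 D1 hD hl0 C R hRa hRb HR hS => ?_⟩
  obtain ⟨ε₂, E, a1, a2⟩ := H1 n _ _ _ l0 R b _ _ _ Λ εR ε₃ D0 D1 hb L g1.le hD hl0 C.Λ0 C.Λ1
    C.R0 C.R1 C.l0 C.l1 hRa hRb hS
  obtain ⟨ε₄, b1, b2⟩ := H2 n _ _ (Nat.clog 2 R) _ l0 R b _ _ _ εX ε₃ r1 r2 B1 D0 D1 hb le_rfl L
    g2.le hD hl0 ((Nat.clog_le_iff_le_pow (by norm_num)).2 hRb) HR C.X1 C.l1 C.r11 C.r21 C.B0 C.B1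
    hRa (Nat.le_pow_clog (by norm_num) R)
  exact ⟨ε₂, E, ε₄, a1, b1, by linarith⟩

end flow2

end

end Vale.Agent.P159.H770.Sti
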