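import Vale.Agent.P159.H770.Sti8
import Vale.Agent.P159.H340.Prf
import Vale.Agent.P159.H276.Mf5
import Vale.Agent.P159.H145.Spc4

/-!
P159 (helper770): **the field `st` of helper37's `pairLv_ev`, no input left**: `StP` along the flow for
helper773's class `DD` over helper276's class `ED`.
-/

set_option linter.unusedSectionVars false

namespace Vale.Agent.P159.H770.Sti

open Finset Filter Topology
open Vale.Agent.P159 Vale.Agent.P159.TM.H331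
open Vale.Agent.P159.TM.Spec (V)
open Vale.Agent.P159.H817
open Vale.Agent.P159.H972 (lg tn Par)
open Vale.Agent.P159.H773 (sd DD)
open Vale.Agent.P159.H276 (FlD)
open Vale.Agent.P159.H276.Mf (ED ED_neg)
open Vale.Agent.P159.H529.Pr (PrN)
open Vale.Agent.P159.H801 (SFlow itw Ev)
open Vale.Agent.P159.H37.Sf (kf kE1 Win)
open Vale.Agent.P159.H145.Sp (lC l0C StP scF)
open Vale.Agent.P159.H513 (LkS)

noncomputable section

/-- **the class of the decorations of the level `n`** (both cores) -/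
def DF (P : Par) (i : ℕ) (b ck c1 : ℝ) (y ε A' r1 : ℕ → ℝ) (n : ℕ) : Dec :=
  DD i b (tn n) (r1 n) (l0C n (kf ck y n)) (n + kf ck y n) (kE1 P ck y ε n)
    (ED n (kf ck y n) (scF c1 y n) (A' n))

section flow

variable {P : Par} {b σ cc c1 q2 qx : ℝ} {a y ε xs : ℕ → ℝ} {c' r q A : ℝ} {N : ℕ}

/-- helper276's class has the flow numbers -/
theorem edC_ED {ck M cs : ℝ} {A' : ℕ → ℝ}
    (hA : ∀ᶠ n in atTop, 0 ≤ A' n ∧ A' n ≤ M * 4 ^ (kf ck y n / 16) * y n ^ (-cs)) :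
    EdC ck M cs 6 y (fun n => l0C n (kf ck y n) + 2 ^ (n + 1) + 2)
      (fun n => 2 ^ (n - scF c1 y n)) A' fun n => ED n (kf ck y n) (scF c1 y n) (A' n) where
  hρ := Eventually.of_forall fun n => by
    have e : l0C n (kf ck y n) = 2 ^ (n + kf ck y n / 16 + 5) := by
      unfold H145.Sp.l0C H145.Sp.lC
      rw [pow_add _ (n + kf ck y n / 16) 5]
      ring
    show l0C n (kf ck y n) + 2 ^ (n + 1) + 2 ≤ 2 ^ (n + kf ck y n / 16 + 6)
    rw [e]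
    have h1 : 2 ^ (n + kf ck y n / 16 + 6) = 2 * 2 ^ (n + kf ck y n / 16 + 5) := by
      rw [pow_succ]
      ring
    have h2 : 2 ^ (n + 1) * 2 ^ 4 ≤ 2 ^ (n + kf ck y n / 16 + 5) := by
      rw [← pow_add]
      exact Nat.pow_le_pow_right (by norm_num) (by omega)
    have h3 : 2 ≤ 2 ^ (n + 1) := by
      calc 2 = 2 ^ 1 := rfl
        _ ≤ 2 ^ (n + 1) := Nat.pow_le_pow_right (by norm_num) (by omega)
    omega
  hrr := Eventually.of_forall fun n => Nat.pow_le_pow_right (by norm_num) (by omega)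
  hA := hA
  neg := Eventually.of_forall fun n F hF => ED_neg hF
  fl := Eventually.of_forall fun n F hF => hF

/-- the base data of the far pairs with core radius `2 ^ (n - scF)` -/
theorem prW_of (h : SFlow P b σ cc c1 q2 qx a y ε xs c' r q A N) {ck : ℝ} (hck : 0 < ck)
    (hc1 : 0 < c1) {i : ℕ} {β C2 A0 C : ℝ} {Am : ℕ} (hC : 1 ≤ C)
    (hPr : Win P b β C2 A0 Am i ck a y ε fun n R =>
      ∀ k : ℕ, n + kf ck y n ≤ k → k ≤ Nat.clog 2 R →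
      ∀ rc s : ℕ, 2 ^ (n - s) ≤ rc → 8 * rc ≤ 2 ^ k →
      (∀ p q : V (sd i (2 ^ k)), H817.Far (2 ^ k) p q → PrN (sd i (2 ^ k)) b (tn n) rc p q
        (C * (1 + Real.log (1 / y n)) ^ 2) (C * (1 + ((k - n : ℕ) : ℝ) + s))) ∧
      (∀ p q : V (sd i (2 ^ (k + 1))), H817.Far (2 ^ k) p q →
        PrN (sd i (2 ^ (k + 1))) b (tn n) rc p q
        (C * (1 + Real.log (1 / y n)) ^ 2) (C * (1 + ((k - n : ℕ) : ℝ) + s)))) :
    ∀ M, 2 * C ≤ M → PrW P b β C2 A0 Am i ck M c1 a y ε fun n => 2 ^ (n - scF c1 y n) := by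
  intro M hM
  unfold PrW Win at *
  filter_upwards [hPr, kf_big h hck 3, eventually_ge_atTop N] with n g1 g2 hn n0 j hnj R hR0 hR1
    hK k hk0 hk1
  have hy := h.fl.y0 n
  have hy1 := h.y1 n hn
  have h8 : 8 * 2 ^ (n - scF c1 y n) ≤ 2 ^ k := by
    have h1 : 2 ^ (n - scF c1 y n) * 2 ^ 3 ≤ 2 ^ k := by
      rw [← pow_add]
      exact Nat.pow_le_pow_right (by norm_num) (by omega)
    omega
  obtain ⟨e1, e2⟩ := g1 n0 j hnj R hR0 hR1 hK k hk0 hk1 _ _ le_rfl h8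
  refine ⟨_, _, ?_, ?_, e1, e2⟩
  · exact mul_le_mul_of_nonneg_right (by linarith) (sq_nonneg _)
  · have h4 : 0 ≤ y n ^ (-c1) := (Real.rpow_pos_of_pos hy _).le
    have h5 : (scF c1 y n : ℝ) ≤ y n ^ (-c1) + 1 := (Nat.ceil_lt_add_one h4).le
    have h6 : (0 : ℝ) ≤ ((k - n : ℕ) : ℝ) := Nat.cast_nonneg _
    have h7 : 1 + ((k - n : ℕ) : ℝ) + (scF c1 y n : ℝ) ≤
        2 * (1 + ((k - n : ℕ) : ℝ) + y n ^ (-c1)) := by linarith
    calc C * (1 + ((k - n : ℕ) : ℝ) + (scF c1 y n : ℝ))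
        ≤ C * (2 * (1 + ((k - n : ℕ) : ℝ) + y n ^ (-c1))) :=
          mul_le_mul_of_nonneg_left h7 (by linarith)
      _ = 2 * C * (1 + ((k - n : ℕ) : ℝ) + y n ^ (-c1)) := by ring
      _ ≤ M * (1 + ((k - n : ℕ) : ℝ) + y n ^ (-c1)) :=
          mul_le_mul_of_nonneg_right hM (by positivity)

end flow

/-- **THE FIELD `st`** (and `ModK` at every scale of the window) **ALONG THE FLOW**, in the order of
constants, no input left -/
theorem st_fin {b b1 b2 pf : ℝ} (hb1 : 0 < b1) (h1 : b1 ≤ b) (hpf : 9 / 10 ≤ pf)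
    (hA6 : TM.Spec.ThmA6 b1 b2 (5 / 2)) (Q : ℕ) (hh : 0 < helicity b)
    (hs : 1 / helicity b < 5 / 2) (hSi : ∀ i, 2 / Real.pi ≤ stiff (2 ^ i) b)
    (hL : LkS b (2 / Real.pi)) :
    Ev b1 b2 pf Q fun P c1 => 0 < c1 ∧ c1 ≤ P.th / 100 ∧
      ∀ {σ cc q2 qx : ℝ} {a y ε xs : ℕ → ℝ} {c' r q A : ℝ} {N : ℕ},
      SFlow P b σ cc c1 q2 qx a y ε xs c' r q A N → 0 ≤ σ → σ ≤ 1 / 6 → 0 ≤ cc → 40 * cc ≤ 1 →
      ∀ ck : ℝ, 4 * P.th ≤ ck → ck ≤ P.thp → ∀ c4 : ℝ, c4 ≤ 1 / 16 →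
      ∀ (β C2 A0 : ℝ) (Am : ℕ), 1 / 4 ≤ β → β < 1 / 2 → 1 ≤ C2 → 2 ≤ Am →
      ∀ (M : ℝ) (A' r1 : ℕ → ℝ),
      (∀ᶠ n in atTop, 0 ≤ A' n ∧ A' n ≤ M * 4 ^ (kf ck y n / 16) * y n ^ (-(4 * c1))) →
      (∀ᶠ n in atTop, r1 n ≤ y n ^ (9 / 8 : ℝ)) →
      ∃ i1 : ℕ, ∀ i, i1 ≤ i → Win P b β C2 A0 Am i ck a y ε fun n R =>
        (∀ k, n + kf ck y n ≤ k → k ≤ Nat.clog 2 R →
          ModK i n b (y n ^ (-c1)) (y n ^ (9 / 8 : ℝ)) (y n ^ (9 / 8 : ℝ))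
            (DF P i b ck c1 y ε A' r1 n) (DF P i b ck c1 y ε A' r1 n) k) ∧
        StP i b (tn n) (a n) n (n + kf ck y n) (kE1 P ck y ε n) R
          (DF P i b ck c1 y ε A' r1 n) (DF P i b ck c1 y ε A' r1 n) (y n ^ (1 + c4) / 16) := by
  refine ((stP_ev (b2 := b2) hb1 h1 hpf hA6 Q).and
    (H340.Prf.prN_win (b2 := b2) hb1 h1 (by linarith) Q hh hs hSi hL)).mono fun P c1 hP hH => ?_
  obtain ⟨⟨hc1, hc1t, hS⟩, hPr⟩ := hH
  refine ⟨hc1, hc1t, ?_⟩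
  intro σ cc q2 qx a y ε xs c' r q A N h hσ hσ1 hcc hcc1 ck hck hck1 c4 hc4 β C2 A0 Am hβ hβ2 hC2
    hAm M A' r1 hA' hr1
  have hth := P.th0
  obtain ⟨C, i0, hC, hPr⟩ := hPr h hσ hσ1 hcc (by linarith) ck (by linarith) (by linarith) hck1 β
    C2 A0 Am hβ hβ2 hC2 hAm
  refine ⟨max 6 i0, fun i hi => ?_⟩
  have hi6 : 6 ≤ i := (le_max_left _ _).trans hi
  have hA2 : ∀ᶠ n in atTop, 0 ≤ A' n ∧
      A' n ≤ max (2 * C) M * 4 ^ (kf ck y n / 16) * y n ^ (-(4 * c1)) := by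
    filter_upwards [hA'] with n hn
    refine ⟨hn.1, hn.2.trans ?_⟩
    have hy := h.fl.y0 n
    have h2 : 0 ≤ y n ^ (-(4 * c1)) := (Real.rpow_pos_of_pos hy _).le
    refine mul_le_mul_of_nonneg_right (mul_le_mul_of_nonneg_right (le_max_right _ _) ?_) h2
    positivity
  have hM0 : 0 ≤ max (2 * C) M := le_trans (by linarith) (le_max_left _ _)
  exact hS h hσ (by linarith) hcc hcc1 ck hck hck1 i hi6 6 (by norm_num) _ hM0 c4 hc4 β C2 A0 Am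
    _ _ A' r1 _ (edC_ED hA2) hr1
    (prW_of h (by linarith) hc1 hC (hPr i ((le_max_right _ _).trans hi)) _ (le_max_left _ _))

end

end Vale.Agent.P159.H770.Sti
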