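import Vale.Agent.P159.H770.Gram
import Vale.Agent.P159.H789.Pk
import Vale.Agent.P159.H789.Tor
import Vale.Agent.P159.H612.Local

/-!
P159, helper770, module DISL (2): families of weights indexed by an additive group `B` of
dislocations.

`DisF W` : `W : B → (V → ℤ) → ℝ` has all exponential moments, `W (-b) (-h) = W b h` and
`(h, b) ↦ W b h` is in the duplication class.  Then `(b, J) ↦ Z(b, J) = Zs (W b) J` is in the
duplication class of `B × (V → ℝ)`.  Consequences:

* `DisF.gin` : `(Z(b,J) Z(c,K))² ≤ Z(0,0)² Z(b+c,J+K) Z(b-c,J-K)`, `DisF.gin2`,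
* `DisF.le_zero` : `Z(b, 0) ≤ Z(0, 0)`,
* `DisF.psdk` : the full Gram structure on `B × (V → ℝ)`,
* `DisF.ppB`, `DisF.pp` : half dislocation kernel `Z(b, J + a + c) Z(0, a - c)` is PSD in `(a, c)`,
* `DisF.metH` : metric inequality of the half dislocation family,
* `DisF.metD` : metric inequality with `T^D`.
-/

open scoped ENNReal
open Finset

namespace Vale.Agent.P159.H770

open Vale.Agent.P159.TM.H821 (Dup)
open Vale.Agent.P159.TM.H104 (EM T Ex Cv K3 Lg li nh Gr)
open Vale.Agent.P159.H37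
open Vale.Agent.P159.H789 (disc kk PSDK)

/-- a family of weights indexed by an additive group of dislocations -/
structure DisF {B V : Type} [AddCommGroup B] [Fintype V] (W : B → (V → ℤ) → ℝ) : Prop where
  em : ∀ b, EM (W b)
  ev : ∀ b h, W (-b) (-h) = W b h
  dup : Dup fun q : (V → ℤ) × B => ENNReal.ofReal (W q.2 q.1)

section family

variable {B V : Type} [AddCommGroup B] [Fintype V] {W : B → (V → ℤ) → ℝ}

theorem DisF.pos (hW : DisF W) (b : B) (J : V → ℝ) : 0 < Zs (W b) J :=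
  TM.H104.T_one_pos (hW.em b) J

theorem DisF.ev0 (hW : DisF W) : Ev (W 0) := fun h => by
  have := hW.ev 0 h
  rwa [neg_zero] at this

/-- pull back along a homomorphism of the dislocations -/
theorem DisF.comp {B' : Type} [AddCommGroup B'] (hW : DisF W) (f : B' →+ B) :
    DisF fun b => W (f b) where
  em b := hW.em _
  ev b h := by rw [map_neg]; exact hW.ev _ _
  dup := by
    have := hW.dup.comp ((AddMonoidHom.fst (V → ℤ) B').prod
      (f.comp (AddMonoidHom.snd (V → ℤ) B')))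
    exact this

/-- global sign change -/
theorem DisF.neg (hW : DisF W) (b : B) (J : V → ℝ) : Zs (W (-b)) (-J) = Zs (W b) J := by
  unfold Zs TM.H104.T
  rw [← (Equiv.neg (V → ℤ)).tsum_eq]
  refine tsum_congr fun h => ?_
  simp only [Equiv.neg_apply]
  rw [hW.ev b h]
  congr 2
  simp [li]

theorem DisF.neg0 (hW : DisF W) (J : V → ℝ) : Zs (W 0) (-J) = Zs (W 0) J := by
  have := hW.neg 0 J
  rwa [neg_zero] at this

/-- the partition function is in the duplication class -/
theorem DisF.dupZ (hW : DisF W) :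
    Dup fun q : B × (V → ℝ) => ENNReal.ofReal (Zs (W q.1) q.2) := by
  -- the pair `(h, (b, J))`
  have h1 := hW.dup.comp ((AddMonoidHom.fst (V → ℤ) (B × (V → ℝ))).prod
    ((AddMonoidHom.fst B (V → ℝ)).comp (AddMonoidHom.snd (V → ℤ) (B × (V → ℝ)))))
  have h2 := (TM.H821.dup_tilt (V := V)).comp ((AddMonoidHom.fst (V → ℤ) (B × (V → ℝ))).prod
    ((AddMonoidHom.snd B (V → ℝ)).comp (AddMonoidHom.snd (V → ℤ) (B × (V → ℝ)))))
  have h3 := (h1.mul h2).marg (TM.H821.tf_pi V)
  have key : ∀ q : B × (V → ℝ), ∑' h : V → ℤ, ENNReal.ofReal (W q.1 h) *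
      ENNReal.ofReal (Real.exp (∑ x, q.2 x * h x)) = ENNReal.ofReal (Zs (W q.1) q.2) := by
    intro q
    unfold Zs TM.H104.T
    rw [ENNReal.ofReal_tsum_of_nonneg]
    · refine tsum_congr fun h => ?_
      rw [← ENNReal.ofReal_mul ((hW.em q.1).nn h), one_mul]
      rfl
    · exact fun h => mul_nonneg (mul_nonneg zero_le_one ((hW.em q.1).nn h)) (Real.exp_pos _).le
    · exact (hW.em q.1).summ (TM.H104.Gr.const 1) q.2
  have e : (fun q : B × (V → ℝ) => ENNReal.ofReal (Zs (W q.1) q.2)) =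
      fun q : B × (V → ℝ) => ∑' h : V → ℤ, ENNReal.ofReal (W q.1 h) *
        ENNReal.ofReal (Real.exp (∑ x, q.2 x * h x)) := by
    funext q
    exact (key q).symm
  rw [e]
  exact h3

/-- **Ginibre** -/
theorem DisF.gin (hW : DisF W) (b c : B) (J K : V → ℝ) :
    (Zs (W b) J * Zs (W c) K) ^ 2 ≤
      Zs (W 0) 0 ^ 2 * (Zs (W (b + c)) (J + K) * Zs (W (b - c)) (J - K)) := by
  have h := hW.dupZ.sq_le (b, J) (c, K)
  simp only [Prod.mk_add_mk, Prod.mk_sub_mk, Prod.fst_zero, Prod.snd_zero] at h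
  have p1 := hW.pos b J
  have p2 := hW.pos c K
  have p3 := hW.pos 0 0
  have p4 := hW.pos (b + c) (J + K)
  have p5 := hW.pos (b - c) (J - K)
  rw [← ENNReal.ofReal_mul p1.le, ← ENNReal.ofReal_mul p4.le, ← ENNReal.ofReal_pow (by positivity),
    ← ENNReal.ofReal_pow p3.le, ← ENNReal.ofReal_mul (by positivity)] at h
  exact (ENNReal.ofReal_le_ofReal_iff (by positivity)).1 h

/-- two replica inequality -/
theorem DisF.gin2 (hW : DisF W) (b c : B) (J K : V → ℝ) :
    2 * (Zs (W b) J * Zs (W c) K) ≤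
      Zs (W 0) 0 * (Zs (W (b + c)) (J + K) + Zs (W (b - c)) (J - K)) := by
  have h := hW.dupZ.two_mul_le (b, J) (c, K)
  simp only [Prod.mk_add_mk, Prod.mk_sub_mk, Prod.fst_zero, Prod.snd_zero] at h
  have p1 := hW.pos b J
  have p2 := hW.pos c K
  have p3 := hW.pos 0 0
  have p4 := hW.pos (b + c) (J + K)
  have p5 := hW.pos (b - c) (J - K)
  have e2 : (2 : ℝ≥0∞) = ENNReal.ofReal 2 := by simp
  have h' : ENNReal.ofReal (2 * (Zs (W b) J * Zs (W c) K)) ≤
      ENNReal.ofReal (Zs (W 0) 0 * (Zs (W (b + c)) (J + K) + Zs (W (b - c)) (J - K))) := by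
    rw [ENNReal.ofReal_mul zero_le_two, ENNReal.ofReal_mul p1.le, ENNReal.ofReal_mul p3.le,
      ENNReal.ofReal_add p4.le p5.le, ← e2]
    exact h
  exact (ENNReal.ofReal_le_ofReal_iff (by positivity)).1 h'

/-- `Z(b,J)^4 ≤ Z(0,0)^3 Z(2b,2J)` -/
theorem DisF.four (hW : DisF W) (b : B) (J : V → ℝ) :
    Zs (W b) J ^ 4 ≤ Zs (W 0) 0 ^ 3 * Zs (W (b + b)) (J + J) := by
  have h := hW.gin b b J J
  rw [sub_self, sub_self] at h
  nlinarith [h]

/-- the maximum over dislocations is at `0` -/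
theorem DisF.le_zero (hW : DisF W) {C : ℝ} (hC : ∀ b, Zs (W b) 0 ≤ C) (b : B) :
    Zs (W b) 0 ≤ Zs (W 0) 0 := by
  set z : B → ℝ := fun b => Zs (W b) 0 / Zs (W 0) 0 with hz
  have p0 := hW.pos 0 0
  have hz0 : ∀ b, 0 < z b := fun b => div_pos (hW.pos b 0) p0
  have hz4 : ∀ b, z b ^ 4 ≤ z (b + b) := by
    intro b
    have h := hW.four b 0
    rw [add_zero] at h
    rw [hz]
    simp only [div_pow]
    rw [div_le_div_iff₀ (by positivity) p0]
    nlinarith [h, p0, mul_le_mul_of_nonneg_right h p0.le]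
  have hC0 : 0 < C := (hW.pos 0 0).trans_le (hC 0)
  -- iterate
  have hit : ∀ (n : ℕ) (b : B), z b ^ (4 ^ n) ≤ C / Zs (W 0) 0 := by
    intro n
    induction n with
    | zero =>
      intro b
      rw [pow_zero, pow_one]
      exact div_le_div_of_nonneg_right (hC b) p0.le
    | succ n ih =>
      intro b
      rw [pow_succ' 4 n, pow_mul]
      exact (pow_le_pow_left₀ (pow_nonneg (hz0 b).le 4) (hz4 b) (4 ^ n)).trans (ih (b + b))
  by_contra hb
  rw [not_le] at hb
  have h1 : 1 < z b := (one_lt_div p0).2 hb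
  obtain ⟨m, hm⟩ := pow_unbounded_of_one_lt (C / Zs (W 0) 0) h1
  have h2 := hit m b
  have h3 : z b ^ m ≤ z b ^ (4 ^ m) := by
    refine pow_le_pow_right₀ h1.le ?_
    exact (Nat.lt_pow_self (by norm_num : 1 < 4)).le
  linarith

/-- the real valued partition function on `B × (V → ℝ)` -/
noncomputable def ZB (W : B → (V → ℤ) → ℝ) (q : B × (V → ℝ)) : ℝ := Zs (W q.1) q.2

theorem DisF.posB (hW : DisF W) (q : B × (V → ℝ)) : 0 < ZB W q := hW.pos _ _

theorem DisF.negB (hW : DisF W) (q : B × (V → ℝ)) : ZB W (-q) = ZB W q := hW.neg q.1 q.2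

theorem DisF.toReal (hW : DisF W) (q : B × (V → ℝ)) :
    (ENNReal.ofReal (Zs (W q.1) q.2)).toReal = ZB W q := ENNReal.toReal_ofReal (hW.posB q).le

/-- **full Gram structure** -/
theorem DisF.psdk (hW : DisF W) : PSDK (ZB W) := by
  have h4 := H789.psdk hW.dupZ fun _ => ENNReal.ofReal_ne_top
  simpa only [hW.toReal] using h4

/-- **half dislocation kernel** on the whole group -/
theorem DisF.ppB (hW : DisF W) (w : B × (V → ℝ)) : PP (fun q => ZB W (w + q)) (ZB W) := by
  have h := psd_shift hW.dupZ (fun _ => ENNReal.ofReal_ne_top) w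
  simp only [hW.toReal] at h
  exact h

/-- **half dislocation kernel**: `Z(b, J + a + c) Z(0, a - c)` is positive semidefinite -/
theorem DisF.pp (hW : DisF W) (b : B) (J : V → ℝ) : PP (fun a => Zs (W b) (J + a)) (Zs (W 0)) := by
  have h := (hW.ppB (b, J)).comp fun a : V → ℝ => ((0 : B), a)
  intro n p x
  have h1 := h n p x
  refine le_of_le_of_eq h1 ?_
  refine Finset.sum_congr rfl fun i _ => Finset.sum_congr rfl fun j _ => ?_
  simp [kp, ZB]

/-- **metric inequality, half dislocation family** -/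
theorem DisF.metH (hW : DisF W) (b : B) (J a c : V → ℝ) :
    (Zs (W b) (J + (a + c)) * Zs (W 0) (a - c) * (Zs (W b) J * Zs (W 0) 0) /
      (Zs (W b) (J + a) * Zs (W 0) a * (Zs (W b) (J + c) * Zs (W 0) c)) - 1) ^ 2 ≤
      (Zs (W b) (J + (a + a)) * Zs (W b) J * Zs (W 0) 0 ^ 2 /
        (Zs (W b) (J + a) * Zs (W 0) a) ^ 2 - 1) *
      (Zs (W b) (J + (c + c)) * Zs (W b) J * Zs (W 0) 0 ^ 2 /
        (Zs (W b) (J + c) * Zs (W 0) c) ^ 2 - 1) := by
  have h := met2 (hW.pp b J) hW.neg0 (fun a => hW.pos b _) (fun a => hW.pos 0 _) a c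
  simpa only [add_zero] using h

/-- **metric inequality with `T^D`**: the vectors `(b, J)` and `(c, K)` relative to the origin -/
theorem DisF.metD (hW : DisF W) (b c : B) (J K : V → ℝ) :
    (Zs (W (b + c)) (J + K) * Zs (W (b - c)) (J - K) * Zs (W 0) 0 ^ 2 /
      (Zs (W b) J ^ 2 * Zs (W c) K ^ 2) - 1) ^ 2 ≤
      (Zs (W (b + b)) (J + J) * Zs (W 0) 0 ^ 3 / Zs (W b) J ^ 4 - 1) *
      (Zs (W (c + c)) (K + K) * Zs (W 0) 0 ^ 3 / Zs (W c) K ^ 4 - 1) := by
  exact H789.met hW.psdk hW.negB hW.posB (b, J) (c, K)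

end family

end Vale.Agent.P159.H770
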