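import Vale.Agent.P159.H789.Psd

/-!
P159, helper770, module DISL (1): positive semidefinite kernels, Cauchy-Schwarz relative to an
arbitrary base vector, and the two-function duplication kernel `Y (a + c) * Z (a - c)`
(`Y` = dislocated partition function, `Z` = partition function without dislocation).

* `psd_shift` : `φ` of the duplication class, `x` fixed: `φ (x + (a + c)) * φ (a - c)` is PSD in
  `(a, c)`.
* `csB`, `csB2` : `(⟨u,v⟩⟨b,b⟩ - ⟨u,b⟩⟨b,v⟩)² ≤ (⟨u,u⟩⟨b,b⟩ - ⟨u,b⟩²)(⟨v,v⟩⟨b,b⟩ - ⟨b,v⟩²)`.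
* `met2` : metric inequality for the pair `(Y, Z)`.
-/

open scoped ENNReal
open Finset

namespace Vale.Agent.P159.H770

open Vale.Agent.P159.TM.H821 (Dup)
open Vale.Agent.P159.H789 (disc kk PSDK)

/-- positive semidefinite kernel -/
def PSDF {X : Type*} (K : X → X → ℝ) : Prop :=
  ∀ (n : ℕ) (p : Fin n → X) (x : Fin n → ℝ), 0 ≤ ∑ i, ∑ j, x i * x j * K (p i) (p j)

section general

variable {X Y : Type*}

theorem PSDF.comp {K : X → X → ℝ} (h : PSDF K) (f : Y → X) :
    PSDF fun a c => K (f a) (f c) := fun n p x => h n (fun i => f (p i)) x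

theorem PSDF.rank {K : X → X → ℝ} (h : PSDF K) (g : X → ℝ) :
    PSDF fun a c => g a * g c * K a c := by
  intro n p x
  have h1 := h n p fun i => x i * g (p i)
  refine le_of_le_of_eq h1 ?_
  exact Finset.sum_congr rfl fun i _ => Finset.sum_congr rfl fun j _ => by ring

theorem PSDF.add {K L : X → X → ℝ} (h : PSDF K) (h' : PSDF L) : PSDF fun a c => K a c + L a c := by
  intro n p x
  have h1 := add_nonneg (h n p x) (h' n p x)
  refine le_of_le_of_eq h1 ?_
  rw [← Finset.sum_add_distrib]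
  refine Finset.sum_congr rfl fun i _ => ?_
  rw [← Finset.sum_add_distrib]
  exact Finset.sum_congr rfl fun j _ => by ring

theorem PSDF.smul {K : X → X → ℝ} (h : PSDF K) {r : ℝ} (hr : 0 ≤ r) :
    PSDF fun a c => r * K a c := by
  intro n p x
  have h1 := mul_nonneg hr (h n p x)
  refine le_of_le_of_eq h1 ?_
  rw [Finset.mul_sum]
  refine Finset.sum_congr rfl fun i _ => ?_
  rw [Finset.mul_sum]
  exact Finset.sum_congr rfl fun j _ => by ring

theorem PSDF.nn {K : X → X → ℝ} (h : PSDF K) (a : X) : 0 ≤ K a a := by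
  have := h 1 (fun _ => a) fun _ => 1
  simpa using this

/-- pairing of two finite combinations -/
def pr {n m : ℕ} (K : X → X → ℝ) (p : Fin n → X) (x : Fin n → ℝ) (q : Fin m → X)
    (y : Fin m → ℝ) : ℝ := ∑ i, ∑ j, x i * y j * K (p i) (q j)

theorem pr_comm {n m : ℕ} {K : X → X → ℝ} (hs : ∀ a c, K a c = K c a) (p : Fin n → X)
    (x : Fin n → ℝ) (q : Fin m → X) (y : Fin m → ℝ) : pr K p x q y = pr K q y p x := by
  unfold pr
  rw [Finset.sum_comm]
  exact Finset.sum_congr rfl fun i _ => Finset.sum_congr rfl fun j _ => by rw [hs]; ring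

theorem pr_append {n m k : ℕ} (K : X → X → ℝ) (p : Fin n → X) (x : Fin n → ℝ)
    (q : Fin m → X) (y : Fin m → ℝ) (r : Fin k → X) (z : Fin k → ℝ) :
    pr K (Fin.append p q) (Fin.append x y) r z = pr K p x r z + pr K q y r z := by
  unfold pr
  rw [Fin.sum_univ_add]
  simp only [Fin.append_left, Fin.append_right]

theorem pr_append' {n m k : ℕ} (K : X → X → ℝ) (p : Fin n → X) (x : Fin n → ℝ)
    (q : Fin m → X) (y : Fin m → ℝ) (r : Fin k → X) (z : Fin k → ℝ) :
    pr K r z (Fin.append p q) (Fin.append x y) = pr K r z p x + pr K r z q y := by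
  unfold pr
  rw [← Finset.sum_add_distrib]
  refine Finset.sum_congr rfl fun i _ => ?_
  rw [Fin.sum_univ_add]
  simp only [Fin.append_left, Fin.append_right]

theorem pr_smul_left {n m : ℕ} (K : X → X → ℝ) (p : Fin n → X) (x : Fin n → ℝ) (q : Fin m → X)
    (y : Fin m → ℝ) (s : ℝ) : pr K p (fun i => s * x i) q y = s * pr K p x q y := by
  unfold pr
  rw [Finset.mul_sum]
  refine Finset.sum_congr rfl fun i _ => ?_
  rw [Finset.mul_sum]
  exact Finset.sum_congr rfl fun j _ => by ring

theorem pr_smul_right {n m : ℕ} (K : X → X → ℝ) (p : Fin n → X) (x : Fin n → ℝ)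
    (q : Fin m → X) (y : Fin m → ℝ) (s : ℝ) :
    pr K p x q (fun i => s * y i) = s * pr K p x q y := by
  unfold pr
  rw [Finset.mul_sum]
  refine Finset.sum_congr rfl fun i _ => ?_
  rw [Finset.mul_sum]
  exact Finset.sum_congr rfl fun j _ => by ring

/-- the quadratic form of three combinations -/
theorem pr_three {n m k : ℕ} {K : X → X → ℝ} (h : PSDF K) (hs : ∀ a c, K a c = K c a)
    (p : Fin n → X) (x : Fin n → ℝ) (q : Fin m → X) (y : Fin m → ℝ) (r : Fin k → X)
    (z : Fin k → ℝ) (α β γ : ℝ) :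
    0 ≤ α ^ 2 * pr K p x p x + β ^ 2 * pr K q y q y + γ ^ 2 * pr K r z r z
      + 2 * (α * β * pr K p x q y) + 2 * (α * γ * pr K p x r z) + 2 * (β * γ * pr K q y r z) := by
  have h1 : 0 ≤ pr K (Fin.append (Fin.append p q) r)
      (Fin.append (Fin.append (fun i => α * x i) fun i => β * y i) fun i => γ * z i)
      (Fin.append (Fin.append p q) r)
      (Fin.append (Fin.append (fun i => α * x i) fun i => β * y i) fun i => γ * z i) :=
    h _ _ _
  simp only [pr_append, pr_append', pr_smul_left, pr_smul_right] at h1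
  rw [pr_comm hs q y p x, pr_comm hs r z p x, pr_comm hs r z q y] at h1
  linarith

/-- **Cauchy-Schwarz with an arbitrary base vector**, finite combinations -/
theorem csB2 {n m k : ℕ} {K : X → X → ℝ} (h : PSDF K) (hs : ∀ a c, K a c = K c a)
    (p : Fin n → X) (x : Fin n → ℝ) (q : Fin m → X) (y : Fin m → ℝ) (r : Fin k → X)
    (z : Fin k → ℝ) (hb : 0 < pr K r z r z) :
    (pr K p x q y * pr K r z r z - pr K p x r z * pr K q y r z) ^ 2 ≤
      (pr K p x p x * pr K r z r z - pr K p x r z ^ 2) *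
        (pr K q y q y * pr K r z r z - pr K q y r z ^ 2) := by
  set B := pr K r z r z with hB
  set P := pr K p x p x
  set Q := pr K q y q y
  set L := pr K p x q y
  set u := pr K p x r z
  set v := pr K q y r z
  have hd : ∀ s t : ℝ, 0 ≤ s ^ 2 * (P * B - u ^ 2) + 2 * (s * t * (L * B - u * v)) +
      t ^ 2 * (Q * B - v ^ 2) := by
    intro s t
    have h1 := pr_three h hs p x q y r z s t (-(s * u + t * v) / B)
    have h2 : B * (s ^ 2 * P + t ^ 2 * Q + (-(s * u + t * v) / B) ^ 2 * B + 2 * (s * t * L) +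
        2 * (s * (-(s * u + t * v) / B) * u) + 2 * (t * (-(s * u + t * v) / B) * v)) =
        s ^ 2 * (P * B - u ^ 2) + 2 * (s * t * (L * B - u * v)) + t ^ 2 * (Q * B - v ^ 2) := by
      field_simp
      ring
    rw [← h2]
    exact mul_nonneg hb.le h1
  exact disc hd

/-- **Cauchy-Schwarz with an arbitrary base vector** -/
theorem csB {K : X → X → ℝ} (h : PSDF K) (hs : ∀ a c, K a c = K c a) (a c b : X)
    (hb : 0 < K b b) :
    (K a c * K b b - K a b * K c b) ^ 2 ≤
      (K a a * K b b - K a b ^ 2) * (K c c * K b b - K c b ^ 2) := by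
  have h1 := csB2 h hs (n := 1) (m := 1) (k := 1) (fun _ => a) (fun _ => 1) (fun _ => c)
    (fun _ => 1) (fun _ => b) (fun _ => 1)
  simp only [pr, Finset.univ_unique, Fin.default_eq_zero, Fin.isValue, Finset.sum_const,
    Finset.card_singleton, one_smul, one_mul] at h1
  exact h1 hb

/-- plain Cauchy-Schwarz -/
theorem cs {n m : ℕ} {K : X → X → ℝ} (h : PSDF K) (hs : ∀ a c, K a c = K c a)
    (p : Fin n → X) (x : Fin n → ℝ) (q : Fin m → X) (y : Fin m → ℝ) :
    pr K p x q y ^ 2 ≤ pr K p x p x * pr K q y q y := by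
  refine disc fun s t => ?_
  have h1 := pr_three h hs p x q y (k := 0) (fun i => i.elim0) (fun i => i.elim0) s t 0
  have h2 : ∀ (n : ℕ) (p : Fin n → X) (x : Fin n → ℝ),
      pr K p x (fun i : Fin 0 => (i.elim0 : X)) (fun i => i.elim0) = 0 := by
    intro n p x; simp [pr]
  simp only [h2, mul_zero, add_zero, ne_eq, OfNat.ofNat_ne_zero, not_false_eq_true,
    zero_pow] at h1
  linarith

end general

section dup

/-- the shifted duplication kernel is positive semidefinite -/
theorem psd_shift {A : Type} [AddCommGroup A] {φ : A → ℝ≥0∞} (h : Dup φ)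
    (hf : ∀ a, φ a ≠ ⊤) (w : A) :
    PSDF fun a c => (φ (w + (a + c))).toReal * (φ (a - c)).toReal := by
  obtain ⟨K, c, G, hG⟩ := h
  intro n p x
  have hne : ∀ a b : A, ∑' k, c k * (G k (a + b) * G k (a - b)) ≠ ⊤ := fun a b => by
    rw [← hG]
    exact ENNReal.mul_ne_top (hf a) (hf b)
  have hterm : ∀ (a b : A) (k : K), c k * (G k (a + b) * G k (a - b)) ≠ ⊤ := fun a b k =>
    ENNReal.ne_top_of_tsum_ne_top (hne a b) k
  have hS : ∀ a b : A, Summable fun k => (c k).toReal * ((G k (a + b)).toReal *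
      (G k (a - b)).toReal) := fun a b => by
    have := ENNReal.summable_toReal (hne a b)
    simpa only [ENNReal.toReal_mul] using this
  have hE : ∀ a b : A, (φ a).toReal * (φ b).toReal = ∑' k, (c k).toReal *
      ((G k (a + b)).toReal * (G k (a - b)).toReal) := fun a b => by
    rw [← ENNReal.toReal_mul, hG, ENNReal.tsum_toReal_eq (hterm a b)]
    simp only [ENNReal.toReal_mul]
  set g : Fin n → K → ℝ := fun i k => (G k (w + (p i + p i))).toReal with hg
  have hS' : ∀ i j, Summable fun k => (c k).toReal * (g i k * g j k) := fun i j => by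
    have := hS (w + (p i + p j)) (p i - p j)
    have e1 : w + (p i + p j) + (p i - p j) = w + (p i + p i) := by abel
    have e2 : w + (p i + p j) - (p i - p j) = w + (p j + p j) := by abel
    simpa only [e1, e2] using this
  have hE' : ∀ i j, (φ (w + (p i + p j))).toReal * (φ (p i - p j)).toReal =
      ∑' k, (c k).toReal * (g i k * g j k) := fun i j => by
    rw [hE]
    have e1 : w + (p i + p j) + (p i - p j) = w + (p i + p i) := by abel
    have e2 : w + (p i + p j) - (p i - p j) = w + (p j + p j) := by abel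
    simp only [e1, e2, hg]
  have hs : HasSum (fun k => ∑ i, ∑ j, x i * x j * ((c k).toReal * (g i k * g j k)))
      (∑ i, ∑ j, x i * x j * ((φ (w + (p i + p j))).toReal * (φ (p i - p j)).toReal)) := by
    refine hasSum_sum fun i _ => hasSum_sum fun j _ => ?_
    rw [hE']
    exact (hS' i j).hasSum.mul_left _
  refine hs.nonneg fun k => ?_
  have : ∑ i, ∑ j, x i * x j * ((c k).toReal * (g i k * g j k)) =
      (c k).toReal * (∑ i, x i * g i k) ^ 2 := by
    rw [sq, Finset.sum_mul_sum, Finset.mul_sum]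
    refine Finset.sum_congr rfl fun i _ => ?_
    rw [Finset.mul_sum]
    exact Finset.sum_congr rfl fun j _ => by ring
  rw [this]
  exact mul_nonneg ENNReal.toReal_nonneg (sq_nonneg _)

end dup

/-! ### the pair kernel -/

section pair

variable {A : Type*} [AddCommGroup A]

/-- the pair kernel -/
def kp (Y Z : A → ℝ) (a c : A) : ℝ := Y (a + c) * Z (a - c)

/-- the pair property: `Y (a + c) * Z (a - c)` is positive semidefinite -/
def PP (Y Z : A → ℝ) : Prop := PSDF (kp Y Z)

variable {Y Z : A → ℝ}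

theorem kp_symm (he : ∀ a, Z (-a) = Z a) (a c : A) : kp Y Z a c = kp Y Z c a := by
  unfold kp
  rw [add_comm a c, ← he (a - c), neg_sub]

theorem PP.of_psdk (h : PSDK Z) : PP Z Z := h

/-- translation of the first function -/
theorem PP.shift (h : PP Y Z) (b : A) : PP (fun a => Y (a + (b + b))) Z := by
  intro n p x
  have h1 := h n (fun i => p i + b) x
  refine le_of_le_of_eq h1 ?_
  refine Finset.sum_congr rfl fun i _ => Finset.sum_congr rfl fun j _ => ?_
  unfold kp
  rw [show p i + b + (p j + b) = p i + p j + (b + b) by abel,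
    show p i + b - (p j + b) = p i - p j by abel]

/-- **Metric inequality for a pair** `(Y, Z)`, `Z` even, no symmetry of `Y`, base vector `0` -/
theorem met2 (hK : PP Y Z) (he : ∀ a, Z (-a) = Z a) (hY : ∀ a, 0 < Y a) (hZ : ∀ a, 0 < Z a)
    (a c : A) :
    (Y (a + c) * Z (a - c) * (Y 0 * Z 0) / (Y a * Z a * (Y c * Z c)) - 1) ^ 2 ≤
      (Y (a + a) * Y 0 * Z 0 ^ 2 / (Y a * Z a) ^ 2 - 1) *
        (Y (c + c) * Y 0 * Z 0 ^ 2 / (Y c * Z c) ^ 2 - 1) := by
  have hYa := hY a
  have hYc := hY c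
  have hZa := hZ a
  have hZc := hZ c
  have hY0 := hY 0
  have hZ0 := hZ 0
  have e0 : kp Y Z 0 0 = Y 0 * Z 0 := by simp [kp]
  have h1 := csB hK (kp_symm he) a c 0 (by rw [e0]; positivity)
  have e1 : kp Y Z a 0 = Y a * Z a := by simp [kp]
  have e2 : kp Y Z c 0 = Y c * Z c := by simp [kp]
  have e3 : kp Y Z a a = Y (a + a) * Z 0 := by simp [kp]
  have e4 : kp Y Z c c = Y (c + c) * Z 0 := by simp [kp]
  have e5 : kp Y Z a c = Y (a + c) * Z (a - c) := rfl
  rw [e0, e1, e2, e3, e4, e5] at h1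
  have h2 : Y (a + c) * Z (a - c) * (Y 0 * Z 0) / (Y a * Z a * (Y c * Z c)) - 1 =
      (Y (a + c) * Z (a - c) * (Y 0 * Z 0) - Y a * Z a * (Y c * Z c)) /
        (Y a * Z a * (Y c * Z c)) := by
    field_simp
  have h3 : (Y (a + a) * Y 0 * Z 0 ^ 2 / (Y a * Z a) ^ 2 - 1) *
        (Y (c + c) * Y 0 * Z 0 ^ 2 / (Y c * Z c) ^ 2 - 1) =
      ((Y (a + a) * Z 0 * (Y 0 * Z 0) - (Y a * Z a) ^ 2) *
        (Y (c + c) * Z 0 * (Y 0 * Z 0) - (Y c * Z c) ^ 2)) / (Y a * Z a * (Y c * Z c)) ^ 2 := by
    field_simp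
  rw [h2, h3, div_pow]
  exact div_le_div_of_nonneg_right h1 (by positivity)

/-- the angle is well defined: `(Y a Z a)² ≤ Y (2a) Y 0 Z 0²` -/
theorem ang_nonneg (hK : PP Y Z) (he : ∀ a, Z (-a) = Z a) (hY : ∀ a, 0 < Y a)
    (hZ : ∀ a, 0 < Z a) (a : A) : 0 ≤ Y (a + a) * Y 0 * Z 0 ^ 2 / (Y a * Z a) ^ 2 - 1 := by
  have hYa := hY a
  have hZa := hZ a
  have h1 := cs hK (kp_symm he) (n := 1) (m := 1) (fun _ => a) (fun _ => 1) (fun _ => 0)
    (fun _ => 1)
  simp only [pr, Finset.univ_unique, Fin.default_eq_zero, Fin.isValue, Finset.sum_const,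
    Finset.card_singleton, one_smul, one_mul] at h1
  have e0 : kp Y Z 0 0 = Y 0 * Z 0 := by simp [kp]
  have e1 : kp Y Z a 0 = Y a * Z a := by simp [kp]
  have e3 : kp Y Z a a = Y (a + a) * Z 0 := by simp [kp]
  rw [e0, e1, e3] at h1
  rw [sub_nonneg, le_div_iff₀ (by positivity)]
  nlinarith

end pair

end Vale.Agent.P159.H770
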