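import Vale.Agent.P159.H770.DisL
import Vale.Agent.P159.H358.Loc8d

/-!
P159, helper770, module RING (1): the pinned Gram kernel.

`Dup2 φ ψ` : `φ x * ψ y = ∑ c (G (x + y) * G (x - y))`, two functions of one duplication class.
* `Dup.margL` : for `W` of the duplication class on `H × B` and a subgroup `L` of `H`, the pair
  `(∑ h, W (h, b), ∑ h ∈ L, W (h, b))` has `Dup2`,
* `psd_shift2` : `φ (w + (a + c)) * ψ (a - c)` is positive semidefinite,
* `DisF.ppP` : `Z(b + .., J + a + c) * Z_P(a - c)` is positive semidefinite, `Z_P` = sum over the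
  heights which vanish on `P`,
* `DisF.pin_le` : pinning lowers `Z(b, J) / Z(0, 0)`,
* `DisF.ring` : the ring inequality.
-/

open scoped ENNReal
open Finset

namespace Vale.Agent.P159.H770

open Vale.Agent.P159.TM.H821 (Dup)
open Vale.Agent.P159.TM.H104 (EM T Ex Cv K3 Lg li nh Gr)
open Vale.Agent.P159.H37
open Vale.Agent.P159.H789 (disc kk PSDK reHom)

section dup2

variable {A : Type} [AddCommGroup A]

/-- duplication property of a pair of functions -/
def Dup2 (φ ψ : A → ℝ≥0∞) : Prop :=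
  ∃ (K : Type) (c : K → ℝ≥0∞) (G : K → A → ℝ≥0∞),
    ∀ x y, φ x * ψ y = ∑' k, c k * (G k (x + y) * G k (x - y))

theorem Dup2.of_dup {φ : A → ℝ≥0∞} (h : Dup φ) : Dup2 φ φ := h

variable {φ ψ : A → ℝ≥0∞}

theorem Dup2.two_mul_le (h : Dup2 φ ψ) (x y : A) :
    2 * (φ x * ψ y) ≤ φ (x + y) * ψ 0 + φ (x - y) * ψ 0 := by
  obtain ⟨K, c, G, hG⟩ := h
  rw [hG, hG, hG, ← ENNReal.tsum_mul_left, ← ENNReal.tsum_add]
  refine ENNReal.tsum_le_tsum fun k => ?_
  simp only [add_zero, sub_zero]
  calc 2 * (c k * (G k (x + y) * G k (x - y))) = c k * (2 * (G k (x + y) * G k (x - y))) := by ring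
    _ ≤ c k * (G k (x + y) * G k (x + y) + G k (x - y) * G k (x - y)) := by
        gcongr; exact TM.H821.ennreal_two_mul_le _ _
    _ = _ := by ring

theorem Dup2.sq_le (h : Dup2 φ ψ) (x y : A) :
    (φ x * ψ y) ^ 2 ≤ (φ (x + y) * ψ 0) * (φ (x - y) * ψ 0) := by
  obtain ⟨K, c, G, hG⟩ := h
  rw [hG, hG, hG]
  simp only [add_zero, sub_zero]
  exact TM.H821.cs_tsum c (fun k => G k (x + y)) (fun k => G k (x - y))

/-- the shifted kernel of a pair is positive semidefinite -/
theorem psd_shift2 (h : Dup2 φ ψ) (hf : ∀ a, φ a ≠ ⊤) (hg : ∀ a, ψ a ≠ ⊤) (w : A) :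
    PSDF fun a c => (φ (w + (a + c))).toReal * (ψ (a - c)).toReal := by
  obtain ⟨K, c, G, hG⟩ := h
  intro n p x
  have hne : ∀ a b : A, ∑' k, c k * (G k (a + b) * G k (a - b)) ≠ ⊤ := fun a b => by
    rw [← hG]
    exact ENNReal.mul_ne_top (hf a) (hg b)
  have hterm : ∀ (a b : A) (k : K), c k * (G k (a + b) * G k (a - b)) ≠ ⊤ := fun a b k =>
    ENNReal.ne_top_of_tsum_ne_top (hne a b) k
  have hS : ∀ a b : A, Summable fun k => (c k).toReal * ((G k (a + b)).toReal *
      (G k (a - b)).toReal) := fun a b => by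
    have := ENNReal.summable_toReal (hne a b)
    simpa only [ENNReal.toReal_mul] using this
  have hE : ∀ a b : A, (φ a).toReal * (ψ b).toReal = ∑' k, (c k).toReal *
      ((G k (a + b)).toReal * (G k (a - b)).toReal) := fun a b => by
    rw [← ENNReal.toReal_mul, hG, ENNReal.tsum_toReal_eq (hterm a b)]
    simp only [ENNReal.toReal_mul]
  set g : Fin n → K → ℝ := fun i k => (G k (w + (p i + p i))).toReal with hg
  have hS' : ∀ i j, Summable fun k => (c k).toReal * (g i k * g j k) := fun i j => by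
    have := hS (w + (p i + p j)) (p i - p j)
    have e1 : w + (p i + p j) + (p i - p j) = w + (p i + p i) := by abel
    have e2 : w + (p i + p j) - (p i - p j) = w + (p j + p j) := by abel
    simpa only [e1, e2] using this
  have hE' : ∀ i j, (φ (w + (p i + p j))).toReal * (ψ (p i - p j)).toReal =
      ∑' k, (c k).toReal * (g i k * g j k) := fun i j => by
    rw [hE]
    have e1 : w + (p i + p j) + (p i - p j) = w + (p i + p i) := by abel
    have e2 : w + (p i + p j) - (p i - p j) = w + (p j + p j) := by abel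
    simp only [e1, e2, hg]
  have hs : HasSum (fun k => ∑ i, ∑ j, x i * x j * ((c k).toReal * (g i k * g j k)))
      (∑ i, ∑ j, x i * x j * ((φ (w + (p i + p j))).toReal * (ψ (p i - p j)).toReal)) := by
    refine hasSum_sum fun i _ => hasSum_sum fun j _ => ?_
    rw [hE']
    exact (hS' i j).hasSum.mul_left _
  refine hs.nonneg fun k => ?_
  have : ∑ i, ∑ j, x i * x j * ((c k).toReal * (g i k * g j k)) =
      (c k).toReal * (∑ i, x i * g i k) ^ 2 := by
    rw [pow_two, Finset.sum_mul_sum, Finset.mul_sum]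
    refine Finset.sum_congr rfl fun i _ => ?_
    rw [Finset.mul_sum]
    exact Finset.sum_congr rfl fun j _ => by ring
  rw [this]
  exact mul_nonneg ENNReal.toReal_nonneg (sq_nonneg _)

end dup2

section marg

variable {H B : Type} [AddCommGroup H] [AddCommGroup B]

/-- the doubles of a subgroup -/
def dblL (L : AddSubgroup H) : AddSubgroup H :=
  L.map ((AddMonoidHom.id H) + (AddMonoidHom.id H))

theorem mem_dblL {L : AddSubgroup H} {x : H} : x ∈ dblL L ↔ ∃ y ∈ L, y + y = x := by
  simp [dblL, AddSubgroup.mem_map]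

open Classical in
/-- rotation of a double sum whose second variable runs over a subgroup -/
theorem tsum_rotL (h2 : ∀ x : H, x + x = 0 → x = 0) (L : AddSubgroup H) (F : H → H → ℝ≥0∞) :
    ∑' h, ∑' h', (if h' ∈ L then F (h + h') (h - h') else 0)
      = ∑' s : H, ∑' d : H, if (s : H ⧸ dblL L) = (d : H ⧸ dblL L) then F s d else 0 := by
  have hinj : Function.Injective (fun p : H × H => (p.1 + p.2, p.1 - p.2)) := by
    intro p q hpq
    simp only [Prod.mk.injEq] at hpq
    obtain ⟨ha, hb⟩ := hpq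
    have h1 : (p.1 - q.1) + (p.1 - q.1) = 0 := by
      have : (p.1 - q.1) + (p.1 - q.1) = ((p.1 + p.2) - (q.1 + q.2)) +
          ((p.1 - p.2) - (q.1 - q.2)) := by
        abel
      rw [this, ha, hb]; simp
    have h3 := sub_eq_zero.1 (h2 _ h1)
    have h4 : p.2 = q.2 := by
      rw [h3] at ha
      exact add_left_cancel ha
    exact Prod.ext h3 h4
  have h0 : ∑' h, ∑' h', (if h' ∈ L then F (h + h') (h - h') else 0)
      = ∑' p : H × H, (fun q : H × H =>
          if (q.1 : H ⧸ dblL L) = (q.2 : H ⧸ dblL L) then F q.1 q.2 else 0)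
          (p.1 + p.2, p.1 - p.2) := by
    rw [ENNReal.tsum_prod']
    refine tsum_congr fun h => tsum_congr fun h' => ?_
    have : (((h + h' : H) : H ⧸ dblL L) = ((h - h' : H) : H ⧸ dblL L)) ↔ h' ∈ L := by
      rw [QuotientAddGroup.eq, mem_dblL]
      constructor
      · rintro ⟨y, hy, hy2⟩
        have h5 : (y + h') + (y + h') = 0 := by
          have : (y + h') + (y + h') = (y + y) + (h' + h') := by abel
          rw [this, hy2]
          abel
        have h6 := h2 _ h5
        have h7 : h' = -y := by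
          rw [← add_eq_zero_iff_eq_neg, add_comm]
          exact h6
        rw [h7]
        exact L.neg_mem hy
      · intro hh
        exact ⟨-h', L.neg_mem hh, by abel⟩
    simp only [this]
  rw [h0, hinj.tsum_eq (f := fun q : H × H => if (q.1 : H ⧸ dblL L) = (q.2 : H ⧸ dblL L)
    then F q.1 q.2 else 0), ENNReal.tsum_prod']
  intro q hq
  simp only [Function.mem_support, ne_eq, ite_eq_right_iff, Classical.not_imp] at hq
  have h1 := hq.1
  rw [QuotientAddGroup.eq, mem_dblL] at h1
  obtain ⟨y, -, hy⟩ := h1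
  refine ⟨(q.1 + y, -y), ?_⟩
  refine Prod.ext (by simp) ?_
  simp only
  have : q.2 = q.1 + (y + y) := by rw [hy]; abel
  rw [this]; abel

open Classical in
/-- **full sum and sum over a subgroup** -/
theorem Dup.margL (h2 : ∀ x : H, x + x = 0 → x = 0) (L : AddSubgroup H) {W : H × B → ℝ≥0∞}
    (hW : Dup W) :
    Dup2 (fun b : B => ∑' h : H, W (h, b)) fun b : B => ∑' h : H, if h ∈ L then W (h, b) else 0 := by
  obtain ⟨K, c, G, hG⟩ := hW
  refine ⟨K × (H ⧸ dblL L), fun p => c p.1,
    fun p b => ∑' s : H, if (s : H ⧸ dblL L) = p.2 then G p.1 (s, b) else 0, fun x y => ?_⟩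
  have e1 : (∑' h : H, W (h, x)) * (∑' h : H, if h ∈ L then W (h, y) else 0)
      = ∑' k, ∑' h, ∑' h', (if h' ∈ L then
          c k * (G k (h + h', x + y) * G k (h - h', x - y)) else 0) := by
    rw [← ENNReal.tsum_mul_right]
    have : ∀ h, W (h, x) * ∑' h', (if h' ∈ L then W (h', y) else 0)
        = ∑' k, ∑' h', (if h' ∈ L then
          c k * (G k (h + h', x + y) * G k (h - h', x - y)) else 0) := by
      intro h
      rw [← ENNReal.tsum_mul_left, ENNReal.tsum_comm]
      refine tsum_congr fun h' => ?_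
      split_ifs with hh
      · rw [hG]
        rfl
      · rw [mul_zero, tsum_zero]
    rw [tsum_congr this, ENNReal.tsum_comm]
  rw [e1, ENNReal.tsum_prod']
  refine tsum_congr fun k => ?_
  rw [tsum_rotL h2 L (fun s d => c k * (G k (s, x + y) * G k (d, x - y)))]
  have e2 : ∀ q : H ⧸ dblL L, c k * ((∑' s : H, if (s : H ⧸ dblL L) = q then
        G k (s, x + y) else 0) * ∑' d : H, if (d : H ⧸ dblL L) = q then G k (d, x - y) else 0)
      = ∑' s : H, ∑' d : H, c k * ((if (s : H ⧸ dblL L) = q then G k (s, x + y) else 0)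
        * (if (d : H ⧸ dblL L) = q then G k (d, x - y) else 0)) := by
    intro q
    rw [← ENNReal.tsum_mul_right, ← ENNReal.tsum_mul_left]
    refine tsum_congr fun s => ?_
    rw [← ENNReal.tsum_mul_left, ← ENNReal.tsum_mul_left]
  refine Eq.trans ?_ (tsum_congr e2).symm
  symm
  rw [ENNReal.tsum_comm]
  refine tsum_congr fun s => ?_
  rw [ENNReal.tsum_comm]
  refine tsum_congr fun d => ?_
  rw [tsum_eq_single (s : H ⧸ dblL L)]
  · by_cases h : (s : H ⧸ dblL L) = (d : H ⧸ dblL L)
    · simp [h]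
    · have h' : ¬ ((d : H ⧸ dblL L) = (s : H ⧸ dblL L)) := fun e => h e.symm
      simp [h, h']
  · intro q hq
    have : ¬ ((s : H ⧸ dblL L) = q) := fun e => hq e.symm
    simp [this]

end marg

/-! ### real letters -/

section family

variable {B V : Type} [AddCommGroup B] [Fintype V] {W : B → (V → ℤ) → ℝ}

/-- the heights which vanish on `P` -/
def LP (P : Finset V) : AddSubgroup (V → ℤ) where
  carrier := {h | ∀ x ∈ P, h x = 0}
  zero_mem' := fun x _ => rfl
  add_mem' := fun {h k} hh hk x hx => by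
    simp only [Pi.add_apply]
    rw [hh x hx, hk x hx, add_zero]
  neg_mem' := fun {h} hh x hx => by
    simp only [Pi.neg_apply]
    rw [hh x hx, neg_zero]

omit [Fintype V] in
theorem mem_LP {P : Finset V} {h : V → ℤ} : h ∈ LP P ↔ ∀ x ∈ P, h x = 0 := Iff.rfl

theorem pin_nonneg {μ : (V → ℤ) → ℝ} (hμ : ∀ h, 0 ≤ μ h) (P : Finset V) (h : V → ℤ) :
    0 ≤ H358.pin P μ h := by
  unfold H358.pin
  split_ifs
  · exact hμ h
  · exact le_rfl

theorem pin_le_self {μ : (V → ℤ) → ℝ} (hμ : ∀ h, 0 ≤ μ h) (P : Finset V) (h : V → ℤ) :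
    H358.pin P μ h ≤ μ h := by
  unfold H358.pin
  split_ifs
  · exact le_rfl
  · exact hμ h

/-- pinned weights have all exponential moments -/
theorem em_pin {μ : (V → ℤ) → ℝ} (hμ : EM μ) (h0 : 0 < μ 0) (P : Finset V) :
    EM (H358.pin P μ) where
  nn h := pin_nonneg hμ.nn P h
  pos := ⟨0, by
    unfold H358.pin
    have h1 : ∀ x ∈ P, (0 : V → ℤ) x = 0 := fun x _ => rfl
    rw [if_pos h1]
    exact h0⟩
  sum C := Summable.of_nonneg_of_le
    (fun h => mul_nonneg (pin_nonneg hμ.nn P h) (Real.exp_pos _).le)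
    (fun h => mul_le_mul_of_nonneg_right (pin_le_self hμ.nn P h) (Real.exp_pos _).le) (hμ.sum C)

/-- the pinned family -/
theorem DisF.pin (hW : DisF W) (h0 : ∀ b, 0 < W b 0) (P : Finset V) :
    DisF fun b => H358.pin P (W b) where
  em b := em_pin (hW.em b) (h0 b) P
  ev b h := by
    unfold H358.pin
    by_cases hh : ∀ x ∈ P, h x = 0
    · rw [if_pos hh, if_pos (by intro x hx; simp [hh x hx]), hW.ev]
    · rw [if_neg hh, if_neg]
      intro h1
      refine hh fun x hx => ?_
      have := h1 x hx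
      simpa using this
  dup := by
    classical
    have h1 : Dup fun q : (V → ℤ) × B => if q.1 ∈ LP P then (1 : ℝ≥0∞) else 0 := by
      refine Dup.of_mul (H := fun q : (V → ℤ) × B => if q.1 ∈ LP P then (1 : ℝ≥0∞) else 0) ?_
      rintro ⟨x, a⟩ ⟨y, b⟩
      simp only [Prod.mk_add_mk, Prod.mk_sub_mk]
      by_cases hx : x ∈ LP P
      · by_cases hy : y ∈ LP P
        · rw [if_pos hx, if_pos hy, if_pos ((LP P).add_mem hx hy), if_pos ((LP P).sub_mem hx hy)]
        · rw [if_neg hy, mul_zero, if_neg, zero_mul]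
          intro h
          exact hy ((AddSubgroup.add_mem_cancel_left _ hx).1 h)
      · rw [if_neg hx, zero_mul]
        symm
        by_cases h3 : x + y ∈ LP P
        · have h7 : x - y ∉ LP P := by
            intro h4
            refine hx fun v hv => ?_
            have h5 := h3 v hv
            have h6 := h4 v hv
            simp only [Pi.add_apply, Pi.sub_apply] at h5 h6
            omega
          rw [if_neg h7, mul_zero]
        · rw [if_neg h3, zero_mul]
    have h2 := hW.dup.mul h1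
    have e : (fun q : (V → ℤ) × B => ENNReal.ofReal (H358.pin P (W q.2) q.1)) =
        fun q => ENNReal.ofReal (W q.2 q.1) * (if q.1 ∈ LP P then 1 else 0) := by
      funext q
      unfold H358.pin
      by_cases hh : ∀ x ∈ P, q.1 x = 0
      · rw [if_pos hh, if_pos (mem_LP.2 hh), mul_one]
      · rw [if_neg hh, if_neg (fun h => hh (mem_LP.1 h)), mul_zero, ENNReal.ofReal_zero]
    rw [e]
    exact h2

/-- partition functions of the pair (free, pinned) -/
theorem DisF.dup2P (hW : DisF W) (P : Finset V) :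
    Dup2 (fun q : B × (V → ℝ) => ENNReal.ofReal (Zs (W q.1) q.2))
      fun q : B × (V → ℝ) => ENNReal.ofReal (Zs (H358.pin P (W q.1)) q.2) := by
  classical
  have h1 := hW.dup.comp ((AddMonoidHom.fst (V → ℤ) (B × (V → ℝ))).prod
    ((AddMonoidHom.fst B (V → ℝ)).comp (AddMonoidHom.snd (V → ℤ) (B × (V → ℝ)))))
  have h2 := (TM.H821.dup_tilt (V := V)).comp ((AddMonoidHom.fst (V → ℤ) (B × (V → ℝ))).prod
    ((AddMonoidHom.snd B (V → ℝ)).comp (AddMonoidHom.snd (V → ℤ) (B × (V → ℝ)))))
  have h3 := Dup.margL (TM.H821.tf_pi V) (LP P) (h1.mul h2)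
  have key : ∀ q : B × (V → ℝ), ∑' h : V → ℤ, ENNReal.ofReal (W q.1 h) *
      ENNReal.ofReal (Real.exp (∑ x, q.2 x * h x)) = ENNReal.ofReal (Zs (W q.1) q.2) := by
    intro q
    unfold Zs TM.H104.T
    rw [ENNReal.ofReal_tsum_of_nonneg]
    · refine tsum_congr fun h => ?_
      rw [← ENNReal.ofReal_mul ((hW.em q.1).nn h), one_mul]
      rfl
    · exact fun h => mul_nonneg (mul_nonneg zero_le_one ((hW.em q.1).nn h)) (Real.exp_pos _).le
    · exact (hW.em q.1).summ (TM.H104.Gr.const 1) q.2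
  have keyP : ∀ q : B × (V → ℝ), ∑' h : V → ℤ, (if h ∈ LP P then ENNReal.ofReal (W q.1 h) *
      ENNReal.ofReal (Real.exp (∑ x, q.2 x * h x)) else 0) =
        ENNReal.ofReal (Zs (H358.pin P (W q.1)) q.2) := by
    intro q
    unfold Zs TM.H104.T
    rw [ENNReal.ofReal_tsum_of_nonneg]
    · refine tsum_congr fun h => ?_
      unfold H358.pin
      by_cases hh : ∀ x ∈ P, h x = 0
      · rw [if_pos (mem_LP.2 hh), if_pos hh, ← ENNReal.ofReal_mul ((hW.em q.1).nn h), one_mul]
        rfl
      · rw [if_neg (fun h => hh (mem_LP.1 h)), if_neg hh]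
        simp
    · exact fun h => mul_nonneg (mul_nonneg zero_le_one (pin_nonneg (hW.em q.1).nn P h))
        (Real.exp_pos _).le
    · refine Summable.of_nonneg_of_le
        (fun h => mul_nonneg (mul_nonneg zero_le_one (pin_nonneg (hW.em q.1).nn P h))
          (Real.exp_pos _).le) (fun h => ?_) ((hW.em q.1).summ (TM.H104.Gr.const 1) q.2)
      refine mul_le_mul_of_nonneg_right ?_ (Real.exp_pos _).le
      exact mul_le_mul_of_nonneg_left (pin_le_self (hW.em q.1).nn P h) zero_le_one
  have e : (fun q : B × (V → ℝ) => ENNReal.ofReal (Zs (W q.1) q.2)) =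
      fun q : B × (V → ℝ) => ∑' h : V → ℤ, ENNReal.ofReal (W q.1 h) *
        ENNReal.ofReal (Real.exp (∑ x, q.2 x * h x)) := by
    funext q
    exact (key q).symm
  have eP : (fun q : B × (V → ℝ) => ENNReal.ofReal (Zs (H358.pin P (W q.1)) q.2)) =
      fun q : B × (V → ℝ) => ∑' h : V → ℤ, (if h ∈ LP P then ENNReal.ofReal (W q.1 h) *
        ENNReal.ofReal (Real.exp (∑ x, q.2 x * h x)) else 0) := by
    funext q
    exact (keyP q).symm
  rw [e, eP]
  exact h3

/-- **pinned Gram kernel** -/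
theorem DisF.ppP (hW : DisF W) (P : Finset V) (w : B × (V → ℝ)) :
    PP (fun q => ZB W (w + q)) (ZB fun b => H358.pin P (W b)) := by
  have h := psd_shift2 (hW.dup2P P) (fun _ => ENNReal.ofReal_ne_top)
    (fun _ => ENNReal.ofReal_ne_top) w
  have e1 : ∀ q : B × (V → ℝ), (ENNReal.ofReal (Zs (W q.1) q.2)).toReal = ZB W q := hW.toReal
  have e2 : ∀ q : B × (V → ℝ), (ENNReal.ofReal (Zs (H358.pin P (W q.1)) q.2)).toReal =
      ZB (fun b => H358.pin P (W b)) q := fun q => by
    refine ENNReal.toReal_ofReal (tsum_nonneg fun h => ?_)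
    exact mul_nonneg (mul_nonneg zero_le_one (pin_nonneg (hW.em q.1).nn P h)) (Real.exp_pos _).le
  simp only [e1, e2] at h
  exact h

/-- **pinning lowers the dislocated partition function** -/
theorem DisF.pin_le (hW : DisF W) (h0 : ∀ b, 0 < W b 0) (P : Finset V) (b : B) (J : V → ℝ) :
    Zs (H358.pin P (W b)) J * Zs (W 0) 0 ≤ Zs (W b) J * Zs (H358.pin P (W 0)) 0 := by
  have h := (hW.dup2P P).two_mul_le 0 (b, J)
  have hP := hW.pin h0 P
  have p1 := hW.pos 0 0
  have p2 := hP.pos b J
  have p3 := hW.pos b J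
  have p4 := hP.pos 0 0
  have e3 : Zs (W (-b)) (-J) = Zs (W b) J := hW.neg b J
  simp only [zero_add, zero_sub, Prod.fst_zero, Prod.snd_zero, Prod.fst_neg, Prod.snd_neg] at h
  rw [e3, ← ENNReal.ofReal_mul p1.le, ← ENNReal.ofReal_mul p3.le,
    ← ENNReal.ofReal_add (by positivity) (by positivity),
    show (2 : ℝ≥0∞) = ENNReal.ofReal 2 by simp, ← ENNReal.ofReal_mul zero_le_two] at h
  have h5 := (ENNReal.ofReal_le_ofReal_iff (by positivity)).1 h
  linarith

/-- **the ring inequality**, finite sources: `X = (b, J)` arbitrary, `a` a real source -/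
theorem DisF.ring (hW : DisF W) (h0 : ∀ b, 0 < W b 0) (P : Finset V) (b : B) (J a : V → ℝ) :
    ((Zs (W b) (J + a) + Zs (W b) (J - a)) * Zs (H358.pin P (W b)) J -
      Zs (W b) J * (Zs (H358.pin P (W b)) (J + a) + Zs (H358.pin P (W b)) (J - a))) ^ 2 ≤
    ((Zs (W (b + b)) (J + J + a) + Zs (W (b + b)) (J + J - a)) * Zs (H358.pin P (W 0)) 0 -
      2 * (Zs (W (b + b)) (J + J) * Zs (H358.pin P (W 0)) a)) *
    (2 * (Zs (W 0) a * Zs (H358.pin P (W 0)) 0) - 2 * (Zs (W 0) 0 * Zs (H358.pin P (W 0)) a)) := by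
  have hP := hW.pin h0 P
  have h := hW.ppP P 0
  have hs : ∀ a c : B × (V → ℝ), kp (fun q => ZB W (0 + q)) (ZB fun b => H358.pin P (W b)) a c =
      kp (fun q => ZB W (0 + q)) (ZB fun b => H358.pin P (W b)) c a :=
    kp_symm hP.negB
  set u : V → ℝ := (1 / 2 : ℝ) • a with hu
  have hua : u + u = a := by rw [hu]; module
  have key := cs h hs (n := 2) (m := 2) ![(b, J + u), (b, J - u)] ![1, -1]
    ![((0 : B), u), ((0 : B), -u)] ![1, -1]
  simp only [pr, kp, ZB, Fin.sum_univ_two, Matrix.cons_val_zero, Matrix.cons_val_one,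
    zero_add, Prod.mk_add_mk, Prod.mk_sub_mk, sub_self, add_zero, sub_zero,
    mul_one, one_mul, mul_neg, neg_mul, neg_neg, Prod.fst_zero, Prod.snd_zero] at key
  have e1 : J + u + u = J + a := by rw [add_assoc, hua]
  have e2 : J + u - u = J := by abel
  have e3 : J + u + -u = J := by abel
  have e4 : J + u - -u = J + a := by rw [sub_neg_eq_add, e1]
  have e5 : J - u + u = J := by abel
  have e6 : J - u - u = J - a := by rw [sub_sub, hua]
  have e7 : J - u + -u = J - a := by rw [← sub_eq_add_neg, e6]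
  have e8 : J - u - -u = J := by rw [sub_neg_eq_add, e5]
  have f1 : J + u + (J + u) = J + J + a := by rw [← hua]; abel
  have f2 : J + u + (J - u) = J + J := by abel
  have f3 : J - u + (J + u) = J + J := by abel
  have f4 : J - u + (J - u) = J + J - a := by rw [← hua]; abel
  have f5 : J + u - (J - u) = a := by rw [← hua]; abel
  have f6 : J - u - (J + u) = -a := by rw [← hua]; abel
  have g1 : u + -u = 0 := by abel
  have g2 : u - -u = a := by rw [sub_neg_eq_add, hua]
  have g3 : -u + u = 0 := by abel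
  have g4 : -u - u = -a := by rw [← hua]; abel
  have g5 : -u + -u = -a := by rw [← hua]; abel
  have n1 : Zs (H358.pin P (W 0)) (-a) = Zs (H358.pin P (W 0)) a := hP.neg0 a
  have n2 : Zs (W 0) (-a) = Zs (W 0) a := hW.neg0 a
  rw [e1, e2, e3, e4, e5, e6, e7, e8, f1, f2, f3, f4, f5, f6, hua, g1, g2, g3, g4, g5, n1, n2]
    at key
  refine le_trans (le_of_eq ?_) (key.trans (le_of_eq ?_))
  · ring
  · ring

end family

end Vale.Agent.P159.H770
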