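import Vale.Agent.P159.H770.VlCh
import Vale.Agent.P159.H972.Good

/-!
P159 (helper770): numbers of the chain of doublings of STATG-IDEAL (helper817) at one level `n`, with
the locality length `2 ^ lK n k` at the scale `2 ^ k` (`N / l` stays a small power, `l / ξ` grows).
-/

set_option linter.unusedSectionVars false

namespace Vale.Agent.P159.H770.Sti

open Finset
open Vale.Agent.P159.TM.Spec (V)
open Vale.Agent.P159.H817
open Vale.Agent.P159.H972 (lg tn)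

noncomputable section

/-! ### the lengths -/

/-- exponent of the locality length of the pairs at distance `2 ^ k`: `l = ξ (2 ^ k / ξ) ^ (3 / 4)` -/
def lK (n k : ℕ) : ℕ := n + 3 * (k - n) / 4

lemma lK_mono {n k k' : ℕ} (h : k ≤ k') : lK n k ≤ lK n k' := by unfold lK; omega

lemma lK_succ (n k : ℕ) : lK n (k + 1) ≤ lK n k + 1 := by unfold lK; omega

lemma lK_add {n k : ℕ} (h : n ≤ k) : lK n k + ((k - n) - 3 * (k - n) / 4) = k := by
  unfold lK; omega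

lemma lK_n (n k : ℕ) : n ≤ lK n k := by unfold lK; omega

/-- `r / l` at the scale `k` -/
lemma lK_ratio {n k : ℕ} (h : n ≤ k) :
    2 ^ (lK n k) * 2 ^ ((k - n) - 3 * (k - n) / 4) = 2 ^ k := by
  rw [← pow_add, lK_add h]

lemma lK_lr {n k c : ℕ} (h : n + 4 * c ≤ k) : 2 ^ c * 2 ^ lK n k ≤ 2 ^ k := by
  rw [← lK_ratio (by omega : n ≤ k), mul_comm]
  exact Nat.mul_le_mul_left _ (Nat.pow_le_pow_right (by norm_num) (by omega))

/-- `N / l` at the scale `k`, on the next torus -/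
lemma ratio_eq (i : ℕ) {n k : ℕ} (h : n ≤ k) :
    ((2 ^ (i + (k + 1)) : ℕ) : ℝ) / ((2 ^ lK n k : ℕ) : ℝ) =
      2 ^ (i + 1) * 2 ^ ((k - n) - 3 * (k - n) / 4) := by
  have h0 : (0 : ℝ) < 2 ^ lK n k := by positivity
  push_cast
  rw [div_eq_iff h0.ne', ← pow_add, ← pow_add]
  congr 1
  have := lK_add h
  omega

/-! ### the degree of the Chebyshev form -/

/-- the degree `2 ^ n * D`, `D ~ 4 log (4 / η)` -/
def dg (n : ℕ) (η : ℝ) : ℕ := 2 ^ n * (⌈4 * Real.log (4 / η)⌉₊ + 1)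

lemma dg_pos (n : ℕ) (η : ℝ) : 1 ≤ dg n η :=
  Nat.one_le_iff_ne_zero.2 (by unfold dg; positivity)

lemma dg_Db {n : ℕ} {a η : ℝ} (ha : 1 ≤ a) (ha2 : a ≤ 2) (hη : 0 < η) (hη1 : η ≤ 1) :
    1 / η ≤ Db (dg n η) (tn n / a) := by
  have ht : 0 < tn n := by unfold tn; positivity
  have ht1 : tn n ≤ 1 := by
    unfold tn
    exact inv_le_one_of_one_le₀ (one_le_pow₀ (by norm_num))
  have ha0 : 0 < a := by linarith
  have hm : 0 < tn n / a := by positivity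
  have hm8 : tn n / a ≤ 8 := by
    rw [div_le_iff₀ ha0]
    linarith
  have h1 := Db_ge (dg n η) hm hm8
  have h2 : (1 / 4) * (1 / 2 ^ n : ℝ) ≤ √(tn n / a / 8) := by
    apply Real.le_sqrt_of_sq_le
    have e1 : ((1 / 4) * (1 / 2 ^ n : ℝ)) ^ 2 = tn n / 16 := by
      unfold tn
      rw [mul_pow, div_pow, div_pow, ← pow_mul, mul_comm n 2, pow_mul]
      norm_num
      ring
    rw [e1, div_div]
    exact div_le_div_of_nonneg_left ht.le (by positivity) (by linarith)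
  have h3 : Real.log (4 / η) ≤ dg n η * √(tn n / a / 8) := by
    have h4 : (dg n η : ℝ) * ((1 / 4) * (1 / 2 ^ n : ℝ)) ≤ dg n η * √(tn n / a / 8) :=
      mul_le_mul_of_nonneg_left h2 (Nat.cast_nonneg _)
    have h5 : (dg n η : ℝ) * ((1 / 4) * (1 / 2 ^ n : ℝ)) =
        ((⌈4 * Real.log (4 / η)⌉₊ : ℝ) + 1) / 4 := by
      unfold dg
      push_cast
      have : (2 : ℝ) ^ n ≠ 0 := by positivity
      field_simp
    have h6 := Nat.le_ceil (4 * Real.log (4 / η))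
    rw [h5] at h4
    linarith
  have h7 : 4 / η ≤ Real.exp (dg n η * √(tn n / a / 8)) := by
    rw [← Real.exp_log (show 0 < 4 / η by positivity)]
    exact Real.exp_le_exp.2 h3
  have h8 : 1 ≤ 1 / η := by rw [le_div_iff₀ hη]; linarith
  have h9 : 4 / η = 4 * (1 / η) := by ring
  linarith

/-- the flat error -/
lemma kap0_le {n : ℕ} {a η : ℝ} (ha : 1 ≤ a) (ha2 : a ≤ 2) (hη : 0 < η) (hη1 : η ≤ 1) :
    kap0 a (tn n) η (dg n η) ≤ 6 * η := by
  have h1 := dg_Db (n := n) ha ha2 hη hη1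
  have h2 : 0 < 1 / η := by positivity
  have h3 : 2 * a / Db (dg n η) (tn n / a) ≤ 4 * η := by
    rw [div_le_iff₀ (h2.trans_le h1)]
    have h4 := mul_le_mul_of_nonneg_left h1 (show 0 ≤ 4 * η by positivity)
    have h5 : 4 * η * (1 / η) = 4 := by field_simp
    linarith
  have h4 : 1 / a ≤ 1 := by rw [div_le_one (by linarith)]; exact ha
  unfold kap0
  nlinarith

lemma dg_l {n k : ℕ} {η : ℝ}
    (hD : ⌈4 * Real.log (4 / η)⌉₊ + 4 ≤ 2 ^ (3 * (k - n) / 4)) :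
    dg n η + 3 ≤ 2 ^ lK n k := by
  have h1 : 1 ≤ 2 ^ n := Nat.one_le_two_pow
  unfold dg lK
  rw [pow_add]
  nlinarith [Nat.mul_le_mul_left (2 ^ n) hD]

lemma dg_N {i n k : ℕ} {η : ℝ} (h : n + 24 ≤ k)
    (hD : ⌈4 * Real.log (4 / η)⌉₊ + 4 ≤ 2 ^ (3 * (k - n) / 4)) :
    8 * dg n η + 64 ≤ 2 ^ (i + k) := by
  have h1 := dg_l hD
  have h2 : 2 ^ 6 * 2 ^ lK n k ≤ 2 ^ k := lK_lr (by omega)
  have h3 : 2 ^ k ≤ 2 ^ (i + k) := Nat.pow_le_pow_right (by norm_num) (by omega)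
  omega

/-! ### powers of `e` -/

lemma two_lg_ge (c : ℝ) {e : ℝ} (he : 0 < e) : e ^ (-c) ≤ (2 : ℝ) ^ lg c e := by
  have h1 : e ^ (-c) = (2 : ℝ) ^ (c * Real.logb 2 (1 / e)) := by
    rw [mul_comm, Real.rpow_mul (by norm_num), Real.rpow_logb (by norm_num) (by norm_num)
      (by positivity), one_div, Real.inv_rpow he.le, Real.rpow_neg he.le]
  rw [h1, ← Real.rpow_natCast]
  exact Real.rpow_le_rpow_of_exponent_le (by norm_num) (Nat.le_ceil _)

lemma lg_up {c e : ℝ} (hc : 0 ≤ c) (he : 0 < e) (he1 : e ≤ 1) :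
    (lg c e : ℝ) ≤ c * Real.logb 2 (1 / e) + 1 := by
  have h1 : 0 ≤ Real.logb 2 (1 / e) :=
    Real.logb_nonneg one_lt_two (by rw [le_div_iff₀ he]; linarith)
  exact (Nat.ceil_lt_add_one (mul_nonneg hc h1)).le

lemma two_lg_le {c e : ℝ} (hc : 0 ≤ c) (he : 0 < e) (he1 : e ≤ 1) :
    (2 : ℝ) ^ lg c e ≤ 2 * e ^ (-c) := by
  have h1 := lg_up hc he he1
  have h2 : e ^ (-c) = (2 : ℝ) ^ (c * Real.logb 2 (1 / e)) := by
    rw [mul_comm, Real.rpow_mul (by norm_num), Real.rpow_logb (by norm_num) (by norm_num)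
      (by positivity), one_div, Real.inv_rpow he.le, Real.rpow_neg he.le]
  rw [h2, ← Real.rpow_natCast]
  calc (2 : ℝ) ^ ((lg c e : ℕ) : ℝ) ≤ (2 : ℝ) ^ (c * Real.logb 2 (1 / e) + 1) :=
        Real.rpow_le_rpow_of_exponent_le (by norm_num) h1
    _ = 2 * (2 : ℝ) ^ (c * Real.logb 2 (1 / e)) := by
        rw [Real.rpow_add (by norm_num), Real.rpow_one, mul_comm]

/-- a constant and a logarithm against a power -/
lemma pow_abs {C s v : ℝ} (hC : 0 ≤ C) (h : v < s) : ∃ E0 : ℝ, 0 < E0 ∧ E0 ≤ 1 ∧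
    ∀ e, 0 < e → e ≤ E0 → C * (1 + Real.logb 2 (1 / e)) * e ^ s ≤ e ^ v := by
  have hd : 0 < (s - v) / 2 := by linarith
  obtain ⟨E1, hE1, hE⟩ : ∃ E1 : ℝ, 0 < E1 ∧ ∀ e, 0 < e → e ≤ E1 →
      C * (1 + 2 / ((s - v) / 2)) * e ^ ((s - v) / 2) ≤ 1 := by
    have hK : 0 ≤ C * (1 + 2 / ((s - v) / 2)) := by positivity
    refine ⟨(1 / (C * (1 + 2 / ((s - v) / 2)) + 1)) ^ (1 / ((s - v) / 2)), by positivity,
      fun e he h1 => ?_⟩
    set K := C * (1 + 2 / ((s - v) / 2)) with hKd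
    have h2 : e ^ ((s - v) / 2) ≤ 1 / (K + 1) := by
      calc e ^ ((s - v) / 2) ≤ ((1 / (K + 1)) ^ (1 / ((s - v) / 2))) ^ ((s - v) / 2) :=
            Real.rpow_le_rpow he.le h1 hd.le
        _ = 1 / (K + 1) := by
            rw [← Real.rpow_mul (by positivity), one_div_mul_cancel hd.ne', Real.rpow_one]
    calc K * e ^ ((s - v) / 2) ≤ K * (1 / (K + 1)) := mul_le_mul_of_nonneg_left h2 hK
      _ ≤ 1 := by
          rw [mul_one_div, div_le_one (by positivity)]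
          linarith
  refine ⟨min E1 1, by positivity, min_le_right _ _, fun e he h1 => ?_⟩
  have he1 : e ≤ 1 := h1.trans (min_le_right _ _)
  have h2 := hE e he (h1.trans (min_le_left _ _))
  have hl : Real.logb 2 (1 / e) ≤ 2 / ((s - v) / 2) * e ^ (-((s - v) / 2)) := by
    have h3 := Real.log_le_rpow_div (x := 1 / e) (by positivity) hd
    have h4 : (1 / e) ^ ((s - v) / 2) = e ^ (-((s - v) / 2)) := by
      rw [one_div, Real.inv_rpow he.le, Real.rpow_neg he.le]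
    rw [h4] at h3
    have h5 : (1 : ℝ) / 2 ≤ Real.log 2 := by
      have := Real.log_two_gt_d9
      linarith
    unfold Real.logb
    rw [div_le_iff₀ (by linarith)]
    have h6 : 0 ≤ e ^ (-((s - v) / 2)) / ((s - v) / 2) := by positivity
    calc Real.log (1 / e) ≤ e ^ (-((s - v) / 2)) / ((s - v) / 2) := h3
      _ ≤ 2 * (e ^ (-((s - v) / 2)) / ((s - v) / 2)) * Real.log 2 := by nlinarith
      _ = 2 / ((s - v) / 2) * e ^ (-((s - v) / 2)) * Real.log 2 := by ring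
  have h1e : 1 ≤ e ^ (-((s - v) / 2)) := by
    apply Real.one_le_rpow_of_pos_of_le_one_of_nonpos he he1
    linarith
  have h7 : 1 + Real.logb 2 (1 / e) ≤ (1 + 2 / ((s - v) / 2)) * e ^ (-((s - v) / 2)) := by
    rw [add_mul, one_mul]
    linarith
  have e1 : e ^ (-((s - v) / 2)) * e ^ s = e ^ ((s - v) / 2) * e ^ v := by
    rw [← Real.rpow_add he, ← Real.rpow_add he]
    congr 1
    ring
  calc C * (1 + Real.logb 2 (1 / e)) * e ^ s
      ≤ C * ((1 + 2 / ((s - v) / 2)) * e ^ (-((s - v) / 2))) * e ^ s := by gcongr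
    _ = C * (1 + 2 / ((s - v) / 2)) * e ^ ((s - v) / 2) * e ^ v := by
        rw [show C * ((1 + 2 / ((s - v) / 2)) * e ^ (-((s - v) / 2))) * e ^ s =
          C * (1 + 2 / ((s - v) / 2)) * (e ^ (-((s - v) / 2)) * e ^ s) by ring, e1]
        ring
    _ ≤ 1 * e ^ v := mul_le_mul_of_nonneg_right h2 (Real.rpow_nonneg he.le _)
    _ = e ^ v := one_mul _

/-- **the sum over the scales of one window**: `4 w` steps, each `≤ 500000 eB` -/
theorem sum_E (i : ℕ) {p s v C D : ℝ} (hC : 0 ≤ C) (hD : 0 ≤ D) (h : v + 2 * p < s) :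
    ∃ Y0 : ℝ, 0 < Y0 ∧ Y0 ≤ 1 ∧ ∀ y, 0 < y → y ≤ Y0 → ∀ w : ℕ,
      (w : ℝ) ≤ D * (1 + Real.logb 2 (1 / y)) → (2 : ℝ) ^ w ≤ D * y ^ (-p) →
      ∀ x, 0 ≤ x → x ≤ C * y ^ s →
      (4 * (w : ℝ)) * (500000 * (8 * (2 ^ (i + 1) * 2 ^ w) ^ 2 * x)) ≤ y ^ v := by
  obtain ⟨Y0, h0, h1, hE⟩ := pow_abs (C := 4 * D * (500000 * (8 * (2 ^ (i + 1) * D) ^ 2)) * C)
    (s := s - 2 * p) (v := v) (by positivity) (by linarith)
  refine ⟨Y0, h0, h1, fun y hy hy0 w hw1 hw2 x hx0 hx => ?_⟩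
  have hy1 := hy0.trans h1
  have hlb : 0 ≤ Real.logb 2 (1 / y) :=
    Real.logb_nonneg one_lt_two (by rw [le_div_iff₀ hy]; linarith)
  have a3 : (2 ^ (i + 1) * 2 ^ w : ℝ) ≤ 2 ^ (i + 1) * D * y ^ (-p) := by
    calc (2 ^ (i + 1) * 2 ^ w : ℝ) ≤ 2 ^ (i + 1) * (D * y ^ (-p)) :=
          mul_le_mul_of_nonneg_left hw2 (by positivity)
      _ = _ := by ring
  have a5 : (y ^ (-p)) ^ 2 * y ^ s = y ^ (s - 2 * p) := by
    rw [← Real.rpow_natCast (y ^ (-p)) 2, ← Real.rpow_mul hy.le, ← Real.rpow_add hy]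
    congr 1
    push_cast
    ring
  calc (4 * (w : ℝ)) * (500000 * (8 * (2 ^ (i + 1) * 2 ^ w) ^ 2 * x))
      ≤ (4 * (D * (1 + Real.logb 2 (1 / y)))) *
        (500000 * (8 * (2 ^ (i + 1) * D * y ^ (-p)) ^ 2 * (C * y ^ s))) := by gcongr
    _ = 4 * D * (500000 * (8 * (2 ^ (i + 1) * D) ^ 2)) * C * (1 + Real.logb 2 (1 / y)) *
        ((y ^ (-p)) ^ 2 * y ^ s) := by ring
    _ ≤ y ^ v := by
        rw [a5]
        exact hE y hy hy0

end

end Vale.Agent.P159.H770.Sti
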