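import Vale.Agent.P159.H770.Sti9
import Vale.Agent.P159.H37.Lq6

/-!
P159 (helper770): the field `st` in helper145's final letters (`StW` of Spf, unfolded; `ck = thp / 4`).
-/

set_option linter.unusedSectionVars false

namespace Vale.Agent.P159.H770.Sti

open Finset Filter Topology
open Vale.Agent.P159 Vale.Agent.P159.TM.H331
open Vale.Agent.P159.H817 (Dec)
open Vale.Agent.P159.H972 (tn Par)
open Vale.Agent.P159.H801 (SFlow itw Ev)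
open Vale.Agent.P159.H37.Sf (kf kE1 Win)
open Vale.Agent.P159.H145.Sp (StP)
open Vale.Agent.P159.H773 (sd)
open Vale.Agent.P159.H513 (LkS)

noncomputable section

/-- the numbers of the class, final letters: flows -/
def AF (P : Par) (c1 : ℝ) (y : ℕ → ℝ) (n : ℕ) : ℝ :=
  4 ^ (kf (P.thp / 4) y n / 16) * y n ^ (-(4 * c1))

/-- the numbers of the class, final letters: strong numbers -/
def rF (y : ℕ → ℝ) (n : ℕ) : ℝ := y n ^ (9 / 8 : ℝ)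

/-- **the class of the decorations, final letters** -/
def clF (P : Par) (i : ℕ) (b c1 : ℝ) (y ε : ℕ → ℝ) (n : ℕ) : Dec :=
  DF P i b (P.thp / 4) c1 y ε (AF P c1 y) (rF y) n

/-- **the field `st`, any numbers of the class** -/
theorem stW_ev {b b1 b2 pf : ℝ} (hb1 : 0 < b1) (h1 : b1 ≤ b) (hpf : 9 / 10 ≤ pf)
    (hA6 : TM.Spec.ThmA6 b1 b2 (5 / 2)) (Q : ℕ) (hh : 0 < helicity b)
    (hs : 1 / helicity b < 5 / 2) (hSi : ∀ i, 2 / Real.pi ≤ stiff (2 ^ i) b)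
    (hL : LkS b (2 / Real.pi)) :
    Ev b1 b2 pf Q fun P c1 =>
      ∀ {σ cc q2 qx : ℝ} {a y ε xs : ℕ → ℝ} {c' r q A : ℝ} {N : ℕ},
      SFlow P b σ cc c1 q2 qx a y ε xs c' r q A N → 0 ≤ σ → σ ≤ 1 / 6 → 0 ≤ cc → 40 * cc ≤ 1 →
      ∀ c4 : ℝ, c4 ≤ 1 / 16 →
      ∀ (β C2 A0 : ℝ) (Am : ℕ), 1 / 4 ≤ β → β < 1 / 2 → 1 ≤ C2 → 2 ≤ Am →
      ∀ (M : ℝ) (A' r1 : ℕ → ℝ),
      (∀ᶠ n in atTop, 0 ≤ A' n ∧
        A' n ≤ M * 4 ^ (kf (P.thp / 4) y n / 16) * y n ^ (-(4 * c1))) →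
      (∀ᶠ n in atTop, r1 n ≤ y n ^ (9 / 8 : ℝ)) →
      ∃ i1 : ℕ, ∀ i, i1 ≤ i →
        (Win P b β C2 A0 Am i (P.thp / 4) a y ε fun n R =>
          ∀ k, n + kf (P.thp / 4) y n ≤ k → k ≤ Nat.clog 2 R →
            ModK i n b (y n ^ (-c1)) (y n ^ (9 / 8 : ℝ)) (y n ^ (9 / 8 : ℝ))
              (DF P i b (P.thp / 4) c1 y ε A' r1 n) (DF P i b (P.thp / 4) c1 y ε A' r1 n) k) ∧
        Win P b β C2 A0 Am i (P.thp / 4) a y ε fun n R =>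
          StP i b (tn n) (a n) n (n + kf (P.thp / 4) y n) (kE1 P (P.thp / 4) y ε n) R
            (DF P i b (P.thp / 4) c1 y ε A' r1 n) (DF P i b (P.thp / 4) c1 y ε A' r1 n)
            (y n ^ (1 + c4) / 16) := by
  refine ((st_fin (b2 := b2) hb1 h1 hpf hA6 Q hh hs hSi hL).and
    (H37.Sf.ev_cS b1 b2 pf Q)).mono fun P c1 hP hH => ?_
  obtain ⟨⟨-, -, hS⟩, -, -, -, -, -, hc, -⟩ := hH
  intro σ cc q2 qx a y ε xs c' r q A N h hσ hσ1 hcc hcc1 c4 hc4 β C2 A0 Am hβ hβ2 hC2 hAm M A' r1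
    hA' hr1
  have hth := P.th0
  have hthp := P.thp0
  obtain ⟨i1, hi1⟩ := hS h hσ hσ1 hcc hcc1 (P.thp / 4) (by linarith) (by linarith) c4
    hc4 β C2 A0 Am hβ hβ2 hC2 hAm M A' r1 hA' hr1
  refine ⟨i1, fun i hi => ?_⟩
  have hW := hi1 i hi
  refine ⟨?_, ?_⟩
  · unfold Win at hW ⊢
    filter_upwards [hW] with n g n0 j hnj R hR0 hR1 hK
    exact (g n0 j hnj R hR0 hR1 hK).1
  · unfold Win at hW ⊢
    filter_upwards [hW] with n g n0 j hnj R hR0 hR1 hK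
    exact (g n0 j hnj R hR0 hR1 hK).2

/-- **the field `st`, final class** -/
theorem stW_fin {b b1 b2 pf : ℝ} (hb1 : 0 < b1) (h1 : b1 ≤ b) (hpf : 9 / 10 ≤ pf)
    (hA6 : TM.Spec.ThmA6 b1 b2 (5 / 2)) (Q : ℕ) (hh : 0 < helicity b)
    (hs : 1 / helicity b < 5 / 2) (hSi : ∀ i, 2 / Real.pi ≤ stiff (2 ^ i) b)
    (hL : LkS b (2 / Real.pi)) :
    Ev b1 b2 pf Q fun P c1 =>
      ∀ {σ cc q2 qx : ℝ} {a y ε xs : ℕ → ℝ} {c' r q A : ℝ} {N : ℕ},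
      SFlow P b σ cc c1 q2 qx a y ε xs c' r q A N → 0 ≤ σ → σ ≤ 1 / 6 → 0 ≤ cc → 40 * cc ≤ 1 →
      ∀ c4 : ℝ, c4 ≤ 1 / 16 →
      ∀ (β C2 A0 : ℝ) (Am : ℕ), 1 / 4 ≤ β → β < 1 / 2 → 1 ≤ C2 → 2 ≤ Am →
      ∃ i1 : ℕ, ∀ i, i1 ≤ i →
        (Win P b β C2 A0 Am i (P.thp / 4) a y ε fun n R =>
          ∀ k, n + kf (P.thp / 4) y n ≤ k → k ≤ Nat.clog 2 R →
            ModK i n b (y n ^ (-c1)) (y n ^ (9 / 8 : ℝ)) (y n ^ (9 / 8 : ℝ))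
              (clF P i b c1 y ε n) (clF P i b c1 y ε n) k) ∧
        Win P b β C2 A0 Am i (P.thp / 4) a y ε fun n R =>
          StP i b (tn n) (a n) n (n + kf (P.thp / 4) y n) (kE1 P (P.thp / 4) y ε n) R
            (clF P i b c1 y ε n) (clF P i b c1 y ε n) (y n ^ (1 + c4) / 16) := by
  refine (stW_ev (b2 := b2) hb1 h1 hpf hA6 Q hh hs hSi hL).mono fun P c1 hP hS => ?_
  intro σ cc q2 qx a y ε xs c' r q A N h hσ hσ1 hcc hcc1 c4 hc4 β C2 A0 Am hβ hβ2 hC2 hAm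
  refine hS h hσ hσ1 hcc hcc1 c4 hc4 β C2 A0 Am hβ hβ2 hC2 hAm 1 (AF P c1 y) (rF y) ?_ ?_
  · refine Eventually.of_forall fun n => ⟨?_, ?_⟩
    · unfold AF
      have := h.fl.y0 n
      positivity
    · unfold AF
      rw [one_mul]
  · exact Eventually.of_forall fun n => le_rfl

end

end Vale.Agent.P159.H770.Sti
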