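import Vale.Agent.P159.H770.Sti1
import Vale.Agent.P159.H859.Idl3
import Vale.Agent.P159.H773.Sk2

/-!
P159 (helper770): the inputs of the chain of doublings (`ChI` at every scale of one window) from the
outputs of the modules: flat profile, real smooth fields, locality, comparison of tori, ideal pairs.
-/

set_option linter.unusedSectionVars false

namespace Vale.Agent.P159.H770.Sti

open Finset
open Vale.Agent.P159.TM.Spec (V)
open Vale.Agent.P159.H817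
open Vale.Agent.P159.H37 (Rs)
open Vale.Agent.P159.H963 (nwt)
open Vale.Agent.P159.H972 (lg tn)
open Vale.Agent.P159.H859.Idl
open Vale.Agent.P159.H773 (sd sd_pow sd_ne)

noncomputable section

/-- real smooth fields of a box of radius `4 l` have a small remainder -/
def RealN (N l : ℕ) [NeZero N] (b t Λ εR : ℝ) : Prop :=
  ∀ F (w : V N), GB (Λ / l) F → (∀ x, 4 * l ≤ sz (x - w) → F x = 0) →
    Rs (nwt N b t 0) (Pt t F) ≤ εR

/-- locality of `log Z` on the class `KK` -/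
def LocN (N l r : ℕ) [NeZero N] (b t Λ ε₃ : ℝ) (D0 D1 : Dec) : Prop :=
  ∀ (w : V N) (m : ℕ) (B P W : V N × Bool → ℝ), 8 * m ≤ r → H817.KK l r Λ D0 D1 B →
    H817.KK l r Λ D0 D1 (fun e => B e + P e) → H817.KK l r Λ D0 D1 (fun e => B e + W e) →
    H817.KK l r Λ D0 D1 (fun e => B e + P e + W e) → (∀ e, P e ≠ 0 → sz (e.1 - w) ≤ m) →
    (∀ e, W e ≠ 0 → m + l ≤ sz (e.1 - w)) →
    |EZ N b t (fun e => B e + P e + W e) - EZ N b t (fun e => B e + P e) -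
      EZ N b t (fun e => B e + W e) + EZ N b t B| ≤ ε₃

/-- comparison of the torus `N` and the torus `2 N` on the class `KK` -/
def TorN (N l r : ℕ) [NeZero N] (b t Λ ε₃ : ℝ) (D0 D1 : Dec) : Prop :=
  ∀ β : V N × Bool → ℝ, H817.KK l r Λ D0 D1 β → (∀ e, N < 7 * sz e.1 → β e = 0) →
    H817.KK l r Λ D0 D1 (H817.ext 2 β) →
      |EZ (2 * N) b t (H817.ext 2 β) - EZ N b t β| ≤ ε₃

/-- the closure properties of the decorations -/
structure DecC (l0 : ℕ) (D0 D1 : Dec) : Prop where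
  supp0 : ∀ F ∈ D0, SuppD l0 F
  supp1 : ∀ F ∈ D1, SuppD l0 F
  neg01 : ∀ F ∈ D0, (fun i j => -F i j) ∈ D1
  neg10 : ∀ F ∈ D1, (fun i j => -F i j) ∈ D0
  rfl1 : ∀ F ∈ D1, (fun i j => -rfl2 F i j) ∈ D1

lemma suppD_mono {l l' : ℕ} {F : ℤ → ℤ → ℝ} (h : SuppD l F) (hl : l ≤ l') : SuppD l' F :=
  fun i j hF => ⟨(h i j hF).1.trans hl, (h i j hF).2.trans hl⟩

/-- the outputs of the modules at the scale `k`, level `n`, ratio `2 ^ i` -/
structure ScK (i n : ℕ) (b a η Λ εR ε₃ : ℝ) (D0 D1 : Dec) (k : ℕ) : Prop where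
  fl : H972.FL b (tn n) a η (sd i (2 ^ k))
  fl' : H972.FL b (tn n) a η (sd i (2 ^ (k + 1)))
  re : RealN (sd i (2 ^ k)) (2 ^ lK n k) b (tn n) Λ εR
  re' : RealN (sd i (2 ^ (k + 1))) (2 ^ lK n k) b (tn n) Λ εR
  loc : LocN (sd i (2 ^ k)) (2 ^ lK n k) (2 ^ k) b (tn n) Λ ε₃ D0 D1
  loc' : LocN (sd i (2 ^ (k + 1))) (2 ^ lK n k) (2 ^ k) b (tn n) Λ ε₃ D0 D1
  tor : TorN (sd i (2 ^ k)) (2 ^ lK n k) (2 ^ k) b (tn n) Λ ε₃ D0 D1

/-- the numeric conditions at the scale `k`, `R1` = the largest distance, `N1` = its torus -/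
structure NmK (i n N1 R1 l0 : ℕ) (η : ℝ) (k : ℕ) : Prop where
  i6 : 6 ≤ i
  n1 : 1 ≤ n
  hk : n + 60 ≤ k
  hs : 328 * s0 ≤ 2 ^ ((k - n) - 3 * (k - n) / 4)
  hR : 2 ^ k ≤ 4 * R1
  hN1 : 64 * R1 ≤ N1
  hl0 : l0 ≤ 2 ^ lK n k
  hD : ⌈4 * Real.log (4 / (2 * η))⌉₊ + 4 ≤ 2 ^ (3 * (k - n) / 4)

section

variable {i n N1 R1 l0 k : ℕ} {b a η Λ εR ε₂ ε₃ : ℝ} {D0 D1 : Dec}

lemma NmK.l4 (H : NmK i n N1 R1 l0 η k) : 4 ≤ 2 ^ lK n k := by
  have h1 := H.hk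
  have h2 : 2 ≤ lK n k := by unfold lK; omega
  calc 4 = 2 ^ 2 := rfl
    _ ≤ 2 ^ lK n k := Nat.pow_le_pow_right (by norm_num) h2

lemma NmK.lr (H : NmK i n N1 R1 l0 η k) : 4096 * 2 ^ lK n k ≤ 2 ^ k := by
  have h1 := H.hk
  have := lK_lr (c := 12) (n := n) (k := k) (by omega)
  simpa using this

lemma NmK.rN (H : NmK i n N1 R1 l0 η k) : 64 * 2 ^ k ≤ sd i (2 ^ k) := by
  rw [sd_pow]
  have h1 := H.i6
  calc 64 * 2 ^ k = 2 ^ (6 + k) := by rw [pow_add]; norm_num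
    _ ≤ 2 ^ (i + k) := Nat.pow_le_pow_right (by norm_num) (by omega)

lemma sd_succ (i k : ℕ) : sd i (2 ^ (k + 1)) = 2 * sd i (2 ^ k) := by
  rw [sd_pow, sd_pow, ← add_assoc, pow_succ]
  ring

lemma NmK.rN' (H : NmK i n N1 R1 l0 η k) : 64 * 2 ^ k ≤ sd i (2 ^ (k + 1)) := by
  have h1 := H.rN
  rw [sd_succ]
  omega

lemma NmK.prm (H : NmK i n N1 R1 l0 η k) {N : ℕ} (hN : 64 * 2 ^ k ≤ N) :
    Prm N N1 (2 ^ lK n k) (2 ^ k) R1 :=
  ⟨H.l4, by have := H.lr; omega, hN, H.hN1, H.hR⟩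

lemma NmK.s0l (H : NmK i n N1 R1 l0 η k) : 328 * s0 * ((2 ^ lK n k : ℕ) : ℝ) ≤ ((2 ^ k : ℕ) : ℝ) := by
  have h0 := H.hk
  have h1 : ((2 ^ k : ℕ) : ℝ) =
      2 ^ ((k - n) - 3 * (k - n) / 4) * ((2 ^ lK n k : ℕ) : ℝ) := by
    rw [← lK_ratio (by omega : n ≤ k)]
    push_cast
    ring
  rw [h1]
  exact mul_le_mul_of_nonneg_right H.hs (by positivity)

lemma NmK.id [NeZero N1] (H : NmK i n N1 R1 l0 η k) {N : ℕ} [NeZero N] (hN : 64 * 2 ^ k ≤ N) :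
    HasId N (bC N1 R1) (2 ^ lK n k) (2 ^ k) (37 * s0) := by
  refine hasId (H.prm hN) ?_
  have := H.s0l
  push_cast at this ⊢
  exact this

/-- `SysI` on one torus -/
theorem sysI_of {N : ℕ} [NeZero N] (H : NmK i n N1 R1 l0 η k) (hb : 0 < b) (ha : 1 ≤ a)
    (ha2 : a ≤ 2) (hη : 0 < η) (hη1 : 2 * η ≤ 1) (hN : 64 * 2 ^ k ≤ N)
    (hD : DecC l0 D0 D1) (hF : H972.FL b (tn n) a η N)
    (hR : RealN N (2 ^ lK n k) b (tn n) Λ εR) (hεR : 0 ≤ εR)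
    (hε : 3528 * (12 * η) * Λ ^ 2 + εR ≤ ε₂)
    (hL : LocN N (2 ^ lK n k) (2 ^ k) b (tn n) Λ ε₃ D0 D1) :
    SysI N (2 ^ lK n k) (2 ^ k) Λ ε₂ ε₃ D0 D1 (rh N b (tn n) a (dg n (2 * η))) := by
  have ht : 0 < tn n := by unfold tn; positivity
  have hk := H.hk
  have hlr := H.lr
  refine sysI_rh (η := 2 * η) hb ht (by linarith) (by linarith) H.l4 (by omega) hN
    (dg_pos n _) (dg_l H.hD) (fun F hF => suppD_mono (hD.supp0 F hF) H.hl0)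
    (fun F hF => suppD_mono (hD.supp1 F hF) H.hl0) hD.neg01 hD.neg10 hD.rfl1
    (fun k hk => flat_of_FL ht hη.le hF hk) hR hεR ?_ hL
  refine le_trans ?_ hε
  have h1 := kap0_le (n := n) ha ha2 (η := 2 * η) (by linarith) hη1
  have h2 : 0 ≤ Λ ^ 2 := sq_nonneg _
  nlinarith

/-- **the inputs of the chain at the scale `2 ^ k`** -/
theorem chI_of [NeZero N1] (H : NmK i n N1 R1 l0 η k) (hb : 0 < b) (ha : 1 ≤ a)
    (ha2 : a ≤ 2) (hη : 0 < η) (hη1 : 2 * η ≤ 1) (hD : DecC l0 D0 D1)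
    (hS : ScK i n b a η Λ εR ε₃ D0 D1 k) (hεR : 0 ≤ εR)
    (hε : 3528 * (12 * η) * Λ ^ 2 + εR ≤ ε₂) :
    ChI b (tn n) a (dg n (2 * η)) (2 ^ lK n k) Λ ε₂ ε₃ (37 * s0) D0 D1 (bC N1 R1)
      (sd i (2 ^ k)) (sd i (2 ^ (k + 1))) k where
  dbl := sd_succ i k
  sys := sysI_of H hb ha ha2 hη hη1 H.rN hD hS.fl hS.re hεR hε hS.loc
  sys' := sysI_of H hb ha ha2 hη hη1 H.rN' hD hS.fl' hS.re' hεR hε hS.loc'
  id := H.id H.rN
  id' := H.id H.rN'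
  tor := hS.tor
  n8 := by
    have hk := H.hk
    rw [sd_pow]
    exact dg_N (by omega) H.hD
  lr := H.lr

end

/-- the number of the doubling step -/
lemma eB_val (i : ℕ) {n k w : ℕ} {ε₂ ε₃ : ℝ} (h0 : 0 ≤ 3 * ε₂ + ε₃) (hn : n ≤ k)
    (hw : k - n ≤ 4 * w) :
    500000 * eB (sd i (2 ^ (k + 1))) (2 ^ lK n k) ε₂ ε₃ ≤
      500000 * (8 * (2 ^ (i + 1) * 2 ^ w) ^ 2 * (3 * ε₂ + ε₃)) := by
  unfold eB
  rw [sd_pow, ratio_eq i hn]
  refine mul_le_mul_of_nonneg_left ?_ (by norm_num)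
  refine mul_le_mul_of_nonneg_right ?_ h0
  refine mul_le_mul_of_nonneg_left ?_ (by norm_num)
  refine pow_le_pow_left₀ (by positivity) ?_ 2
  refine mul_le_mul_of_nonneg_left ?_ (by positivity)
  exact pow_le_pow_right₀ (by norm_num) (by omega)

/-! ### the numbers of one window -/

/-- the degree is small against the length -/
lemma deg_small {c' : ℝ} (hc : 0 < c') : ∃ E0 : ℝ, 0 < E0 ∧ E0 ≤ 1 ∧ ∀ e η : ℝ, 0 < e → e ≤ E0 →
    e ≤ η → ∀ m : ℕ, 2 ≤ m → e ^ (-c') ≤ 2 ^ m →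
      ⌈4 * Real.log (4 / (2 * η))⌉₊ + 4 ≤ 2 ^ (3 * m / 4) := by
  obtain ⟨E0, h0, h1, hE⟩ := pow_abs (C := 12) (s := c' / 2) (v := 0) (by norm_num) (by linarith)
  refine ⟨E0, h0, h1, fun e η he he0 hη m hm2 hm => ?_⟩
  have he1 := he0.trans h1
  have hl0 : 0 ≤ Real.log (1 / e) := Real.log_nonneg (by rw [le_div_iff₀ he]; linarith)
  have hlb : Real.log (1 / e) ≤ Real.logb 2 (1 / e) := by
    unfold Real.logb
    rw [le_div_iff₀ (Real.log_pos one_lt_two)]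
    have := Real.log_two_lt_d9
    nlinarith
  have hη0 : 0 < η := he.trans_le hη
  have a1 : 4 * Real.log (4 / (2 * η)) ≤ 4 + 4 * Real.log (1 / e) := by
    have h2 : Real.log (4 / (2 * η)) ≤ Real.log (2 * (1 / e)) := by
      apply Real.log_le_log (by positivity)
      have h3 : 4 / (2 * η) = 2 * (1 / η) := by field_simp; norm_num
      rw [h3]
      exact mul_le_mul_of_nonneg_left (one_div_le_one_div_of_le he hη) (by norm_num)
    rw [Real.log_mul (by norm_num) (by positivity)] at h2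
    have := Real.log_two_lt_d9
    linarith
  have a2 : (⌈4 * Real.log (4 / (2 * η))⌉₊ : ℝ) ≤ 5 + 4 * Real.log (1 / e) := by
    have h3 : ⌈4 * Real.log (4 / (2 * η))⌉₊ ≤ ⌈4 + 4 * Real.log (1 / e)⌉₊ := Nat.ceil_mono a1
    have h4 := (Nat.ceil_lt_add_one (show 0 ≤ 4 + 4 * Real.log (1 / e) by linarith)).le
    have h5 : (⌈4 * Real.log (4 / (2 * η))⌉₊ : ℝ) ≤ (⌈4 + 4 * Real.log (1 / e)⌉₊ : ℝ) := by
      exact_mod_cast h3
    linarith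
  have a3 : e ^ (-(c' / 2)) ≤ (2 : ℝ) ^ (3 * m / 4) := by
    have h4 : e ^ (-(c' / 2)) = √(e ^ (-c')) := by
      rw [Real.sqrt_eq_rpow, ← Real.rpow_mul he.le]
      congr 1
      ring
    have h5 : (2 : ℝ) ^ m ≤ ((2 : ℝ) ^ (3 * m / 4)) ^ 2 := by
      rw [← pow_mul]
      exact pow_le_pow_right₀ (by norm_num) (by omega)
    rw [h4]
    calc √(e ^ (-c')) ≤ √(((2 : ℝ) ^ (3 * m / 4)) ^ 2) := Real.sqrt_le_sqrt (hm.trans h5)
      _ = 2 ^ (3 * m / 4) := Real.sqrt_sq (by positivity)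
  have a4 : 12 * (1 + Real.logb 2 (1 / e)) ≤ e ^ (-(c' / 2)) := by
    have h5 := hE e he he0
    rw [Real.rpow_zero] at h5
    have h6 : e ^ (-(c' / 2)) * e ^ (c' / 2) = 1 := by
      rw [← Real.rpow_add he, neg_add_cancel, Real.rpow_zero]
    have h7 : 0 < e ^ (c' / 2) := Real.rpow_pos_of_pos he _
    nlinarith
  have a5 : ((⌈4 * Real.log (4 / (2 * η))⌉₊ + 4 : ℕ) : ℝ) ≤ ((2 ^ (3 * m / 4) : ℕ) : ℝ) := by
    push_cast
    linarith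
  exact_mod_cast a5

end

end Vale.Agent.P159.H770.Sti
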