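import Vale.Agent.P159.H770.Sti2
import Vale.Agent.P159.H686.Loc2
import Vale.Agent.P159.H817.Id10

/-!
P159 (helper770): the inputs `StV` (helper686) and `RealI` (helper817) of the comparison of the pairs of
one window, from the outputs of the modules at every scale, at a fixed level.
-/

set_option linter.unusedSectionVars false

namespace Vale.Agent.P159.H770.Sti

open Finset
open Vale.Agent.P159.TM.Spec (V)
open Vale.Agent.P159.H817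
open Vale.Agent.P159.H37 (Rs)
open Vale.Agent.P159.H963 (nwt)
open Vale.Agent.P159.H963.Core (RF nS kap1 kap1_nonneg)
open Vale.Agent.P159.H972 (lg tn)
open Vale.Agent.P159.H859.Idl
open Vale.Agent.P159.H773 (sd sd_pow sd_ne sd_ge)
open Vale.Agent.P159.H686 (StV RealR RealW)

noncomputable section

/-- the window shift at the pair `R`: length `l = 2 ^ lK n (log2 R)`, near field of the largest pair
`2 ^ K1` -/
def gsF (i n K1 R : ℕ) : V (sd i R) → ℝ :=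
  gsR (sd i R) (sd i (2 ^ K1)) (2 ^ K1) (2 ^ lK n (Nat.log 2 R)) R

section

variable {i n K1 l0 k0 R : ℕ} {b a η Λ εR ε₂ ε₃ E : ℝ} {D0 D1 : Dec}

lemma sd64 {i R : ℕ} (hi : 6 ≤ i) : 64 * R ≤ sd i R := by
  refine le_trans ?_ (sd_ge i R)
  refine Nat.mul_le_mul_right _ ?_
  calc 64 = 2 ^ 6 := rfl
    _ ≤ 2 ^ i := Nat.pow_le_pow_right (by norm_num) hi

/-- the scale of `R` -/
lemma log_mem (hR0 : 2 ^ k0 ≤ R) (hR1 : R ≤ 2 ^ K1) :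
    k0 ≤ Nat.log 2 R ∧ Nat.log 2 R ≤ K1 ∧ 2 ^ Nat.log 2 R ≤ R := by
  have h0 : R ≠ 0 := by
    have : 0 < 2 ^ k0 := by positivity
    omega
  refine ⟨Nat.le_log_of_pow_le (by norm_num) hR0, ?_, Nat.pow_log_le_self 2 h0⟩
  have h1 : 2 ^ Nat.log 2 R ≤ 2 ^ K1 := (Nat.pow_log_le_self 2 h0).trans hR1
  exact (Nat.pow_le_pow_iff_right (by norm_num)).1 h1

lemma prmR (hN : ∀ k, k0 ≤ k → k ≤ K1 → NmK i n (sd i (2 ^ K1)) (2 ^ K1) l0 η k)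
    (hR0 : 2 ^ k0 ≤ R) (hR1 : R ≤ 2 ^ K1) :
    Prm (sd i R) (sd i (2 ^ K1)) (2 ^ lK n (Nat.log 2 R)) R (2 ^ K1) := by
  obtain ⟨h1, h2, h3⟩ := log_mem hR0 hR1
  have H := hN _ h1 h2
  have h4 := H.lr
  exact ⟨H.l4, by omega, sd64 H.i6, sd64 H.i6, by omega⟩

lemma l_le_R (hN : ∀ k, k0 ≤ k → k ≤ K1 → NmK i n (sd i (2 ^ K1)) (2 ^ K1) l0 η k)
    (hR0 : 2 ^ k0 ≤ R) (hR1 : R ≤ 2 ^ K1) : 4096 * 2 ^ lK n (Nat.log 2 R) ≤ R := by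
  obtain ⟨h1, h2, h3⟩ := log_mem hR0 hR1
  exact (hN _ h1 h2).lr.trans h3

/-- the properties of the shift -/
lemma gsF_spec (hN : ∀ k, k0 ≤ k → k ≤ K1 → NmK i n (sd i (2 ^ K1)) (2 ^ K1) l0 η k)
    (hR0 : 2 ^ k0 ≤ R) (hR1 : R ≤ 2 ^ K1) :
    GB (37 * s0 / ((2 ^ lK n (Nat.log 2 R) : ℕ) : ℝ)) (gsF i n K1 R) ∧
      (∀ x, |gsF i n K1 R x| ≤ 1) ∧
      Idl (bC (sd i (2 ^ K1)) (2 ^ K1)) (20 * 2 ^ lK n (Nat.log 2 R)) (0 : V (sd i R))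
        (R • H817.e1) (fun x => -gsF i n K1 R x) ∧
      nrm (gr (gsF i n K1 R)) ≤ 4 * s0 ^ 2 := by
  obtain ⟨h1, h2, h3⟩ := log_mem hR0 hR1
  have H := hN _ h1 h2
  have hs := gsR_spec (prmR hN hR0 hR1)
  have hlR := l_le_R hN hR0 hR1
  have hl : (0 : ℝ) < ((2 ^ lK n (Nat.log 2 R) : ℕ) : ℝ) := by positivity
  have hlR' : 4096 * ((2 ^ lK n (Nat.log 2 R) : ℕ) : ℝ) ≤ (R : ℝ) := by exact_mod_cast hlR
  have hR : (0 : ℝ) < R := by linarith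
  have hs0 := s0_pos
  refine ⟨?_, ?_, hs.idl, ?_⟩
  · refine hs.gb.mono ?_
    exact div_le_div_of_nonneg_left (by positivity) hl (by linarith)
  · intro x
    refine (hs.le x).trans ?_
    rw [← mul_div_assoc, div_le_one hR]
    have h4 := H.s0l
    have h5 : ((2 ^ Nat.log 2 R : ℕ) : ℝ) ≤ R := by exact_mod_cast h3
    linarith
  · refine hs.en.trans ?_
    have h6 : ((2 ^ lK n (Nat.log 2 R) : ℕ) : ℝ) / R ≤ 1 / 4096 := by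
      rw [div_le_div_iff₀ hR (by norm_num)]
      linarith
    have h7 : (((2 ^ lK n (Nat.log 2 R) : ℕ) : ℝ) / R) ^ 2 ≤ (1 / 4096) ^ 2 :=
      pow_le_pow_left₀ (by positivity) h6 2
    have h8 : 0 ≤ s0 ^ 2 := by positivity
    nlinarith

/-- **`StV` of helper686 at the pair `R`** -/
theorem stV_of (hb : 0 < b) (ha : 1 ≤ a) (ha2 : a ≤ 2) (hη : 0 < η) (hη1 : 2 * η ≤ 1)
    (hD : DecC l0 D0 D1)
    (hN : ∀ k, k0 ≤ k → k ≤ K1 → NmK i n (sd i (2 ^ K1)) (2 ^ K1) l0 η k)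
    (hR0 : 2 ^ k0 ≤ R) (hR1 : R ≤ 2 ^ K1)
    (hS : ∀ k, k0 ≤ k → k < Nat.clog 2 R → ScK i n b a η Λ εR ε₃ D0 D1 k)
    (hεR : 0 ≤ εR) (hε : 3528 * (12 * η) * Λ ^ 2 + εR ≤ ε₂)
    (hΛ : 10000000000 * (1 + CG + 37 * s0 + 1) ≤ Λ) (hE0 : 0 ≤ E)
    (hE : ∀ k, k0 ≤ k → k < Nat.clog 2 R →
      500000 * eB (sd i (2 ^ (k + 1))) (2 ^ lK n k) ε₂ ε₃ ≤ E) :
    StV i b (tn n) a (dg n (2 * η)) (fun k => 2 ^ lK n k) (fun _ => Λ) (fun _ => ε₂) (fun _ => ε₃)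
      (37 * s0) (37 * s0) 1 E D0 D1 (bC (sd i (2 ^ K1)) (2 ^ K1)) k0 R (gsF i n K1 (2 ^ k0))
      (gsF i n K1 R) := by
  have hc : Nat.clog 2 R ≤ K1 := (Nat.clog_le_iff_le_pow (by norm_num)).2 hR1
  have hb0 : 2 ^ k0 ≤ 2 ^ K1 := hR0.trans hR1
  have hk0 : k0 ≤ K1 := (Nat.pow_le_pow_iff_right (by norm_num)).1 hb0
  have hi : 6 ≤ i := (hN k0 le_rfl hk0).i6
  obtain ⟨a1, a2, a3, a4⟩ := gsF_spec hN le_rfl hb0
  obtain ⟨b1, b2, b3, b4⟩ := gsF_spec hN hR0 hR1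
  have hlog : Nat.log 2 (2 ^ k0) = k0 := Nat.log_pow (by norm_num) k0
  rw [hlog] at a1 a3
  exact {
    ch := fun k h1 h2 => chI_of (hN k h1 (by omega)) hb ha ha2 hη hη1 hD (hS k h1 h2) hεR hε
    mono := fun k h1 h2 => Nat.pow_le_pow_right (by norm_num) (lK_mono (by omega))
    hE := hE
    E0 := hE0
    rb := fun k h1 h2 => by
      refine refB ?_ _
      have h3 := sd64 (R := 2 ^ K1) hi
      have h4 : 0 < 2 ^ K1 := by positivity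
      omega
    L0 := by have := s0_pos; positivity
    LS := le_rfl
    B1 := le_rfl
    big := fun k h1 h2 => hΛ
    gb0 := a1
    gB0 := a2
    gI0 := a3
    gb := b1
    gB := b2
    gI := b3 }

end

/-! ### the real part -/

/-- the inputs of the real part of the pairs `2 ^ k0 ≤ R ≤ 2 ^ Kw`: decorations at a real zero base
(`K1` = exponent of the largest pair, which defines the near field) -/
structure ReIn (i n : ℕ) (b a : ℝ) (D0 D1 : Dec) (k0 Kw K1 : ℕ) (εX ε₃ r1 r2 B1 : ℝ) : Prop where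
  R3 : ∀ k, k0 ≤ k → k ≤ Kw → ∀ F, F ∈ D0 ∨ F ∈ D1 →
    RF (sd i (2 ^ k)) b (tn n) ((3 : ℝ) • dec F 0) ≤ r1
  nS : ∀ k, k0 ≤ k → k ≤ Kw → ∀ F, F ∈ D0 ∨ F ∈ D1 →
    nS a (tn n) (dec F (0 : V (sd i (2 ^ k)))) ≤ B1
  tor : ∀ k, k0 ≤ k → k < Kw → ∀ F, F ∈ D0 ∨ F ∈ D1 →
    |EZ (sd i (2 ^ (k + 1))) b (tn n) (gr (dec F 0)) -
      EZ (sd i (2 ^ k)) b (tn n) (gr (dec F 0))| ≤ εX
  X0 : 0 ≤ εX
  dd : ∀ R, 2 ^ k0 ≤ R → R ≤ 2 ^ Kw → ∀ F0 ∈ D0, ∀ F1 ∈ D1,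
    |EZ (sd i R) b (tn n) (gr (edec F0 F1 0 (R • H817.e1))) -
      EZ (sd i R) b (tn n) (gr (dec F0 0)) -
      EZ (sd i R) b (tn n) (gr (dec F1 (R • H817.e1)))| ≤ ε₃
  gR : ∀ R, 2 ^ k0 ≤ R → R ≤ 2 ^ Kw → RF (sd i R) b (tn n) ((3 : ℝ) • gsF i n K1 R) ≤ r2

section

variable {i n K1 Kw l0 k0 R : ℕ} {b a η εX ε₃ r1 r2 B1 : ℝ} {D0 D1 : Dec}

/-- **`RealI` of helper817** -/
theorem realI_of (hη : 0 < η) (hD : DecC l0 D0 D1) (hk0 : k0 ≤ Kw) (hKw : Kw ≤ K1)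
    (hN : ∀ k, k0 ≤ k → k ≤ K1 → NmK i n (sd i (2 ^ K1)) (2 ^ K1) l0 η k)
    (hF : ∀ k, k0 ≤ k → k ≤ K1 → H972.FL b (tn n) a η (sd i (2 ^ k)))
    (H : ReIn i n b a D0 D1 k0 Kw K1 εX ε₃ r1 r2 B1) :
    RealI i b (tn n) a (2 * η) (dg n (2 * η)) (2 ^ lK n k0) D0 D1 k0 Kw (gsF i n K1) εX ε₃ r1 r2
      B1 (4 * s0 ^ 2) := by
  have ht : 0 < tn n := by unfold tn; positivity
  have H0 := hN k0 le_rfl (hk0.trans hKw)
  have hlr := H0.lr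
  have h2w : 2 ^ Kw ≤ 2 ^ K1 := Nat.pow_le_pow_right (by norm_num) hKw
  exact {
    s0 := fun F hF => suppD_mono (hD.supp0 F hF) H0.hl0
    s1 := fun F hF => suppD_mono (hD.supp1 F hF) H0.hl0
    i6 := H0.i6
    lr := by omega
    n1 := dg_pos n _
    nl := dg_l H0.hD
    T := fun k h1 h2 => ⟨fun p hp => flat_of_FL ht hη.le (hF k h1 (h2.trans hKw)) hp, H.R3 k h1 h2,
      H.nS k h1 h2⟩
    tor := H.tor
    X0 := H.X0
    dd := H.dd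
    gR := H.gR
    gG := fun R h1 h2 => (gsF_spec hN h1 (h2.trans h2w)).2.2.2 }

/-- the number of the real part -/
lemma e5_le (hb : 0 < b) (ha : 1 ≤ a) (ha2 : a ≤ 2) (hη : 0 < η) (hη1 : 2 * η ≤ 1) (hB : 0 ≤ B1) :
    e5 a (tn n) (2 * η) b B1 (4 * s0 ^ 2) r1 r2 (dg n (2 * η)) ≤
      2 * η * (5 + b) * (s0 * (5 * √B1)) + 24 * η * s0 ^ 2 + (2 * r1 + r2) / 3 := by
  have hs0 := s0_pos
  have h1 := kap0_le (n := n) ha ha2 (η := 2 * η) (by linarith) hη1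
  have h2 := dg_Db (n := n) ha ha2 (η := 2 * η) (by linarith) hη1
  have h3 : kap1 (1 / b) a (tn n) (2 * η) (dg n (2 * η)) ≤ 2 * η * (5 + b) := by
    have h4 : 2 * a / Db (dg n (2 * η)) (tn n / a) ≤ 4 * (2 * η) := by
      have h5 : 0 < 1 / (2 * η) := by positivity
      rw [div_le_iff₀ (h5.trans_le h2)]
      have h6 := mul_le_mul_of_nonneg_left h2 (show 0 ≤ 4 * (2 * η) by positivity)
      have h7 : 4 * (2 * η) * (1 / (2 * η)) = 4 := by field_simp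
      linarith
    have h8 : 1 / (1 / b) = b := one_div_one_div b
    unfold kap1
    rw [h8]
    linarith
  have h9 : √(6 * B1 * (4 * s0 ^ 2)) ≤ s0 * (5 * √B1) := by
    have e : 6 * B1 * (4 * s0 ^ 2) = 24 * (s0 ^ 2 * B1) := by ring
    rw [e]
    refine Real.sqrt_le_iff.2 ⟨by positivity, ?_⟩
    have h10 := Real.sq_sqrt hB
    have h11 : (s0 * (5 * √B1)) ^ 2 = 25 * (s0 ^ 2 * B1) := by rw [mul_pow, mul_pow, h10]; ring
    rw [h11]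
    have : 0 ≤ s0 ^ 2 * B1 := by positivity
    linarith
  have h12 : kap1 (1 / b) a (tn n) (2 * η) (dg n (2 * η)) * √(6 * B1 * (4 * s0 ^ 2)) ≤
      2 * η * (5 + b) * (s0 * (5 * √B1)) :=
    mul_le_mul h3 h9 (Real.sqrt_nonneg _) (by positivity)
  have h13 : kap0 a (tn n) (2 * η) (dg n (2 * η)) * (4 * s0 ^ 2) / 2 ≤ 24 * η * s0 ^ 2 := by
    have h14 : 0 ≤ s0 ^ 2 := by positivity
    nlinarith
  unfold e5
  linarith

end

end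

end Vale.Agent.P159.H770.Sti
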