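import Vale.Agent.P159.H770.Sti5
import Vale.Agent.P159.H37.Lq5

/-!
P159 (helper770): **stationarity at the pairs along the flow** in helper37's form `Win`: helper145's
`StP`, and `ModK` at every scale of the window, from locality (`LcK`), smooth real fields (`SmK`) and
the class of decorations (`ClP`).
-/

set_option linter.unusedSectionVars false

namespace Vale.Agent.P159.H770.Sti

open Finset Filter Topology
open Vale.Agent.P159.TM.Spec (V)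
open Vale.Agent.P159.H817
open Vale.Agent.P159.H963.Core (RF nS)
open Vale.Agent.P159.H972 (lg tn Par)
open Vale.Agent.P159.H859.Idl
open Vale.Agent.P159.H773 (sd sd_pow sd_ne sd_ge)
open Vale.Agent.P159.H686 (StV RealR)
open Vale.Agent.P159.H276 (FlD)
open Vale.Agent.P159.H801 (SFlow itw)
open Vale.Agent.P159.H37.Sf (kf kE1 Win sf_big)
open Vale.Agent.P159.H145.Sp (StP)

noncomputable section

/-- **the class of decorations of one level** : closures, flows, strong numbers on all the tori of the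
window -/
structure ClP (i n l0 ρ rr k0 K1 : ℕ) (b A J r1 : ℝ) (D0 D1 : Dec) : Prop where
  dc : DecC l0 D0 D1
  fl : ∀ F, F ∈ D0 ∨ F ∈ D1 → FlD (tn n) ρ rr A J F
  A0 : 0 ≤ A
  J0 : 0 ≤ J
  hl : l0 ≤ 2 ^ lK n k0
  hρ : ρ + 2 ≤ 2 ^ (n + 5 * (k0 - n) / 8)
  hρr : 2 * ρ + rr + 4 < 2 ^ k0
  R3 : ∀ k, k0 ≤ k → k ≤ K1 → ∀ F, F ∈ D0 ∨ F ∈ D1 →
    RF (sd i (2 ^ k)) b (tn n) ((3 : ℝ) • dec F 0) ≤ r1

/-- helper145's `StP` from the two inputs of the comparison of pairs -/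
lemma stP_of {i n k0 K1 R nd : ℕ} {b a Λ ε₂ ε₃ L S B E ε₄ s : ℝ} {D0 D1 : Dec}
    (hSt : StV i b (tn n) a nd (fun k => 2 ^ lK n k) (fun _ => Λ) (fun _ => ε₂) (fun _ => ε₃) L S
      B E D0 D1 (bC (sd i (2 ^ K1)) (2 ^ K1)) k0 R (gsF i n K1 (2 ^ k0)) (gsF i n K1 R))
    (hRe : RealR i b (tn n) a nd D0 D1 k0 R (gsF i n K1 (2 ^ k0)) (gsF i n K1 R) ε₄)
    (h : ((Nat.clog 2 R : ℝ) - k0) * E + ε₄ ≤ s) : StP i b (tn n) a n k0 K1 R D0 D1 s :=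
  ⟨nd, fun _ => Λ, fun _ => ε₂, fun _ => ε₃, L, S, B, E, ε₄, hSt, hRe, h⟩

section flow

variable {P : Par} {b σ c c1 q2 qx : ℝ} {a y ε xs : ℕ → ℝ} {c' r q A : ℝ} {N : ℕ}

/-- **`StP` AND `ModK` ALONG THE FLOW** -/
theorem stP_win (hb : 0 < b) (hA : P.Adm) (hσ0 : 0 ≤ σ) (hσ : σ ≤ 1 / 4)
    (h : SFlow P b σ c c1 q2 qx a y ε xs c' r q A N) {ck : ℝ} (hck : 0 < ck)
    (hck1 : ck ≤ P.thp) (hth : 2 * P.th ≤ ck) {cL cB u c4 : ℝ} (hcL : 0 < cL) (hcB : 0 ≤ cB)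
    (h1 : 1 + c4 + 4 * P.thp < (2 - 3 * σ) * P.pf - 2 * cL) (h2 : 1 + c4 + 4 * P.thp < u)
    (h3 : 1 + c4 < (2 - 3 * σ) * P.pf - cB / 2) {i : ℕ} (hi : 6 ≤ i) {β C2 A0 : ℝ} {Am : ℕ}
    {D0 D1 : ℕ → Dec} {l0 ρ rr : ℕ → ℕ} {A' J' : ℕ → ℝ}
    (hC : ∀ᶠ n in atTop, ClP i n (l0 n) (ρ n) (rr n) (n + kf ck y n) (kE1 P ck y ε n) b (A' n)
      (J' n) (y n ^ u) (D0 n) (D1 n) ∧ A' n + J' n ≤ y n ^ (-cB))
    (hS : ∀ᶠ n in atTop, ∀ k, n + kf ck y n ≤ k → k ≤ kE1 P ck y ε n + 1 →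
      SmK i b (tn n) (y n ^ (-cL)) (y n ^ u) k)
    (hL : Win P b β C2 A0 Am i ck a y ε fun n R => ∀ k, n + kf ck y n ≤ k → k ≤ Nat.clog 2 R →
      LcK i n (l0 n) b (y n ^ (-cL)) (y n ^ u) (2 * (b * (J' n + J' n)) + (A' n + A' n)) (D0 n)
        (D1 n) k) :
    Win P b β C2 A0 Am i ck a y ε fun n R =>
      (∀ k, n + kf ck y n ≤ k → k ≤ Nat.clog 2 R →
        ModK i n b (y n ^ (-cL)) (y n ^ u) (y n ^ u) (D0 n) (D1 n) k) ∧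
      StP i b (tn n) (a n) n (n + kf ck y n) (kE1 P ck y ε n) R (D0 n) (D1 n)
        (y n ^ (1 + c4) / 16) := by
  have hCG := CG_pos
  have hs0 := s0_pos
  have g1 := sf_big h hcL (M := 10000000000 * (1 + CG + 37 * s0 + 1)) (by positivity)
  unfold Win at hL ⊢
  filter_upwards [stat_flow hb hA hσ0 hσ h hck hck1 hth hcB h1 h2 h3 i hi, hC, hS, hL, g1]
    with n HF HC HS HL HΛ
  intro n0 j hn R hR0 hR1 hK
  obtain ⟨Lv, H⟩ := HF _ _ rfl rfl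
  obtain ⟨C, hB⟩ := HC
  have hLc := HL n0 j hn R hR0 hR1 hK
  have hK1 : kE1 P ck y ε n = (n + P.w (ε n)) + kf ck y (n + P.w (ε n)) := rfl
  rw [hK1] at hR1 HS C ⊢
  have hc : Nat.clog 2 R ≤ (n + P.w (ε n)) + kf ck y (n + P.w (ε n)) :=
    (Nat.clog_le_iff_le_pow (by norm_num)).2 hR1
  have hkc : n + kf ck y n ≤ Nat.clog 2 R := by
    have h5 : 2 ^ (n + kf ck y n) ≤ 2 ^ Nat.clog 2 R := hR0.trans (Nat.le_pow_clog (by norm_num) R)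
    exact (Nat.pow_le_pow_iff_right (by norm_num)).1 h5
  have hyu : 0 ≤ y n ^ u := (Real.rpow_pos_of_pos Lv.hy0 _).le
  have hnm : ∀ k, n + kf ck y n ≤ k → k ≤ (n + P.w (ε n)) + kf ck y (n + P.w (ε n)) →
      NmK i n (sd i (2 ^ ((n + P.w (ε n)) + kf ck y (n + P.w (ε n)))))
        (2 ^ ((n + P.w (ε n)) + kf ck y (n + P.w (ε n)))) (l0 n) (17 * ε n ^ P.pf) k :=
    fun k e1 e2 => Lv.nm k e1 e2 (l0 n) C.hl
  have hMod : ∀ k, n + kf ck y n ≤ k → k ≤ Nat.clog 2 R →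
      ModK i n b (y n ^ (-cL)) (y n ^ u) (y n ^ u) (D0 n) (D1 n) k := fun k e1 e2 =>
    modK_of hb (hnm k e1 (e2.trans hc)) (hLc k e1 e2) (HS k e1 (by omega))
      (HS (k + 1) (by omega) (by omega))
  have hRe : ReIn i n b (a n) (D0 n) (D1 n) (n + kf ck y n) (Nat.clog 2 R)
      ((n + P.w (ε n)) + kf ck y (n + P.w (ε n))) (y n ^ u) (y n ^ u) (y n ^ u) (y n ^ u)
      (A' n + J' n) := by
    refine reIn_of hb Lv.ha hkc hc hnm C.dc hLc (fun k e1 e2 => HS k e1 (by omega)) ?_ C.fl C.A0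
      C.J0 le_rfl C.hρ C.hρr hyu fun k e1 e2 => C.R3 k e1 (e2.trans hc)
    have : (2 : ℝ) ≤ 10000000000 * (1 + CG + 37 * s0 + 1) := by linarith
    linarith
  obtain ⟨ε₂, E, ε₄, a1, a2, a3⟩ := H (l0 n) (y n ^ (-cL)) (y n ^ u) (y n ^ u) (y n ^ u) (y n ^ u)
    (y n ^ u) (A' n + J' n) (D0 n) (D1 n) C.dc C.hl
    ⟨HΛ, le_rfl, hyu, le_rfl, hyu, le_rfl, le_rfl, le_rfl, le_rfl, add_nonneg C.A0 C.J0, hB⟩ R
    hR0 hR1 hRe fun k e1 e2 => hMod k e1 e2.le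
  exact ⟨hMod, stP_of a1 a2 a3⟩

end flow

end

end Vale.Agent.P159.H770.Sti
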