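import Vale.Agent.P159.H770.Sti6
import Vale.Agent.P159.H773.Mem1

/-!
P159 (helper770): the class of decorations of one level (`ClP`) for helper773's class `DD` over a class
with flow numbers (helper276), and its numbers along the flow.
-/

set_option linter.unusedSectionVars false

namespace Vale.Agent.P159.H770.Sti

open Finset Filter Topology
open Vale.Agent.P159.TM.Spec (V)
open Vale.Agent.P159.H817
open Vale.Agent.P159.H963.Core (RF nS)
open Vale.Agent.P159.H972 (lg tn Par)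
open Vale.Agent.P159.H859.Idl
open Vale.Agent.P159.H773 (sd sd_pow sd_ne sd_ge DD DD_supp DD_neg DD_nrfl)
open Vale.Agent.P159.H276 (FlD)
open Vale.Agent.P159.H801 (SFlow itw)
open Vale.Agent.P159.H37.Sf (kf kE1 Win sf_big lb_tend)
open Vale.Agent.P159.H145.Sp (lC l0C)

noncomputable section

/-- **helper773's class is admissible** -/
theorem clP_DD {i n l0 ρ rr k0 K1 : ℕ} {b A J r1 r1' : ℝ} {E : Dec} (hb : 0 < b)
    (hE : ∀ F ∈ E, (fun u v => -F u v) ∈ E) (hF : ∀ F ∈ E, FlD (tn n) ρ rr A J F) (hA : 0 ≤ A)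
    (hJ : 0 ≤ J) (hl : l0 ≤ 2 ^ lK n k0) (hρ : ρ + 2 ≤ 2 ^ (n + 5 * (k0 - n) / 8))
    (hρr : 2 * ρ + rr + 4 < 2 ^ k0) (h2 : 2 * l0 + 4 < 2 ^ (i + k0)) (hr : r1 ≤ r1') :
    ClP i n l0 ρ rr k0 K1 b A J r1' (DD i b (tn n) r1 l0 k0 K1 E)
      (DD i b (tn n) r1 l0 k0 K1 E) where
  dc := ⟨fun F h => DD_supp h, fun F h => DD_supp h, fun F h => DD_neg hb (tn_pos' n) hE h,
    fun F h => DD_neg hb (tn_pos' n) hE h, fun F h => DD_nrfl hb (tn_pos' n) hE h2 h⟩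
  fl := fun F h => by
    rcases h with h | h
    · exact hF F h.2.2.1
    · exact hF F h.2.2.1
  A0 := hA
  J0 := hJ
  hl := hl
  hρ := hρ
  hρr := hρr
  R3 := fun k h0 h1 F h => by
    rcases h with h | h
    · exact (h.2.2.2.2 k h0 h1).trans hr
    · exact (h.2.2.2.2 k h0 h1).trans hr

section flow

variable {P : Par} {b σ c c1 q2 qx : ℝ} {a y ε xs : ℕ → ℝ} {c' r q A : ℝ} {N : ℕ}

/-- the window exponent is large -/
lemma kf_big (h : SFlow P b σ c c1 q2 qx a y ε xs c' r q A N) {ck : ℝ} (hck : 0 < ck) (K : ℕ) :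
    ∀ᶠ n in atTop, K ≤ kf ck y n := by
  filter_upwards [(lb_tend h.fl.y0 h.fl.yt).eventually_ge_atTop ((K : ℝ) / ck)] with n g
  have h1 : (K : ℝ) ≤ ck * Real.logb 2 (1 / y n) := by
    rw [div_le_iff₀ hck] at g
    linarith
  have h2 : ck * Real.logb 2 (1 / y n) ≤ (kf ck y n : ℝ) := Nat.le_ceil _
  exact_mod_cast h1.trans h2

/-- the size of the numbers of the class -/
lemma four_kf {ck : ℝ} (hck : 0 < ck) {y : ℕ → ℝ} {n : ℕ} (hy : 0 < y n) (hy1 : y n ≤ 1) :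
    (4 : ℝ) ^ (kf ck y n / 16) ≤ 2 * y n ^ (-(ck / 8)) := by
  have hlb : 0 ≤ Real.logb 2 (1 / y n) :=
    Real.logb_nonneg one_lt_two (by rw [le_div_iff₀ hy]; linarith)
  have h1 : (kf ck y n : ℝ) ≤ ck * Real.logb 2 (1 / y n) + 1 :=
    (Nat.ceil_lt_add_one (mul_nonneg hck.le hlb)).le
  have h2 : (4 : ℝ) ^ (kf ck y n / 16) = 2 ^ (2 * (kf ck y n / 16)) := by
    rw [pow_mul]
    norm_num
  have h3 : ((2 * (kf ck y n / 16) : ℕ) : ℝ) ≤ (kf ck y n : ℝ) / 8 := by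
    rw [le_div_iff₀ (by norm_num)]
    have : 2 * (kf ck y n / 16) * 8 ≤ kf ck y n := by omega
    exact_mod_cast this
  have h4 : ((2 * (kf ck y n / 16) : ℕ) : ℝ) ≤ 1 + ck / 8 * Real.logb 2 (1 / y n) := by
    linarith
  rw [h2, ← Real.rpow_natCast]
  refine (Real.rpow_le_rpow_of_exponent_le (by norm_num) h4).trans (le_of_eq ?_)
  rw [Real.rpow_add (by norm_num), Real.rpow_one, mul_comm (ck / 8), Real.rpow_mul (by norm_num),
    Real.rpow_logb (by norm_num) (by norm_num) (by positivity), one_div,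
    Real.inv_rpow hy.le, Real.rpow_neg hy.le]

/-- **the class along the flow** -/
theorem clP_flow (hb : 0 < b) (h : SFlow P b σ c c1 q2 qx a y ε xs c' r q A N) {ck : ℝ}
    (hck : 0 < ck) {i : ℕ} (m0 : ℕ) {M cs cB u : ℝ} (hM : 0 ≤ M) (hcB : ck / 8 + cs < cB)
    {ρ rr : ℕ → ℕ} {A' r1 : ℕ → ℝ} {E : ℕ → Dec}
    (hρ : ∀ᶠ n in atTop, ρ n ≤ 2 ^ (n + kf ck y n / 16 + m0))
    (hrr : ∀ᶠ n in atTop, rr n ≤ 2 ^ (n + m0))
    (hA : ∀ᶠ n in atTop, 0 ≤ A' n ∧ A' n ≤ M * 4 ^ (kf ck y n / 16) * y n ^ (-cs))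
    (hr : ∀ᶠ n in atTop, r1 n ≤ y n ^ u)
    (hE : ∀ᶠ n in atTop, ∀ F ∈ E n, (fun u v => -F u v) ∈ E n)
    (hF : ∀ᶠ n in atTop, ∀ F ∈ E n, FlD (tn n) (ρ n) (rr n) (A' n) (A' n) F) :
    ∀ᶠ n in atTop, ClP i n (l0C n (kf ck y n)) (ρ n) (rr n) (n + kf ck y n) (kE1 P ck y ε n) b
      (A' n) (A' n) (y n ^ u)
      (DD i b (tn n) (r1 n) (l0C n (kf ck y n)) (n + kf ck y n) (kE1 P ck y ε n) (E n))
      (DD i b (tn n) (r1 n) (l0C n (kf ck y n)) (n + kf ck y n) (kE1 P ck y ε n) (E n)) ∧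
      A' n + A' n ≤ y n ^ (-cB) := by
  filter_upwards [hρ, hrr, hA, hr, hE, hF, kf_big h hck (4 * m0 + 64),
    sf_big h (p := cB - (ck / 8 + cs)) (M := 4 * M + 1) (by linarith) (by positivity),
    eventually_ge_atTop N] with n g1 g2 g3 g4 g5 g6 g7 g8 hn
  have hy := h.fl.y0 n
  have hy1 := h.y1 n hn
  obtain ⟨k, hk⟩ : ∃ k, kf ck y n = k := ⟨_, rfl⟩
  have hl0 : l0C n (kf ck y n) = 2 ^ (n + k / 16 + 5) := by
    unfold H145.Sp.l0C H145.Sp.lC
    rw [hk, pow_add _ (n + k / 16) 5]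
    ring
  have hsub : n + kf ck y n - n = k := by omega
  have e1 : lK n (n + kf ck y n) = n + 3 * k / 4 := by
    unfold lK
    rw [hsub]
  refine ⟨clP_DD hb g5 g6 g3.1 g3.1 ?_ ?_ ?_ ?_ g4, ?_⟩
  · rw [hl0, e1]
    exact Nat.pow_le_pow_right (by norm_num) (by omega)
  · rw [hsub]
    rw [hk] at g1
    have h1 : 2 ^ (n + k / 16 + m0) * 2 ^ 2 ≤ 2 ^ (n + 5 * k / 8) := by
      rw [← pow_add]
      exact Nat.pow_le_pow_right (by norm_num) (by omega)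
    have h2 : 0 < 2 ^ (n + k / 16 + m0) := by positivity
    omega
  · rw [hk] at g1 ⊢
    have h1 : 2 ^ (n + k / 16 + m0) * 2 ^ 4 ≤ 2 ^ (n + k) := by
      rw [← pow_add]
      exact Nat.pow_le_pow_right (by norm_num) (by omega)
    have h2 : 2 ^ (n + m0) ≤ 2 ^ (n + k / 16 + m0) :=
      Nat.pow_le_pow_right (by norm_num) (by omega)
    have h3 : 0 < 2 ^ (n + k / 16 + m0) := by positivity
    omega
  · rw [hl0, hk]
    have h1 : 2 ^ (n + k / 16 + 5) * 2 ^ 3 ≤ 2 ^ (i + (n + k)) := by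
      rw [← pow_add]
      exact Nat.pow_le_pow_right (by norm_num) (by omega)
    have h3 : 0 < 2 ^ (n + k / 16 + 5) := by positivity
    omega
  · have h1 := four_kf hck (n := n) hy hy1
    have h2 : 0 < y n ^ (-cs) := Real.rpow_pos_of_pos hy _
    have h3 : A' n ≤ M * (2 * y n ^ (-(ck / 8))) * y n ^ (-cs) :=
      g3.2.trans (mul_le_mul_of_nonneg_right (mul_le_mul_of_nonneg_left h1 hM) h2.le)
    have h4 : y n ^ (-(ck / 8)) * y n ^ (-cs) = y n ^ (-(ck / 8 + cs)) := by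
      rw [← Real.rpow_add hy]
      congr 1
      ring
    have h5 : y n ^ (-cB) = y n ^ (-(cB - (ck / 8 + cs))) * y n ^ (-(ck / 8 + cs)) := by
      rw [← Real.rpow_add hy]
      congr 1
      ring
    have h6 : 0 < y n ^ (-(ck / 8 + cs)) := Real.rpow_pos_of_pos hy _
    rw [h5]
    calc A' n + A' n ≤ 4 * M * (y n ^ (-(ck / 8)) * y n ^ (-cs)) := by linarith
      _ = 4 * M * y n ^ (-(ck / 8 + cs)) := by rw [h4]
      _ ≤ y n ^ (-(cB - (ck / 8 + cs))) * y n ^ (-(ck / 8 + cs)) :=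
          mul_le_mul_of_nonneg_right (by linarith) h6.le

end flow

end

end Vale.Agent.P159.H770.Sti
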