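import Vale.Agent.P159.H770.Sti7
import Vale.Agent.P159.H612.LocF3
import Vale.Agent.P159.H816.Sm3
import Vale.Agent.P159.H474.Ev1

/-!
P159 (helper770): **stationarity at the pairs along the flow, closed form**: helper145's `StP` and
`ModK` for helper773's class `DD` over a class with flow numbers; the only inputs left are the class and
the base data `PrN` (helper529) of the far pairs.
-/

set_option linter.unusedSectionVars false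

namespace Vale.Agent.P159.H770.Sti

open Finset Filter Topology
open Vale.Agent.P159.TM
open Vale.Agent.P159.TM.Spec (V)
open Vale.Agent.P159.H817
open Vale.Agent.P159.H963.Core (RF nS)
open Vale.Agent.P159.H972 (lg tn Par)
open Vale.Agent.P159.H859.Idl
open Vale.Agent.P159.H773 (sd sd_pow sd_ne sd_ge DD DD_supp)
open Vale.Agent.P159.H276 (FlD)
open Vale.Agent.P159.H529.Pr (PrN)
open Vale.Agent.P159.H801 (SFlow itw Ev)
open Vale.Agent.P159.H37.Sf (kf kE1 Win)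
open Vale.Agent.P159.H145.Sp (lC l0C StP)
open Vale.Agent.P159.H474.Cb (LocC LNP)

noncomputable section

/-- **the base data of the far pairs of the window** (helper529's `PrN`), core radius `rc n` -/
def PrW (P : Par) (b β C2 A0 : ℝ) (Am i : ℕ) (ck M c1 : ℝ) (a y ε : ℕ → ℝ) (rc : ℕ → ℕ) : Prop :=
  Win P b β C2 A0 Am i ck a y ε fun n R => ∀ k, n + kf ck y n ≤ k → k ≤ Nat.clog 2 R →
    ∃ Δ cp : ℝ, Δ ≤ M * (1 + Real.log (1 / y n)) ^ 2 ∧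
      cp ≤ M * (1 + ((k - n : ℕ) : ℝ) + y n ^ (-c1)) ∧
      (∀ p q : V (sd i (2 ^ k)), H817.Far (2 ^ k) p q →
        PrN (sd i (2 ^ k)) b (tn n) (rc n) p q Δ cp) ∧
      ∀ p q : V (sd i (2 ^ (k + 1))), H817.Far (2 ^ k) p q →
        PrN (sd i (2 ^ (k + 1))) b (tn n) (rc n) p q Δ cp

/-- **the class of the flow numbers**, its radii and numbers along the levels -/
structure EdC (ck M cs : ℝ) (m0 : ℕ) (y : ℕ → ℝ) (ρ rr : ℕ → ℕ) (A' : ℕ → ℝ)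
    (E : ℕ → Dec) : Prop where
  hρ : ∀ᶠ n in atTop, ρ n ≤ 2 ^ (n + kf ck y n / 16 + m0)
  hrr : ∀ᶠ n in atTop, rr n ≤ 2 ^ (n + m0)
  hA : ∀ᶠ n in atTop, 0 ≤ A' n ∧ A' n ≤ M * 4 ^ (kf ck y n / 16) * y n ^ (-cs)
  neg : ∀ᶠ n in atTop, ∀ F ∈ E n, (fun u v => -F u v) ∈ E n
  fl : ∀ᶠ n in atTop, ∀ F ∈ E n, FlD (tn n) (ρ n) (rr n) (A' n) (A' n) F

section flow

variable {P : Par} {b σ cc c1 q2 qx : ℝ} {a y ε xs : ℕ → ℝ} {c' r q A : ℝ} {N : ℕ}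

/-- **locality along the flow in the form `Win`** -/
theorem lcK_win (hP : P.Adm) (hb : 0 < b) (hσ : 0 ≤ σ) (hσ1 : σ ≤ 1 / 4) (hcc : 0 ≤ cc)
    (hcc1 : 40 * cc ≤ 1) (h : SFlow P b σ cc c1 q2 qx a y ε xs c' r q A N) (hc1 : 0 < c1)
    (hc1t : c1 ≤ P.th / 100) (HL : LNP P) {ck : ℝ} (hck : 4 * P.th ≤ ck) (hck1 : ck ≤ P.thp)
    {i : ℕ} (hi : 6 ≤ i) {m0 : ℕ} (hm0 : 5 ≤ m0) {M : ℝ} (hM : 0 ≤ M) {β C2 A0 : ℝ} {Am : ℕ}
    {ρ rr : ℕ → ℕ} {A' : ℕ → ℝ} {E D : ℕ → Dec} (hE : EdC ck M (4 * c1) m0 y ρ rr A' E)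
    (hD : ∀ n, ∀ F ∈ D n, SuppD (l0C n (kf ck y n)) F ∧ F ∈ E n)
    (hPr : PrW P b β C2 A0 Am i ck M c1 a y ε rr) :
    Win P b β C2 A0 Am i ck a y ε fun n R => ∀ k, n + kf ck y n ≤ k → k ≤ Nat.clog 2 R →
      LcK i n (l0C n (kf ck y n)) b (y n ^ (-c1)) (y n ^ (9 / 8 : ℝ))
        (2 * (b * (A' n + A' n)) + (A' n + A' n)) (D n) (D n) k := by
  obtain ⟨L₀, c, C, Al, H⟩ := HL
  have hth := P.th0
  have hthp : P.thp ≤ 1 / 96 := by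
    have := hP.hx
    have := hP.x11
    linarith
  unfold PrW Win at hPr
  unfold Win
  filter_upwards [H612.LocK.lcK_flow (i := i) hP hb hσ hσ1 hcc h H m0 (by omega) (u := 9 / 8) (cL := c1)
    (cs := 4 * c1) hck hck1 (by norm_num) (by linarith) hM (by linarith) (by linarith), hPr, hE.hρ,
    hE.hrr, hE.hA, hE.fl, eventually_ge_atTop N] with n G g1 g2 g3 g4 g5 hn
  intro n0 j hnj R hR0 hR1 hK k hk0 hk1
  have hy := h.fl.y0 n
  have hy1 := h.y1 n hn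
  have hc : Nat.clog 2 R ≤ (n + P.w (ε n)) + kf ck y (n + P.w (ε n)) :=
    (Nat.clog_le_iff_le_pow (by norm_num)).2 hR1
  obtain ⟨Δ, cp, e1, e2, e3, e4⟩ := g1 n0 j hnj R hR0 hR1 hK k hk0 hk1
  have hl0 : l0C n (kf ck y n) ≤ 2 ^ (n + kf ck y n / 16 + m0) := by
    have e : l0C n (kf ck y n) = 2 ^ (n + kf ck y n / 16 + 5) := by
      unfold H145.Sp.l0C H145.Sp.lC
      rw [pow_add _ (n + kf ck y n / 16) 5]
      ring
    rw [e]
    exact Nat.pow_le_pow_right (by norm_num) (by omega)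
  have hs : y n ^ (-c1) ≤ y n ^ (-(4 * c1)) :=
    Real.rpow_le_rpow_of_exponent_ge hy hy1 (by linarith)
  have hs0 : 0 < y n ^ (-(4 * c1)) := Real.rpow_pos_of_pos hy _
  refine G k hk0 (hk1.trans hc) (l0C n (kf ck y n)) (ρ n) (rr n) (y n ^ (-c1))
    (y n ^ (-(4 * c1))) Δ cp (A' n) (A' n) (D n) (D n) hl0 g2 g3 (Real.rpow_pos_of_pos hy _).le
    le_rfl hs0.le le_rfl (fun F hF => (hD n F hF).1) (fun F hF => (hD n F hF).1)
    (fun F hF => g5 F (hD n F hF).2) (fun F hF => g5 F (hD n F hF).2) e3 e4 ?_ e1 g4.2 g4.2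
  exact e2.trans (mul_le_mul_of_nonneg_left (by linarith) hM)

/-- **`StP` AND `ModK` ALONG THE FLOW** for helper773's class `DD` -/
theorem stP_DD (hP : P.Adm) (hb : 0 < b) (hσ : 0 ≤ σ) (hσ1 : σ ≤ 1 / 4) (hcc : 0 ≤ cc)
    (hcc1 : 40 * cc ≤ 1) (h : SFlow P b σ cc c1 q2 qx a y ε xs c' r q A N) (hc1 : 0 < c1)
    (hc1t : c1 ≤ P.th / 100) (hpf : 9 / 10 ≤ P.pf) (HL : LNP P) {ck : ℝ} (hck : 4 * P.th ≤ ck)
    (hck1 : ck ≤ P.thp) {i : ℕ} (hi : 6 ≤ i) {m0 : ℕ} (hm0 : 5 ≤ m0) {M : ℝ} (hM : 0 ≤ M)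
    {c4 : ℝ} (hc4 : c4 ≤ 1 / 16) {β C2 A0 : ℝ} {Am : ℕ} {ρ rr : ℕ → ℕ} {A' r1 : ℕ → ℝ}
    {E : ℕ → Dec} (hE : EdC ck M (4 * c1) m0 y ρ rr A' E)
    (hr : ∀ᶠ n in atTop, r1 n ≤ y n ^ (9 / 8 : ℝ))
    (hS : ∀ᶠ n in atTop, ∀ k, n + kf ck y n ≤ k → k ≤ kE1 P ck y ε n + 1 →
      SmK i b (tn n) (y n ^ (-c1)) (y n ^ (9 / 8 : ℝ)) k)
    (hPr : PrW P b β C2 A0 Am i ck M c1 a y ε rr) :
    Win P b β C2 A0 Am i ck a y ε fun n R =>
      (∀ k, n + kf ck y n ≤ k → k ≤ Nat.clog 2 R →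
        ModK i n b (y n ^ (-c1)) (y n ^ (9 / 8 : ℝ)) (y n ^ (9 / 8 : ℝ))
          (DD i b (tn n) (r1 n) (l0C n (kf ck y n)) (n + kf ck y n) (kE1 P ck y ε n) (E n))
          (DD i b (tn n) (r1 n) (l0C n (kf ck y n)) (n + kf ck y n) (kE1 P ck y ε n) (E n)) k) ∧
      StP i b (tn n) (a n) n (n + kf ck y n) (kE1 P ck y ε n) R
        (DD i b (tn n) (r1 n) (l0C n (kf ck y n)) (n + kf ck y n) (kE1 P ck y ε n) (E n))
        (DD i b (tn n) (r1 n) (l0C n (kf ck y n)) (n + kf ck y n) (kE1 P ck y ε n) (E n))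
        (y n ^ (1 + c4) / 16) := by
  have hth := P.th0
  have hthp0 := P.thp0
  have hthp : P.thp ≤ 1 / 96 := by
    have := hP.hx
    have := hP.x11
    linarith
  have hpf2 : 9 / 8 ≤ (2 - 3 * σ) * P.pf := by nlinarith
  have hcl := clP_flow (P := P) (ε := ε) hb h (by linarith) (i := i) m0 (u := 9 / 8) hM
    (cs := 4 * c1) (cB := ck / 4) (by linarith) hE.hρ hE.hrr hE.hA hr hE.neg hE.fl
  have hlc := lcK_win (β := β) (C2 := C2) (A0 := A0) (Am := Am) (D := fun n =>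
      DD i b (tn n) (r1 n) (l0C n (kf ck y n)) (n + kf ck y n) (kE1 P ck y ε n) (E n)) hP hb hσ hσ1
    hcc hcc1 h hc1 hc1t HL hck hck1 hi hm0 hM hE (fun n F hF => ⟨hF.1, hF.2.2.1⟩) hPr
  exact stP_win (l0 := fun n => l0C n (kf ck y n)) hb hP hσ hσ1 h (by linarith) hck1 (by linarith)
    (cL := c1) (cB := ck / 4) (u := 9 / 8) (c4 := c4) hc1 (by linarith) (by linarith)
    (by linarith) (by linarith) hi hcl hS hlc

end flow

lemma ev_pf {b1 b2 pf : ℝ} (Q : ℕ) : Ev b1 b2 pf Q fun P _ => P.pf = pf := by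
  unfold H801.Ev
  exact Eventually.of_forall fun _ => Eventually.of_forall fun _ => Eventually.of_forall fun _ =>
    Eventually.of_forall fun _ => Eventually.of_forall fun _ => Eventually.of_forall fun _ =>
    Eventually.of_forall fun _ => Eventually.of_forall fun _ =>
    Eventually.of_forall fun _ P hP => hP.epf

/-- **`StP` AND `ModK` ALONG THE FLOW, in the order of constants**: inputs left = the class (helper276,
helper773) and the base data of the far pairs (helper529) -/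
theorem stP_ev {b b1 b2 pf : ℝ} (hb1 : 0 < b1) (h1 : b1 ≤ b) (hpf : 9 / 10 ≤ pf)
    (hA6 : Spec.ThmA6 b1 b2 (5 / 2)) (Q : ℕ) :
    Ev b1 b2 pf Q fun P c1 => 0 < c1 ∧ c1 ≤ P.th / 100 ∧
      ∀ {σ cc q2 qx : ℝ} {a y ε xs : ℕ → ℝ} {c' r q A : ℝ} {N : ℕ},
      SFlow P b σ cc c1 q2 qx a y ε xs c' r q A N → 0 ≤ σ → σ ≤ 1 / 4 → 0 ≤ cc → 40 * cc ≤ 1 →
      ∀ ck : ℝ, 4 * P.th ≤ ck → ck ≤ P.thp → ∀ i : ℕ, 6 ≤ i → ∀ m0 : ℕ, 5 ≤ m0 → ∀ M : ℝ, 0 ≤ M →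
      ∀ c4 : ℝ, c4 ≤ 1 / 16 → ∀ (β C2 A0 : ℝ) (Am : ℕ) (ρ rr : ℕ → ℕ) (A' r1 : ℕ → ℝ)
        (E : ℕ → Dec), EdC ck M (4 * c1) m0 y ρ rr A' E →
      (∀ᶠ n in atTop, r1 n ≤ y n ^ (9 / 8 : ℝ)) → PrW P b β C2 A0 Am i ck M c1 a y ε rr →
      Win P b β C2 A0 Am i ck a y ε fun n R =>
        (∀ k, n + kf ck y n ≤ k → k ≤ Nat.clog 2 R →
          ModK i n b (y n ^ (-c1)) (y n ^ (9 / 8 : ℝ)) (y n ^ (9 / 8 : ℝ))
            (DD i b (tn n) (r1 n) (l0C n (kf ck y n)) (n + kf ck y n) (kE1 P ck y ε n) (E n))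
            (DD i b (tn n) (r1 n) (l0C n (kf ck y n)) (n + kf ck y n) (kE1 P ck y ε n) (E n)) k) ∧
        StP i b (tn n) (a n) n (n + kf ck y n) (kE1 P ck y ε n) R
          (DD i b (tn n) (r1 n) (l0C n (kf ck y n)) (n + kf ck y n) (kE1 P ck y ε n) (E n))
          (DD i b (tn n) (r1 n) (l0C n (kf ck y n)) (n + kf ck y n) (kE1 P ck y ε n) (E n))
          (y n ^ (1 + c4) / 16) := by
  have hb : 0 < b := hb1.trans_le h1
  refine (((H474.Cb.ev_ln hb1 hA6 pf Q).and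
    (H816.smK_flow (b2 := b2) hb1 h1 (by linarith) Q)).and (ev_pf Q)).mono
    fun P c1 hP hH => ?_
  obtain ⟨⟨HL, hc1, hc1t, hSm⟩, hpfe⟩ := hH
  refine ⟨hc1, hc1t, ?_⟩
  intro σ cc q2 qx a y ε xs c' r q A N h hσ hσ1 hcc hcc1 ck hck hck1 i hi m0 hm0 M hM c4 hc4 β C2
    A0 Am ρ rr A' r1 E hE hr hPr
  have hth := P.th0
  refine stP_DD hP hb hσ hσ1 hcc hcc1 h hc1 hc1t (by rw [hpfe]; exact hpf) HL hck hck1 hi hm0 hM
    hc4 hE hr ?_ hPr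
  filter_upwards [hSm h hσ hσ1 ck (by linarith) (by linarith) hck1 i (by omega)] with n hn
  exact hn.2

end

end Vale.Agent.P159.H770.Sti
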